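import Vale.Agent.P173.MathlibUsed
import Vale.Agent.P173.Defs
import Vale.Agent.P173.GdDefs

set_option linter.all false

section

section

/-! # P173, sections 3.4 - 3.7: holonomies on a Cayley complex, the exactness lemma and the
unipotent extension argument, in an abstract setting. -/

namespace Vale.Agent.P173.Hol

section Holonomy

variable {G X : Type*} [Group G] {L : Type*} [Group L]

/-- The action of one letter on `G × L`. -/
def letter (φ : X → G) (z : X → G → L) (x : X) : Equiv.Perm (G × L) where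
  toFun p := (φ x * p.1, z x p.1 * p.2)
  invFun p := ((φ x)⁻¹ * p.1, (z x ((φ x)⁻¹ * p.1))⁻¹ * p.2)
  left_inv p := by simp
  right_inv p := by simp

/-- The action of words on `G × L`. -/
def act (φ : X → G) (z : X → G → L) : FreeGroup X →* Equiv.Perm (G × L) :=
  FreeGroup.lift (letter φ z)

/-- Holonomy of the labelling `z` along the path of the word `w` starting at `h`. -/
def hol (φ : X → G) (z : X → G → L) (w : FreeGroup X) (h : G) : L :=
  (act φ z w (h, 1)).2

theorem act_apply (φ : X → G) (z : X → G → L) (w : FreeGroup X) (h : G) (a : L) :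
    act φ z w (h, a) = (FreeGroup.lift φ w * h, hol φ z w h * a) := by
  have key : ∀ w : FreeGroup X, ∀ h : G, ∀ a : L,
      act φ z w (h, a) = (FreeGroup.lift φ w * h, (act φ z w (h, 1)).2 * a) := by
    intro w
    induction w using FreeGroup.induction_on with
    | C1 => intro h a; simp only [map_one, Equiv.Perm.coe_one, id_eq, one_mul]
    | of x => intro h a; simp only [act, FreeGroup.lift_apply_of, letter, Equiv.coe_fn_mk, mul_one]
    | inv_of x _ => intro h a; simp only [act, map_inv, FreeGroup.lift_apply_of, letter, Equiv.Perm.inv_def, Equiv.symm_mk, Equiv.coe_fn_mk, mul_one]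
    | mul u v hu hv =>
      intro h a
      have e1 := hu (FreeGroup.lift φ v * h) ((act φ z v (h, 1)).2 * a)
      have e2 := hu (FreeGroup.lift φ v * h) ((act φ z v (h, 1)).2 * 1)
      have e3 := hv h 1
      have e4 : act φ z v (h, 1) = (FreeGroup.lift φ v * h, (act φ z v (h, 1)).2 * 1) := e3
      rw [map_mul, map_mul, Equiv.Perm.mul_apply, Equiv.Perm.mul_apply, hv h a, e1]
      conv_rhs => rw [e4, e2]
      simp only [mul_assoc, mul_one]
  exact key w h a

@[simp] theorem hol_one (φ : X → G) (z : X → G → L) (h : G) : hol φ z 1 h = 1 := by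
  simp only [hol, map_one, Equiv.Perm.coe_one, id_eq]

@[simp] theorem hol_of (φ : X → G) (z : X → G → L) (x : X) (h : G) :
    hol φ z (FreeGroup.of x) h = z x h := by
  simp only [hol, act, FreeGroup.lift_apply_of, letter, Equiv.coe_fn_mk, mul_one]

theorem hol_mul (φ : X → G) (z : X → G → L) (u v : FreeGroup X) (h : G) :
    hol φ z (u * v) h = hol φ z u (FreeGroup.lift φ v * h) * hol φ z v h := by
  have h1 : act φ z (u * v) (h, 1) = act φ z u (act φ z v (h, 1)) := by
    rw [map_mul, Equiv.Perm.mul_apply]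
  have h2 : hol φ z (u * v) h = (act φ z u (act φ z v (h, 1))).2 := by
    rw [← h1]; rfl
  rw [h2, act_apply φ z v h 1, act_apply]
  simp

theorem hol_inv (φ : X → G) (z : X → G → L) (u : FreeGroup X) (h : G) :
    hol φ z u⁻¹ h = (hol φ z u ((FreeGroup.lift φ u)⁻¹ * h))⁻¹ := by
  have h1 := hol_mul φ z u u⁻¹ h
  rw [mul_inv_cancel, hol_one, map_inv] at h1
  exact (inv_eq_of_mul_eq_one_right h1.symm).symm

/-- Holonomy vanishes on products of conjugates of words with vanishing holonomy. -/
theorem hol_eq_one_of_mem_closure (φ : X → G) (z : X → G → L) (N : Subgroup (FreeGroup X))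
    (T : Set (FreeGroup X)) (P : Set G)
    (hP : ∀ n ∈ N, ∀ h ∈ P, FreeGroup.lift φ n * h ∈ P)
    (hT : ∀ t ∈ T, FreeGroup.lift φ t = 1 ∧ ∀ h ∈ P, hol φ z t h = 1)
    (w : FreeGroup X)
    (hw : w ∈ Subgroup.closure {g | ∃ n ∈ N, ∃ t ∈ T, g = n * t * n⁻¹}) :
    FreeGroup.lift φ w = 1 ∧ ∀ h ∈ P, hol φ z w h = 1 := by
  induction hw using Subgroup.closure_induction with
  | mem g hg =>
    obtain ⟨n, hn, t, ht, rfl⟩ := hg
    obtain ⟨ht1, ht2⟩ := hT t ht
    refine ⟨by simp only [map_mul, ht1, mul_one, map_inv, mul_inv_cancel], fun h hh => ?_⟩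
    have hn' : FreeGroup.lift φ n⁻¹ * h ∈ P := hP n⁻¹ (N.inv_mem hn) h hh
    rw [mul_assoc, hol_mul, hol_mul, ht2 _ hn']
    rw [map_mul, ht1, one_mul, hol_inv, map_inv]
    simp only [one_mul, mul_inv_cancel]
  | one => exact ⟨by simp, fun h _ => by simp⟩
  | mul u v _ _ hu hv =>
    refine ⟨by rw [map_mul, hu.1, hv.1, one_mul], fun h hh => ?_⟩
    rw [hol_mul, hv.1, one_mul, hu.2 h hh, hv.2 h hh, one_mul]
  | inv u _ hu =>
    refine ⟨by rw [map_inv, hu.1, inv_one], fun h hh => ?_⟩
    rw [hol_inv, hu.1, inv_one, one_mul, hu.2 h hh, inv_one]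

end Holonomy

section Additive

variable {G X : Type*} [Group G] {A : Type*} [AddCommGroup A]

/-- Additive holonomy: the sum of the edge values `b` along the path of `w` from `h`. -/
def S (φ : X → G) (b : X → G → A) (w : FreeGroup X) (h : G) : A :=
  Multiplicative.toAdd (hol φ (fun x h => Multiplicative.ofAdd (b x h)) w h)

@[simp] theorem S_one (φ : X → G) (b : X → G → A) (h : G) : S φ b 1 h = 0 := by simp [S]

@[simp] theorem S_of (φ : X → G) (b : X → G → A) (x : X) (h : G) :
    S φ b (FreeGroup.of x) h = b x h := by simp [S]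

theorem S_mul (φ : X → G) (b : X → G → A) (u v : FreeGroup X) (h : G) :
    S φ b (u * v) h = S φ b u (FreeGroup.lift φ v * h) + S φ b v h := by
  simp only [S]
  rw [hol_mul]
  rfl

theorem S_inv (φ : X → G) (b : X → G → A) (u : FreeGroup X) (h : G) :
    S φ b u⁻¹ h = - S φ b u ((FreeGroup.lift φ u)⁻¹ * h) := by
  simp only [S]
  rw [hol_inv]
  rfl

theorem S_sub (φ : X → G) (b b' : X → G → A) (w : FreeGroup X) (h : G) :
    S φ (fun x h => b x h - b' x h) w h = S φ b w h - S φ b' w h := by
  induction w using FreeGroup.induction_on generalizing h with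
  | C1 => simp
  | of x => simp
  | inv_of x _ => simp only [S_inv, FreeGroup.lift_apply_of, S_of, neg_sub, sub_neg_eq_add]; abel
  | mul u v hu hv => rw [S_mul, S_mul, S_mul, hu, hv]; abel

theorem S_coboundary (φ : X → G) (u : G → A) (w : FreeGroup X) (h : G) :
    S φ (fun x h => u (φ x * h) - u h) w h = u (FreeGroup.lift φ w * h) - u h := by
  induction w using FreeGroup.induction_on generalizing h with
  | C1 => simp only [S_one, map_one, one_mul, sub_self]
  | of x => simp
  | inv_of x _ => simp only [S_inv, FreeGroup.lift_apply_of, S_of, mul_inv_cancel_left, neg_sub, map_inv]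
  | mul v w hv hw => rw [S_mul, hv, hw, map_mul, mul_assoc]; abel

end Additive

/-- The system of pieces in a Cayley complex. -/
structure Pieces (G X R V : Type*) [Group G] where
  /-- images of the generators -/
  φ : X → G
  /-- relators -/
  rel : R → FreeGroup X
  /-- the (reflexive) adjacency in the nerve -/
  E : V → V → Prop
  /-- letters of a piece -/
  XN : V → Set X
  /-- relators of a piece -/
  RN : V → Set R
  /-- vertices of a piece -/
  P : V → Set G
  rel_one : ∀ r, FreeGroup.lift φ (rel r) = 1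
  ker_le : ∀ w, FreeGroup.lift φ w = 1 → w ∈ Subgroup.normalClosure (Set.range rel)
  E_refl : ∀ v, E v v
  E_symm : ∀ v w, E v w → E w v
  P_step : ∀ v, ∀ x ∈ XN v, ∀ h, φ x * h ∈ P v ↔ h ∈ P v
  rel_mem : ∀ v, ∀ r ∈ RN v, rel r ∈ Subgroup.closure (FreeGroup.of '' XN v)
  conn : ∀ v w, ∀ h ∈ P v ∩ P w, ∀ h' ∈ P v ∩ P w,
    ∃ u ∈ Subgroup.closure (FreeGroup.of '' (XN v ∩ XN w)), FreeGroup.lift φ u * h = h'
  simp_conn : ∀ v, ∀ w ∈ Subgroup.closure (FreeGroup.of '' XN v), FreeGroup.lift φ w = 1 →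
    w ∈ Subgroup.closure {g | ∃ n ∈ Subgroup.closure (FreeGroup.of '' XN v),
      ∃ t ∈ rel '' RN v, g = n * t * n⁻¹}
  nerve_le : ∀ v w, (P v ∩ P w).Nonempty → E v w
  nerve_ge : ∀ u v w, E u v → E v w → E u w → (P u ∩ P v ∩ P w).Nonempty

namespace Pieces

variable {G X R V : Type*} [Group G] (C : Pieces G X R V)

theorem P_word (v : V) (w : FreeGroup X)
    (hw : w ∈ Subgroup.closure (FreeGroup.of '' C.XN v)) (h : G) :
    FreeGroup.lift C.φ w * h ∈ C.P v ↔ h ∈ C.P v := by
  induction hw using Subgroup.closure_induction generalizing h with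
  | mem g hg =>
    obtain ⟨x, hx, rfl⟩ := hg
    rw [FreeGroup.lift_apply_of]
    exact C.P_step v x hx h
  | one => simp only [map_one, one_mul]
  | mul u v _ _ hu hv => rw [map_mul, mul_assoc, hu, hv]
  | inv u _ hu =>
    rw [map_inv]
    have := hu ((FreeGroup.lift C.φ u)⁻¹ * h)
    rw [mul_inv_cancel_left] at this
    exact this.symm

theorem P_nonempty (v : V) : (C.P v).Nonempty := by
  obtain ⟨h, hh⟩ := C.nerve_ge v v v (C.E_refl v) (C.E_refl v) (C.E_refl v)
  exact ⟨h, hh.2⟩

theorem inter_nonempty {v w : V} (h : C.E v w) : (C.P v ∩ C.P w).Nonempty := by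
  obtain ⟨g, hg⟩ := C.nerve_ge v v w (C.E_refl v) h h
  exact ⟨g, hg.1.1, hg.2⟩

/-- Flat labellings have trivial holonomy on closed words inside a piece. -/
theorem hol_piece {L : Type*} [Group L] (z : X → G → L) (v : V)
    (hflat : ∀ r ∈ C.RN v, ∀ h ∈ C.P v, hol C.φ z (C.rel r) h = 1) (w : FreeGroup X)
    (hw : w ∈ Subgroup.closure (FreeGroup.of '' C.XN v)) (hw1 : FreeGroup.lift C.φ w = 1)
    (h : G) (hh : h ∈ C.P v) : hol C.φ z w h = 1 := by
  refine (hol_eq_one_of_mem_closure C.φ z (Subgroup.closure (FreeGroup.of '' C.XN v))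
    (C.rel '' C.RN v) (C.P v) (fun n hn h hh => (C.P_word v n hn h).2 hh) ?_ w
    (C.simp_conn v w hw hw1)).2 h hh
  rintro t ⟨r, hr, rfl⟩
  exact ⟨C.rel_one r, hflat r hr⟩

/-- The hypothesis that `H¹` of the nerve with coefficients in `A` vanishes. -/
def H1 (A : Type*) [AddCommGroup A] : Prop :=
  ∀ lam : V → V → A, (∀ u v w, C.E u v → C.E v w → C.E u w → lam u v + lam v w = lam u w) →
    ∃ t : V → A, ∀ v w, C.E v w → lam v w = t v - t w

/-- Existence of potentials on the union of the pieces. -/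
theorem exists_potential {A : Type*} [AddCommGroup A] (h1 : C.H1 A) (b : X → G → A)
    (hflat : ∀ v, ∀ r ∈ C.RN v, ∀ h ∈ C.P v, S C.φ b (C.rel r) h = 0) :
    ∃ u : G → A, ∀ v, ∀ x ∈ C.XN v, ∀ h ∈ C.P v, b x h = u (C.φ x * h) - u h := by
  classical
  choose base hbase using C.P_nonempty
  -- connecting words inside a piece
  have hconn : ∀ v, ∀ h, ∃ w : FreeGroup X, h ∈ C.P v →
      w ∈ Subgroup.closure (FreeGroup.of '' C.XN v) ∧ FreeGroup.lift C.φ w * base v = h := by
    intro v h
    by_cases hh : h ∈ C.P v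
    · obtain ⟨w, hw, hw'⟩ := C.conn v v (base v) ⟨hbase v, hbase v⟩ h ⟨hh, hh⟩
      refine ⟨w, fun _ => ⟨?_, hw'⟩⟩
      rwa [Set.inter_self] at hw
    · exact ⟨1, fun h => absurd h hh⟩
  choose wd hwd using hconn
  -- closed words in a piece have zero sum
  have hclosed : ∀ v, ∀ w ∈ Subgroup.closure (FreeGroup.of '' C.XN v),
      FreeGroup.lift C.φ w = 1 → ∀ h ∈ C.P v, S C.φ b w h = 0 := by
    intro v w hw hw1 h hh
    have := C.hol_piece (fun x h => Multiplicative.ofAdd (b x h)) v (by
      intro r hr h hh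
      have := hflat v r hr h hh
      simpa only [S, toAdd_eq_zero] using this) w hw hw1 h hh
    simp [S, this]
  let uv : V → G → A := fun v h => S C.φ b (wd v h) (base v)
  -- along any word of the piece
  have huv : ∀ v, ∀ w ∈ Subgroup.closure (FreeGroup.of '' C.XN v), ∀ h ∈ C.P v,
      S C.φ b w h = uv v (FreeGroup.lift C.φ w * h) - uv v h := by
    intro v w hw h hh
    have hh' : FreeGroup.lift C.φ w * h ∈ C.P v := (C.P_word v w hw h).2 hh
    obtain ⟨hw1, hw2⟩ := hwd v h hh
    obtain ⟨hw3, hw4⟩ := hwd v _ hh'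
    set w1 := wd v h
    set w2 := wd v (FreeGroup.lift C.φ w * h)
    have hk : FreeGroup.lift C.φ (w2⁻¹ * (w * w1)) = 1 := by
      rw [map_mul, map_inv, map_mul]
      have : FreeGroup.lift C.φ w2 = FreeGroup.lift C.φ w * FreeGroup.lift C.φ w1 := by
        have h5 : FreeGroup.lift C.φ w2 * base v =
            FreeGroup.lift C.φ w * (FreeGroup.lift C.φ w1 * base v) := by rw [hw4, hw2]
        rw [← mul_assoc] at h5
        exact mul_right_cancel h5
      rw [this]; group
    have hz := hclosed v (w2⁻¹ * (w * w1))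
      ((Subgroup.closure _).mul_mem ((Subgroup.closure _).inv_mem hw3)
        ((Subgroup.closure _).mul_mem hw hw1)) hk (base v) (hbase v)
    rw [S_mul, S_mul, hw2, S_inv, map_mul, mul_assoc, hw2] at hz
    have h6 : (FreeGroup.lift C.φ w2)⁻¹ * (FreeGroup.lift C.φ w * h) = base v := by
      rw [← hw4]; group
    rw [h6] at hz
    show S C.φ b w h = S C.φ b w2 (base v) - S C.φ b w1 (base v)
    have : S C.φ b w h = S C.φ b w2 (base v) - S C.φ b w1 (base v) := by
      have h7 : -S C.φ b w2 (base v) + (S C.φ b w h + S C.φ b w1 (base v)) = 0 := hz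
      have h8 : S C.φ b w h = (-S C.φ b w2 (base v) + (S C.φ b w h + S C.φ b w1 (base v))) +
        (S C.φ b w2 (base v) - S C.φ b w1 (base v)) := by abel
      rw [h8, h7, zero_add]
    exact this
  -- differences are constant on intersections
  have hconst : ∀ v w, ∀ h ∈ C.P v ∩ C.P w, ∀ h' ∈ C.P v ∩ C.P w,
      uv v h - uv w h = uv v h' - uv w h' := by
    intro v w h hh h' hh'
    obtain ⟨u, hu, hu'⟩ := C.conn v w h hh h' hh'
    have hu1 : u ∈ Subgroup.closure (FreeGroup.of '' C.XN v) :=
      Subgroup.closure_mono (Set.image_mono Set.inter_subset_left) hu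
    have hu2 : u ∈ Subgroup.closure (FreeGroup.of '' C.XN w) :=
      Subgroup.closure_mono (Set.image_mono Set.inter_subset_right) hu
    have e1 := huv v u hu1 h hh.1
    have e2 := huv w u hu2 h hh.2
    rw [hu'] at e1 e2
    rw [e1] at e2
    have : uv v h' - uv w h' = (uv v h' - uv v h) - (uv w h' - uv w h) + (uv v h - uv w h) := by
      abel
    rw [this, e2]; abel
  let lam : V → V → A := fun v w =>
    if hE : (C.P v ∩ C.P w).Nonempty then uv v hE.choose - uv w hE.choose else 0
  have hlam : ∀ v w, ∀ h ∈ C.P v ∩ C.P w, lam v w = uv v h - uv w h := by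
    intro v w h hh
    have hE : (C.P v ∩ C.P w).Nonempty := ⟨h, hh⟩
    simp only [lam, dif_pos hE]
    exact hconst v w _ hE.choose_spec h hh
  obtain ⟨t, ht⟩ := h1 lam (by
    intro u v w huv' hvw huw
    obtain ⟨h, ⟨hu, hv⟩, hw⟩ := C.nerve_ge u v w huv' hvw huw
    rw [hlam u v h ⟨hu, hv⟩, hlam v w h ⟨hv, hw⟩, hlam u w h ⟨hu, hw⟩]
    abel)
  let U : G → A := fun h => if hh : ∃ v, h ∈ C.P v then uv hh.choose h - t hh.choose else 0
  have hU : ∀ v, ∀ h ∈ C.P v, U h = uv v h - t v := by
    intro v h hh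
    have hex : ∃ v, h ∈ C.P v := ⟨v, hh⟩
    simp only [U, dif_pos hex]
    have hv' := hex.choose_spec
    set v' := hex.choose
    have e1 := hlam v' v h ⟨hv', hh⟩
    have e2 := ht v' v (C.nerve_le v' v ⟨h, hv', hh⟩)
    rw [e1] at e2
    have : uv v' h - t v' = (uv v' h - uv v h) - (t v' - t v) + (uv v h - t v) := by abel
    rw [this, e2]; abel
  refine ⟨U, ?_⟩
  intro v x hx h hh
  have hh' : C.φ x * h ∈ C.P v := (C.P_step v x hx h).2 hh
  rw [hU v _ hh', hU v _ hh]
  have := huv v (FreeGroup.of x) (Subgroup.subset_closure ⟨x, hx, rfl⟩) h hh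
  rw [S_of, FreeGroup.lift_apply_of] at this
  rw [this]; abel

/-- Relative exactness: solve `S b (rel r) = c` with `b` vanishing on the edges of the pieces,
when `c` vanishes on the faces of the pieces. -/
theorem rel_exact {A : Type*} [AddCommGroup A] (h1 : C.H1 A)
    (star : ∀ c : R → G → A, ∃ b : X → G → A, ∀ r h, S C.φ b (C.rel r) h = c r h)
    (c : R → G → A) (hc : ∀ v, ∀ r ∈ C.RN v, ∀ h ∈ C.P v, c r h = 0) :
    ∃ b : X → G → A, (∀ r h, S C.φ b (C.rel r) h = c r h) ∧
      ∀ v, ∀ x ∈ C.XN v, ∀ h ∈ C.P v, b x h = 0 := by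
  obtain ⟨b, hb⟩ := star c
  obtain ⟨u, hu⟩ := C.exists_potential h1 b (fun v r hr h hh => by rw [hb, hc v r hr h hh])
  refine ⟨fun x h => b x h - (u (C.φ x * h) - u h), fun r h => ?_, fun v x hx h hh => ?_⟩
  · rw [S_sub, S_coboundary, C.rel_one, one_mul, sub_self, sub_zero, hb]
  · show b x h - (u (C.φ x * h) - u h) = 0
    rw [hu v x hx h hh, sub_self]

end Pieces

end Vale.Agent.P173.Hol
end
end

section

section

/-! # P173, sections 3.5 - 3.7: nonabelian local systems on the pieces and the extension argument -/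

namespace Vale.Agent.P173.Hol

section Filtration

/-- A finite filtration of a `ℚ`-algebra by subspaces `J 1 ≥ J 2 ≥ … ≥ J N = 0` with
`J k * J l ≤ J (k + l)` for `k, l ≥ 1`. -/
structure Filt (A : Type*) [Ring A] [Algebra ℚ A] where
  /-- the steps -/
  J : ℕ → Submodule ℚ A
  /-- the length -/
  N : ℕ
  anti : ∀ k, J (k + 1) ≤ J k
  mul_mem : ∀ k l, 1 ≤ k → 1 ≤ l → ∀ a ∈ J k, ∀ b ∈ J l, a * b ∈ J (k + l)
  eq_bot : J N = ⊥

variable {A : Type*} [Ring A] [Algebra ℚ A] (F : Filt A)

theorem Filt.anti' {k l : ℕ} (h : k ≤ l) : F.J l ≤ F.J k := by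
  induction h with
  | refl => exact le_rfl
  | step _ ih => exact (F.anti _).trans ih

theorem Filt.pow_mem {k : ℕ} (hk : 1 ≤ k) {a : A} (ha : a ∈ F.J k) (i : ℕ) :
    a ^ (i + 1) ∈ F.J k ∧ a ^ (i + 1) ∈ F.J (i + 1) := by
  induction i with
  | zero => simpa using And.intro ha (F.anti' hk ha)
  | succ i ih =>
    constructor
    · rw [pow_succ]
      exact F.anti' (by omega) (F.mul_mem k k hk hk _ ih.1 _ ha)
    · rw [pow_succ]
      exact F.mul_mem (i + 1) 1 (by omega) le_rfl _ ih.2 _ (F.anti' hk ha)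

theorem Filt.pow_eq_zero {k : ℕ} (hk : 1 ≤ k) {a : A} (ha : a ∈ F.J k) : a ^ (F.N + 1) = 0 := by
  have h := (F.pow_mem hk ha F.N).2
  have h2 := F.anti' (Nat.le_succ F.N) h
  rw [F.eq_bot] at h2
  exact (Submodule.mem_bot ℚ).mp h2

theorem Filt.isUnit_one_sub {k : ℕ} (hk : 1 ≤ k) {a : A} (ha : a ∈ F.J k) : IsUnit (1 - a) :=
  IsNilpotent.isUnit_one_sub ⟨F.N + 1, F.pow_eq_zero hk ha⟩

theorem Filt.inv_sub_one_mem {k : ℕ} (hk : 1 ≤ k) (u : Aˣ) (hu : (u : A) - 1 ∈ F.J k) :
    ((u⁻¹ : Aˣ) : A) - 1 ∈ F.J k := by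
  set a : A := 1 - u with ha
  have haJ : a ∈ F.J k := by
    have := (F.J k).neg_mem hu
    rwa [neg_sub] at this
  have h1 : (1 - a) * ∑ i ∈ Finset.range (F.N + 1), a ^ i = 1 := by
    rw [mul_neg_geom_sum, F.pow_eq_zero hk haJ, sub_zero]
  have h2 : (u : A) = 1 - a := by rw [ha]; abel
  have h3 : ((u⁻¹ : Aˣ) : A) = ∑ i ∈ Finset.range (F.N + 1), a ^ i := by
    rw [← h2] at h1
    calc ((u⁻¹ : Aˣ) : A) = ((u⁻¹ : Aˣ) : A) * ((u : A) * ∑ i ∈ Finset.range (F.N + 1), a ^ i) := by
          rw [h1, mul_one]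
      _ = ∑ i ∈ Finset.range (F.N + 1), a ^ i := by rw [← mul_assoc, Units.inv_mul, one_mul]
  rw [h3, Finset.sum_range_succ', pow_zero, add_sub_cancel_right]
  exact (F.J k).sum_mem fun i _ => (F.pow_mem hk haJ i).1

/-- The subgroup of units congruent to `1` modulo `J k`. -/
def Filt.U (k : ℕ) (hk : 1 ≤ k) : Subgroup Aˣ where
  carrier := {u | (u : A) - 1 ∈ F.J k}
  one_mem' := by simp
  mul_mem' := by
    intro u v hu hv
    have h1 : ((u * v : Aˣ) : A) - 1 = ((u : A) - 1) * ((v : A) - 1) + (((u : A) - 1) +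
        ((v : A) - 1)) := by
      rw [Units.val_mul]; noncomm_ring
    show ((u * v : Aˣ) : A) - 1 ∈ F.J k
    rw [h1]
    exact (F.J k).add_mem (F.anti' (by omega) (F.mul_mem k k hk hk _ hu _ hv))
      ((F.J k).add_mem hu hv)
  inv_mem' := fun {u} hu => F.inv_sub_one_mem hk u hu

theorem Filt.mem_U {k : ℕ} {hk : 1 ≤ k} {u : Aˣ} : u ∈ F.U k hk ↔ (u : A) - 1 ∈ F.J k := Iff.rfl

theorem Filt.unit_mul_sub {k : ℕ} (hk : 1 ≤ k) {u : Aˣ} (hu : u ∈ F.U 1 le_rfl) {b : A}
    (hb : b ∈ F.J k) : (u : A) * b - b ∈ F.J (k + 1) := by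
  have : (u : A) * b - b = ((u : A) - 1) * b := by noncomm_ring
  rw [this, add_comm]
  exact F.mul_mem 1 k le_rfl hk _ hu _ hb

theorem Filt.mul_unit_sub {k : ℕ} (hk : 1 ≤ k) {u : Aˣ} (hu : u ∈ F.U 1 le_rfl) {b : A}
    (hb : b ∈ F.J k) : b * (u : A) - b ∈ F.J (k + 1) := by
  have : b * (u : A) - b = b * ((u : A) - 1) := by noncomm_ring
  rw [this]
  exact F.mul_mem k 1 hk le_rfl _ hb _ hu

end Filtration

section Extend

variable {G X : Type*} [Group G]

theorem hol_mem {L : Type*} [Group L] (φ : X → G) (z : X → G → L) (U : Subgroup L)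
    (hz : ∀ x h, z x h ∈ U) (w : FreeGroup X) (h : G) : hol φ z w h ∈ U := by
  induction w using FreeGroup.induction_on generalizing h with
  | C1 => rw [hol_one]; exact U.one_mem
  | of x => rw [hol_of]; exact hz x h
  | inv_of x _ => rw [hol_inv, hol_of]; exact U.inv_mem (hz x _)
  | mul u v hu hv => rw [hol_mul]; exact U.mul_mem (hu _) (hv _)

theorem S_mem {A : Type*} [Ring A] [Algebra ℚ A] (φ : X → G) (b : X → G → A) (U : Submodule ℚ A)
    (hz : ∀ x h, b x h ∈ U) (w : FreeGroup X) (h : G) : S φ b w h ∈ U := by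
  induction w using FreeGroup.induction_on generalizing h with
  | C1 => rw [S_one]; exact U.zero_mem
  | of x => rw [S_of]; exact hz x h
  | inv_of x _ => rw [S_inv, S_of]; exact U.neg_mem (hz x _)
  | mul u v hu hv => rw [S_mul]; exact U.add_mem (hu _) (hv _)

variable {A : Type*} [Ring A] [Algebra ℚ A] (F : Filt A)

/-- Correcting the labelling `z` by `1 - b` changes holonomies by `-S b` modulo `J (k + 1)`. -/
theorem hol_correct (φ : X → G) {k : ℕ} (hk : 1 ≤ k) (z z' : X → G → Aˣ)
    (hz : ∀ x h, z x h ∈ F.U 1 le_rfl) (b : X → G → A) (hb : ∀ x h, b x h ∈ F.J k)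
    (hz' : ∀ x h, (z' x h : A) = z x h * (1 - b x h)) (w : FreeGroup X) (h : G) :
    ((hol φ z' w h : Aˣ) : A) - ((hol φ z w h : Aˣ) : A) + S φ b w h ∈ F.J (k + 1) := by
  have hz'U : ∀ x h, z' x h ∈ F.U 1 le_rfl := by
    intro x h
    rw [F.mem_U, hz']
    have h1 : (z x h : A) * (1 - b x h) - 1 = ((z x h : A) - 1) - (z x h : A) * b x h := by
      noncomm_ring
    rw [h1]
    refine (F.J 1).sub_mem (hz x h) ?_
    have h2 := F.unit_mul_sub hk (hz x h) (hb x h)
    have h3 : (z x h : A) * b x h = ((z x h : A) * b x h - b x h) + b x h := by abel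
    rw [h3]
    exact (F.J 1).add_mem (F.anti' (by omega) h2) (F.anti' hk (hb x h))
  induction w using FreeGroup.induction_on generalizing h with
  | C1 => simp
  | of x =>
    rw [hol_of, hol_of, S_of, hz']
    have h1 : (z x h : A) * (1 - b x h) - (z x h : A) + b x h =
        -((z x h : A) * b x h - b x h) := by noncomm_ring
    rw [h1]
    exact (F.J (k + 1)).neg_mem (F.unit_mul_sub hk (hz x h) (hb x h))
  | inv_of x _ =>
    rw [hol_inv, hol_inv, S_inv, hol_of, hol_of, S_of]
    set h0 := (FreeGroup.lift φ (FreeGroup.of x))⁻¹ * h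
    set y : Aˣ := (z' x h0)⁻¹ with hy
    have hyU : y ∈ F.U 1 le_rfl := (F.U 1 le_rfl).inv_mem (hz'U x h0)
    set u : Aˣ := (z x h0)⁻¹ with hu
    have huU : u ∈ F.U 1 le_rfl := (F.U 1 le_rfl).inv_mem (hz x h0)
    -- y - u = (y z) b u
    have h1 : (y : A) - u = ((y * z x h0 : Aˣ) : A) * b x h0 * u := by
      have e1 : (y : A) * (z' x h0 : A) = 1 := by rw [hy]; simp
      have e2 : (z x h0 : A) * (u : A) = 1 := by rw [hu]; simp
      rw [hz'] at e1
      have e3 : (y : A) - u = (y : A) * ((z x h0 : A) * (u : A)) -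
          ((y : A) * ((z x h0 : A) * (1 - b x h0))) * u := by rw [e1, e2]; simp
      rw [e3, Units.val_mul]; noncomm_ring
    have hyz : (y * z x h0 : Aˣ) ∈ F.U 1 le_rfl := (F.U 1 le_rfl).mul_mem hyU (hz x h0)
    have h2 : ((y * z x h0 : Aˣ) : A) * b x h0 - b x h0 ∈ F.J (k + 1) :=
      F.unit_mul_sub hk hyz (hb x h0)
    have h3 : ((y * z x h0 : Aˣ) : A) * b x h0 ∈ F.J k := by
      have e : ((y * z x h0 : Aˣ) : A) * b x h0 =
        (((y * z x h0 : Aˣ) : A) * b x h0 - b x h0) + b x h0 := by abel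
      rw [e]
      exact (F.J k).add_mem (F.anti k h2) (hb x h0)
    have h4 := F.mul_unit_sub hk huU h3
    have h5 : (y : A) - u + -b x h0 = (((y * z x h0 : Aˣ) : A) * b x h0 * u -
        ((y * z x h0 : Aˣ) : A) * b x h0) + (((y * z x h0 : Aˣ) : A) * b x h0 - b x h0) := by
      rw [h1]; abel
    rw [h5]
    exact (F.J (k + 1)).add_mem h4 h2
  | mul v w hv hw =>
    rw [hol_mul, hol_mul, S_mul]
    set h' := FreeGroup.lift φ w * h
    have hv' := hv h'
    have hw' := hw h
    set p' := hol φ z' v h'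
    set p := hol φ z v h'
    set q' := hol φ z' w h
    set q := hol φ z w h
    set s := S φ b v h'
    set t := S φ b w h
    have hpU : p ∈ F.U 1 le_rfl := hol_mem φ z _ hz v h'
    have hqU' : q' ∈ F.U 1 le_rfl := hol_mem φ z' _ hz'U w h
    have hqU : q ∈ F.U 1 le_rfl := hol_mem φ z _ hz w h
    have hs : s ∈ F.J k := S_mem φ b _ hb v h'
    have ht : t ∈ F.J k := S_mem φ b _ hb w h
    -- p' q' - p q + (s + t)
    --  = (p' - p + s) q' - (s q' - s) + p (q' - q + t) - (p t - t)
    have e : ((p' * q' : Aˣ) : A) - ((p * q : Aˣ) : A) + (s + t) =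
        ((p' : A) - p + s) * q' - (s * q' - s) + (p * ((q' : A) - q + t)) - ((p : A) * t - t) := by
      rw [Units.val_mul, Units.val_mul]; noncomm_ring
    rw [e]
    have h1 : ((p' : A) - p + s) * q' ∈ F.J (k + 1) := by
      have e2 : ((p' : A) - p + s) * q' = (((p' : A) - p + s) * q' - ((p' : A) - p + s)) +
        ((p' : A) - p + s) := by abel
      rw [e2]
      exact (F.J (k + 1)).add_mem (F.anti _ (F.mul_unit_sub (by omega) hqU' hv')) hv'
    have h2 : s * q' - s ∈ F.J (k + 1) := F.mul_unit_sub hk hqU' hs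
    have h3 : (p : A) * ((q' : A) - q + t) ∈ F.J (k + 1) := by
      have e2 : (p : A) * ((q' : A) - q + t) = ((p : A) * ((q' : A) - q + t) - ((q' : A) - q + t)) +
        ((q' : A) - q + t) := by abel
      rw [e2]
      exact (F.J (k + 1)).add_mem (F.anti _ (F.unit_mul_sub (by omega) hpU hw')) hw'
    have h4 : (p : A) * t - t ∈ F.J (k + 1) := F.unit_mul_sub hk hpU ht
    exact (F.J (k + 1)).sub_mem ((F.J (k + 1)).add_mem ((F.J (k + 1)).sub_mem h1 h2) h3) h4

end Extend

namespace Pieces

variable {G X R V : Type*} [Group G] (C : Pieces G X R V)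

/-- A closed word has trivial holonomy as soon as finitely many faces are flat. -/
theorem exists_faces (w : FreeGroup X) (hw : w ∈ Subgroup.normalClosure (Set.range C.rel))
    (h : G) : ∃ F1 : Finset (R × G), ∀ {L : Type} [Group L] (z : X → G → L),
      (∀ p ∈ F1, hol C.φ z (C.rel p.1) p.2 = 1) → hol C.φ z w h = 1 := by
  classical
  rw [Subgroup.normalClosure] at hw
  induction hw using Subgroup.closure_induction generalizing h with
  | mem g hg =>
    rw [Group.mem_conjugatesOfSet_iff] at hg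
    obtain ⟨a, ⟨r, rfl⟩, hc⟩ := hg
    obtain ⟨c, rfl⟩ := isConj_iff.mp hc
    refine ⟨{(r, (FreeGroup.lift C.φ c)⁻¹ * h)}, fun z hz => ?_⟩
    have := hz _ (Finset.mem_singleton_self _)
    rw [mul_assoc, hol_mul, hol_mul, map_inv, this, one_mul, map_mul, C.rel_one, one_mul, hol_inv,
      map_inv, mul_inv_cancel]
  | one => exact ⟨∅, fun z _ => hol_one _ _ _⟩
  | mul u v _ _ hu hv =>
    obtain ⟨F1, h1⟩ := hu (FreeGroup.lift C.φ v * h)
    obtain ⟨F2, h2⟩ := hv h
    refine ⟨F1 ∪ F2, fun z hz => ?_⟩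
    rw [hol_mul, h1 z fun p hp => hz p (Finset.mem_union_left _ hp),
      h2 z fun p hp => hz p (Finset.mem_union_right _ hp), one_mul]
  | inv u _ hu =>
    obtain ⟨F1, h1⟩ := hu ((FreeGroup.lift C.φ u)⁻¹ * h)
    refine ⟨F1, fun z hz => ?_⟩
    rw [hol_inv, h1 z hz, inv_one]

/-- Multiplicativity of `lam` on cliques inside a finite set. -/
def Mult {L : Type*} [Group L] (Sf : Finset V) (lam : V → V → L) : Prop :=
  ∀ u ∈ Sf, ∀ v ∈ Sf, ∀ w ∈ Sf, C.E u v → C.E v w → C.E u w → lam u v * lam v w = lam u w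

theorem Mult.mono {L : Type*} [Group L] {Sf Sf' : Finset V} {lam : V → V → L}
    {C : Pieces G X R V} (h : C.Mult Sf' lam) (hs : Sf ⊆ Sf') : C.Mult Sf lam :=
  fun u hu v hv w hw => h u (hs hu) v (hs hv) w (hs hw)

theorem Mult.self {L : Type*} [Group L] {Sf : Finset V} {lam : V → V → L}
    {C : Pieces G X R V} (h : C.Mult Sf lam) {v : V} (hv : v ∈ Sf) : lam v v = 1 := by
  have := h v hv v hv v hv (C.E_refl v) (C.E_refl v) (C.E_refl v)
  exact mul_eq_left.mp this

theorem Mult.symm {L : Type*} [Group L] {Sf : Finset V} {lam : V → V → L}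
    {C : Pieces G X R V} (h : C.Mult Sf lam) {u v : V} (hu : u ∈ Sf) (hv : v ∈ Sf)
    (hE : C.E u v) : lam u v * lam v u = 1 := by
  rw [h u hu v hv u hu hE (C.E_symm _ _ hE) (C.E_refl u), h.self hu]

/-- Labels of vertices. -/
noncomputable def lab [Nonempty V] (h : G) : V := by
  classical
  exact if hh : ∃ v, h ∈ C.P v then hh.choose else Classical.arbitrary V

theorem lab_spec [Nonempty V] {v : V} {h : G} (hh : h ∈ C.P v) : h ∈ C.P (C.lab h) := by
  have hex : ∃ v, h ∈ C.P v := ⟨v, hh⟩
  unfold lab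
  rw [dif_pos hex]
  exact hex.choose_spec

/-- Labels of edges. -/
noncomputable def labE [Nonempty V] (x : X) (h : G) : V := by
  classical
  exact if hh : ∃ v, x ∈ C.XN v ∧ h ∈ C.P v then hh.choose else Classical.arbitrary V

theorem labE_spec [Nonempty V] {v : V} {x : X} {h : G} (hx : x ∈ C.XN v) (hh : h ∈ C.P v) :
    x ∈ C.XN (C.labE x h) ∧ h ∈ C.P (C.labE x h) := by
  have hex : ∃ v, x ∈ C.XN v ∧ h ∈ C.P v := ⟨v, hx, hh⟩
  unfold labE
  rw [dif_pos hex]
  exact hex.choose_spec

/-- `z` is the local system `lam` on the edges of the pieces. -/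
def IsLoc [Nonempty V] {L : Type*} [Group L] (lam : V → V → L) (z : X → G → L) : Prop :=
  ∀ v, ∀ x ∈ C.XN v, ∀ h ∈ C.P v,
    z x h = lam (C.lab (C.φ x * h)) (C.labE x h) * lam (C.labE x h) (C.lab h)

/-- Telescoping of the holonomy inside a piece. -/
theorem hol_telescope [Nonempty V] (v : V) (w : FreeGroup X)
    (hw : w ∈ Subgroup.closure (FreeGroup.of '' C.XN v)) (h : G) (hh : h ∈ C.P v) :
    ∃ Sf : Finset V, ∀ {L : Type} [Group L] (lam : V → V → L) (z : X → G → L),
      C.Mult Sf lam → C.IsLoc lam z →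
      hol C.φ z w h = lam (C.lab (FreeGroup.lift C.φ w * h)) v * lam v (C.lab h) := by
  classical
  induction hw using Subgroup.closure_induction generalizing h with
  | mem g hg =>
    obtain ⟨x, hx, rfl⟩ := hg
    refine ⟨{C.lab (C.φ x * h), C.labE x h, v, C.lab h}, fun lam z hM hz => ?_⟩
    rw [hol_of, hz v x hx h hh, FreeGroup.lift_apply_of]
    obtain ⟨he1, he2⟩ := C.labE_spec hx hh
    have hh' : C.φ x * h ∈ C.P v := (C.P_step v x hx h).2 hh
    have he' : C.φ x * h ∈ C.P (C.labE x h) := (C.P_step _ x he1 h).2 he2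
    have hl := C.lab_spec hh
    have hl' := C.lab_spec hh'
    set a := C.lab (C.φ x * h)
    set e := C.labE x h
    set c := C.lab h
    have ma : a ∈ ({a, e, v, c} : Finset V) := by simp
    have me : e ∈ ({a, e, v, c} : Finset V) := by simp
    have mv : v ∈ ({a, e, v, c} : Finset V) := by simp
    have mc : c ∈ ({a, e, v, c} : Finset V) := by simp
    have Eae : C.E a e := C.nerve_le _ _ ⟨_, hl', he'⟩
    have Eav : C.E a v := C.nerve_le _ _ ⟨_, hl', hh'⟩
    have Eve : C.E v e := C.nerve_le _ _ ⟨_, hh, he2⟩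
    have Eev : C.E e v := C.E_symm _ _ Eve
    have Evc : C.E v c := C.nerve_le _ _ ⟨_, hh, hl⟩
    have Eec : C.E e c := C.nerve_le _ _ ⟨_, he2, hl⟩
    rw [← hM a ma v mv e me Eav Eve Eae, ← hM e me v mv c mc Eev Evc Eec]
    have h1 := hM.symm mv me Eve
    calc lam a v * lam v e * (lam e v * lam v c) = lam a v * (lam v e * lam e v) * lam v c := by
          group
      _ = lam a v * lam v c := by rw [h1, mul_one]
  | one =>
    refine ⟨{v, C.lab h}, fun lam z hM _ => ?_⟩
    rw [hol_one, map_one, one_mul]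
    have hl := C.lab_spec hh
    exact (hM.symm (by simp) (by simp) (C.nerve_le _ _ ⟨_, hl, hh⟩)).symm
  | mul u w' hu' hw' hu hw =>
    have hh' : FreeGroup.lift C.φ w' * h ∈ C.P v := (C.P_word v w' hw' h).2 hh
    obtain ⟨S1, h1⟩ := hu _ hh'
    obtain ⟨S2, h2⟩ := hw h hh
    refine ⟨S1 ∪ S2 ∪ {v, C.lab (FreeGroup.lift C.φ w' * h)}, fun lam z hM hz => ?_⟩
    rw [hol_mul, h1 lam z (hM.mono fun _ h => by simp [h]) hz,
      h2 lam z (hM.mono fun _ h => by simp [h]) hz, map_mul, mul_assoc (FreeGroup.lift C.φ u)]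
    have hl := C.lab_spec hh'
    have h3 := hM.symm (u := v) (v := C.lab (FreeGroup.lift C.φ w' * h)) (by simp) (by simp)
      (C.nerve_le _ _ ⟨_, hh', hl⟩)
    set m := C.lab (FreeGroup.lift C.φ w' * h)
    calc _ = lam (C.lab (FreeGroup.lift C.φ u * (FreeGroup.lift C.φ w' * h))) v *
          (lam v m * lam m v) * lam v (C.lab h) := by group
      _ = _ := by rw [h3, mul_one]
  | inv u hu' hu =>
    have hh' : (FreeGroup.lift C.φ u)⁻¹ * h ∈ C.P v := by
      have := C.P_word v u⁻¹ ((Subgroup.closure _).inv_mem hu') h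
      rw [map_inv] at this
      exact this.2 hh
    obtain ⟨S1, h1⟩ := hu _ hh'
    refine ⟨S1 ∪ {v, C.lab ((FreeGroup.lift C.φ u)⁻¹ * h), C.lab h}, fun lam z hM hz => ?_⟩
    rw [hol_inv, h1 lam z (hM.mono fun _ h => by simp only [Finset.union_insert, Finset.union_singleton, Finset.mem_insert, h, or_true]) hz, mul_inv_cancel_left, map_inv]
    have hl := C.lab_spec hh
    have hl' := C.lab_spec hh'
    set m := C.lab ((FreeGroup.lift C.φ u)⁻¹ * h)
    have h3 := hM.symm (u := m) (v := v) (by simp) (by simp) (C.nerve_le _ _ ⟨_, hl', hh'⟩)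
    have h4 := hM.symm (u := v) (v := C.lab h) (by simp) (by simp) (C.nerve_le _ _ ⟨_, hh, hl⟩)
    rw [mul_inv_rev, inv_eq_of_mul_eq_one_left h3, inv_eq_of_mul_eq_one_left h4]

end Pieces

end Vale.Agent.P173.Hol
end
end

section

section

/-! # P173, section 3.6 - 3.7: the contradiction -/

namespace Vale.Agent.P173.Hol

theorem S_map {G X : Type*} [Group G] {A B : Type*} [AddCommGroup A] [AddCommGroup B]
    (f : A →+ B) (φ : X → G) (b : X → G → A) (w : FreeGroup X) (h : G) :
    S φ (fun x h => f (b x h)) w h = f (S φ b w h) := by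
  induction w using FreeGroup.induction_on generalizing h with
  | C1 => simp
  | of x => simp
  | inv_of x _ => simp only [S_inv, FreeGroup.lift_apply_of, S_of, map_neg]
  | mul u v hu hv => rw [S_mul, S_mul, hu, hv, map_add]

namespace Pieces

variable {G X R V : Type*} [Group G] (C : Pieces G X R V)

/-- The step of the extension argument: the holonomies around the finitely many faces `F1`
can be pushed one step further into the filtration without changing the labelling on the
edges of the pieces. -/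
theorem extension_step [Nonempty V] {A : Type} [Ring A] [Algebra ℚ A] (F : Filt A)
    (star : ∀ (B : Type) [AddCommGroup B] [Module ℚ B] (c : R → G → B),
      ∃ b : X → G → B, ∀ r h, S C.φ b (C.rel r) h = c r h)
    (h1 : ∀ (B : Type) [AddCommGroup B] [Module ℚ B], C.H1 B)
    (lam : V → V → Aˣ) (F1 : Finset (R × G))
    (hface : ∀ z : X → G → Aˣ, C.IsLoc lam z → ∀ p ∈ F1, (∃ v, p.1 ∈ C.RN v ∧ p.2 ∈ C.P v) →
      hol C.φ z (C.rel p.1) p.2 = 1)
    (k : ℕ) (z : X → G → Aˣ) (hz : C.IsLoc lam z) (hzU : ∀ x h, z x h ∈ F.U 1 le_rfl)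
    (hzk : ∀ p ∈ F1, ((hol C.φ z (C.rel p.1) p.2 : Aˣ) : A) - 1 ∈ F.J (k + 1)) :
    ∃ z' : X → G → Aˣ, C.IsLoc lam z' ∧ (∀ x h, z' x h ∈ F.U 1 le_rfl) ∧
      ∀ p ∈ F1, ((hol C.φ z' (C.rel p.1) p.2 : Aˣ) : A) - 1 ∈ F.J (k + 2) := by
  classical
  let c : R → G → F.J (k + 1) := fun r h =>
    if hp : (r, h) ∈ F1 then ⟨((hol C.φ z (C.rel r) h : Aˣ) : A) - 1, hzk _ hp⟩ else 0
  have hc : ∀ v, ∀ r ∈ C.RN v, ∀ h ∈ C.P v, c r h = 0 := by
    intro v r hr h hh
    by_cases hp : (r, h) ∈ F1
    · have e := hface z hz (r, h) hp ⟨v, hr, hh⟩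
      simp only [c, dif_pos hp]
      apply Subtype.ext
      show ((hol C.φ z (C.rel r) h : Aˣ) : A) - 1 = 0
      rw [e]; simp
    · simp only [c, dif_neg hp]
  obtain ⟨b, hb, hb0⟩ := C.rel_exact (h1 (F.J (k + 1))) (star (F.J (k + 1))) c hc
  have hk1 : 1 ≤ k + 1 := by omega
  have hunit : ∀ x h, IsUnit (1 - (b x h : A)) := fun x h => F.isUnit_one_sub hk1 (b x h).2
  let z' : X → G → Aˣ := fun x h => z x h * (hunit x h).unit
  have hz' : ∀ x h, ((z' x h : Aˣ) : A) = z x h * (1 - (b x h : A)) := by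
    intro x h
    simp only [z', Units.val_mul, IsUnit.unit_spec]
  refine ⟨z', ?_, ?_, ?_⟩
  · intro v x hx h hh
    rw [← hz v x hx h hh]
    apply Units.ext
    rw [hz', hb0 v x hx h hh]
    simp only [ZeroMemClass.coe_zero, sub_zero, mul_one]
  · intro x h
    refine (F.U 1 le_rfl).mul_mem (hzU x h) ?_
    rw [F.mem_U, IsUnit.unit_spec]
    have e : (1 : A) - (b x h : A) - 1 = -(b x h : A) := by abel
    rw [e]
    exact (F.J 1).neg_mem (F.anti' hk1 (b x h).2)
  · intro p hp
    have e1 := hol_correct F C.φ hk1 z z' hzU (fun x h => (b x h : A)) (fun x h => (b x h).2) hz'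
      (C.rel p.1) p.2
    have e2 : S C.φ (fun x h => (b x h : A)) (C.rel p.1) p.2 =
        ((hol C.φ z (C.rel p.1) p.2 : Aˣ) : A) - 1 := by
      have e3 := S_map (F.J (k + 1)).toAddSubgroup.subtype C.φ b (C.rel p.1) p.2
      have e4 := hb p.1 p.2
      have hp' : (p.1, p.2) ∈ F1 := hp
      simp only [c, dif_pos hp'] at e4
      have e5 : (F.J (k + 1)).toAddSubgroup.subtype (S C.φ b (C.rel p.1) p.2) =
          ((hol C.φ z (C.rel p.1) p.2 : Aˣ) : A) - 1 := by
        have := congrArg (fun y : F.J (k + 1) => (y : A)) e4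
        exact this
      exact e3.trans e5
    rw [e2] at e1
    have e6 : ((hol C.φ z' (C.rel p.1) p.2 : Aˣ) : A) - 1 =
        ((hol C.φ z' (C.rel p.1) p.2 : Aˣ) : A) - ((hol C.φ z (C.rel p.1) p.2 : Aˣ) : A) +
        (((hol C.φ z (C.rel p.1) p.2 : Aˣ) : A) - 1) := by abel
    rw [e6]
    exact e1

/-- The main contradiction: a Cayley complex with vanishing `H²` (for rational coefficients)
does not contain a system of pieces whose nerve has vanishing `H¹` and carries unipotent local
systems, over finite sets of vertices, with nontrivial holonomy around a fixed 4-cycle. -/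
theorem contradiction [Nonempty V]
    (star : ∀ (B : Type) [AddCommGroup B] [Module ℚ B] (c : R → G → B),
      ∃ b : X → G → B, ∀ r h, S C.φ b (C.rel r) h = c r h)
    (h1 : ∀ (B : Type) [AddCommGroup B] [Module ℚ B], C.H1 B)
    (v0 v1 v2 v3 : V) (e01 : C.E v0 v1) (e12 : C.E v1 v2) (e23 : C.E v2 v3) (e30 : C.E v3 v0)
    (L3 : ∀ Sf : Finset V, ∃ (A : Type) (_ : Ring A) (_ : Algebra ℚ A) (F : Filt A)
      (lam : V → V → Aˣ), (∀ v w, (lam v w : A) - 1 ∈ F.J 1) ∧
      (∀ u ∈ Sf, ∀ v ∈ Sf, ∀ w ∈ Sf, C.E u v → C.E v w → C.E u w →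
        lam u v * lam v w = lam u w) ∧
      lam v0 v3 * lam v3 v2 * lam v2 v1 * lam v1 v0 ≠ 1) : False := by
  classical
  obtain ⟨g1, g1a, g1b⟩ := C.inter_nonempty e01
  obtain ⟨g2, g2a, g2b⟩ := C.inter_nonempty e12
  obtain ⟨g3, g3a, g3b⟩ := C.inter_nonempty e23
  obtain ⟨g4, g4a, g4b⟩ := C.inter_nonempty e30
  obtain ⟨w1, hw1, hw1'⟩ := C.conn v1 v1 g1 ⟨g1b, g1b⟩ g2 ⟨g2a, g2a⟩
  obtain ⟨w2, hw2, hw2'⟩ := C.conn v2 v2 g2 ⟨g2b, g2b⟩ g3 ⟨g3a, g3a⟩
  obtain ⟨w3, hw3, hw3'⟩ := C.conn v3 v3 g3 ⟨g3b, g3b⟩ g4 ⟨g4a, g4a⟩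
  obtain ⟨w0, hw0, hw0'⟩ := C.conn v0 v0 g4 ⟨g4b, g4b⟩ g1 ⟨g1a, g1a⟩
  rw [Set.inter_self] at hw1 hw2 hw3 hw0
  have hloop : FreeGroup.lift C.φ (w0 * (w3 * (w2 * w1))) = 1 := by
    have : FreeGroup.lift C.φ (w0 * (w3 * (w2 * w1))) * g1 = g1 := by
      rw [map_mul, map_mul, map_mul, mul_assoc, mul_assoc, mul_assoc, hw1', hw2', hw3', hw0']
    exact mul_eq_right.mp this
  obtain ⟨F1, hF1⟩ := C.exists_faces _ (C.ker_le _ hloop) g1
  obtain ⟨T1, hT1⟩ := C.hol_telescope v1 w1 hw1 g1 g1b
  obtain ⟨T2, hT2⟩ := C.hol_telescope v2 w2 hw2 g2 g2b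
  obtain ⟨T3, hT3⟩ := C.hol_telescope v3 w3 hw3 g3 g3b
  obtain ⟨T0, hT0⟩ := C.hol_telescope v0 w0 hw0 g4 g4b
  have hfaces : ∀ p : R × G, ∃ Sp : Finset V, (∃ v, p.1 ∈ C.RN v ∧ p.2 ∈ C.P v) →
      ∀ {L : Type} [Group L] (lam : V → V → L) (z : X → G → L),
      C.Mult Sp lam → C.IsLoc lam z → hol C.φ z (C.rel p.1) p.2 = 1 := by
    intro p
    by_cases hp : ∃ v, p.1 ∈ C.RN v ∧ p.2 ∈ C.P v
    · obtain ⟨v, hr, hh⟩ := hp
      obtain ⟨T, hT⟩ := C.hol_telescope v (C.rel p.1) (C.rel_mem v _ hr) p.2 hh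
      refine ⟨T ∪ {v, C.lab p.2}, fun _ {L} _ lam z hM hz => ?_⟩
      rw [hT lam z (hM.mono fun _ h => by simp [h]) hz, C.rel_one, one_mul]
      exact hM.symm (by simp) (by simp) (C.nerve_le _ _ ⟨_, C.lab_spec hh, hh⟩)
    · exact ⟨∅, fun h => absurd h hp⟩
  choose Sp hSp using hfaces
  let St : Finset V := T1 ∪ T2 ∪ T3 ∪ T0 ∪ F1.biUnion Sp ∪
    {v0, v1, v2, v3, C.lab g1, C.lab g2, C.lab g3, C.lab g4}
  obtain ⟨A, _, _, F, lam, hlam, hM', hne⟩ := L3 St
  have hM : C.Mult St lam := hM'
  have hface : ∀ z : X → G → Aˣ, C.IsLoc lam z → ∀ p ∈ F1,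
      (∃ v, p.1 ∈ C.RN v ∧ p.2 ∈ C.P v) → hol C.φ z (C.rel p.1) p.2 = 1 := by
    intro z hz p hp hv
    refine hSp p hv lam z (hM.mono fun a ha => ?_) hz
    simp only [St, Finset.mem_union, Finset.mem_biUnion]
    exact Or.inl (Or.inr ⟨p, hp, ha⟩)
  let z1 : X → G → Aˣ := fun x h => if ∃ v, x ∈ C.XN v ∧ h ∈ C.P v then
    lam (C.lab (C.φ x * h)) (C.labE x h) * lam (C.labE x h) (C.lab h) else 1
  have hz1 : C.IsLoc lam z1 := by
    intro v x hx h hh
    have hex : ∃ v, x ∈ C.XN v ∧ h ∈ C.P v := ⟨v, hx, hh⟩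
    simp only [z1, if_pos hex]
  have hz1U : ∀ x h, z1 x h ∈ F.U 1 le_rfl := by
    intro x h
    simp only [z1]
    split_ifs
    · exact (F.U 1 le_rfl).mul_mem (hlam _ _) (hlam _ _)
    · exact (F.U 1 le_rfl).one_mem
  have hind : ∀ k : ℕ, ∃ z : X → G → Aˣ, C.IsLoc lam z ∧ (∀ x h, z x h ∈ F.U 1 le_rfl) ∧
      ∀ p ∈ F1, ((hol C.φ z (C.rel p.1) p.2 : Aˣ) : A) - 1 ∈ F.J (k + 1) := by
    intro k
    induction k with
    | zero => exact ⟨z1, hz1, hz1U, fun p _ => hol_mem C.φ z1 (F.U 1 le_rfl) hz1U _ _⟩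
    | succ k ih =>
      obtain ⟨z, hz, hzU, hzk⟩ := ih
      exact C.extension_step F star h1 lam F1 hface k z hz hzU hzk
  obtain ⟨z, hz, _, hzN⟩ := hind F.N
  have hone : ∀ p ∈ F1, hol C.φ z (C.rel p.1) p.2 = 1 := by
    intro p hp
    have h2 := F.anti' (Nat.le_succ F.N) (hzN p hp)
    rw [F.eq_bot] at h2
    have h3 := (Submodule.mem_bot ℚ).mp h2
    apply Units.ext
    rw [Units.val_one]
    exact sub_eq_zero.mp h3
  have hW := hF1 z hone
  rw [hol_mul, hol_mul, hol_mul] at hW
  have ew1 : FreeGroup.lift C.φ (w2 * w1) * g1 = g3 := by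
    rw [map_mul, mul_assoc, hw1', hw2']
  have ew2 : FreeGroup.lift C.φ (w3 * (w2 * w1)) * g1 = g4 := by
    rw [map_mul, mul_assoc, ew1, hw3']
  rw [ew2, ew1, hw1'] at hW
  have msub : ∀ T : Finset V, T ⊆ T1 ∪ T2 ∪ T3 ∪ T0 → T ⊆ St := by
    intro T hT a ha
    simp only [St, Finset.mem_union]
    have := hT ha
    simp only [Finset.mem_union] at this
    exact Or.inl (Or.inl this)
  rw [hT1 lam z (hM.mono (msub _ fun a ha => by simp [ha])) hz,
    hT2 lam z (hM.mono (msub _ fun a ha => by simp [ha])) hz,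
    hT3 lam z (hM.mono (msub _ fun a ha => by simp [ha])) hz,
    hT0 lam z (hM.mono (msub _ fun a ha => by simp [ha])) hz, hw1', hw2', hw3', hw0'] at hW
  have m0 : v0 ∈ St := by simp only [Finset.union_insert, Finset.union_assoc, Finset.union_singleton, Finset.mem_insert, Finset.mem_union, Finset.mem_biUnion, Prod.exists, true_or, St]
  have m1 : v1 ∈ St := by simp only [Finset.union_insert, Finset.union_assoc, Finset.union_singleton, Finset.mem_insert, Finset.mem_union, Finset.mem_biUnion, Prod.exists, true_or, or_true, St]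
  have m2 : v2 ∈ St := by simp only [Finset.union_insert, Finset.union_assoc, Finset.union_singleton, Finset.mem_insert, Finset.mem_union, Finset.mem_biUnion, Prod.exists, true_or, or_true, St]
  have m3 : v3 ∈ St := by simp only [Finset.union_insert, Finset.union_assoc, Finset.union_singleton, Finset.mem_insert, Finset.mem_union, Finset.mem_biUnion, Prod.exists, true_or, or_true, St]
  have n1 : C.lab g1 ∈ St := by simp only [Finset.union_insert, Finset.union_assoc, Finset.union_singleton, Finset.mem_insert, Finset.mem_union, Finset.mem_biUnion, Prod.exists, true_or, or_true, St]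
  have n2 : C.lab g2 ∈ St := by simp only [Finset.union_insert, Finset.union_assoc, Finset.union_singleton, Finset.mem_insert, Finset.mem_union, Finset.mem_biUnion, Prod.exists, true_or, or_true, St]
  have n3 : C.lab g3 ∈ St := by simp only [Finset.union_insert, Finset.union_assoc, Finset.union_singleton, Finset.mem_insert, Finset.mem_union, Finset.mem_biUnion, Prod.exists, true_or, or_true, St]
  have n4 : C.lab g4 ∈ St := by simp only [Finset.union_insert, Finset.union_assoc, Finset.union_singleton, Finset.mem_insert, Finset.mem_union, Finset.mem_biUnion, Prod.exists, true_or, or_true, St]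
  have c1 := C.lab_spec g1a
  have c2 := C.lab_spec g2a
  have c3 := C.lab_spec g3a
  have c4 := C.lab_spec g4a
  set a1 := C.lab g1
  set a2 := C.lab g2
  set a3 := C.lab g3
  set a4 := C.lab g4
  -- corner identities
  have k4 : lam v0 a4 * lam a4 v3 = lam v0 v3 :=
    hM v0 m0 a4 n4 v3 m3 (C.nerve_le _ _ ⟨_, g4b, c4⟩) (C.nerve_le _ _ ⟨_, c4, g4a⟩)
      (C.E_symm _ _ e30)
  have k3 : lam v3 a3 * lam a3 v2 = lam v3 v2 :=
    hM v3 m3 a3 n3 v2 m2 (C.nerve_le _ _ ⟨_, g3b, c3⟩) (C.nerve_le _ _ ⟨_, c3, g3a⟩)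
      (C.E_symm _ _ e23)
  have k2 : lam v2 a2 * lam a2 v1 = lam v2 v1 :=
    hM v2 m2 a2 n2 v1 m1 (C.nerve_le _ _ ⟨_, g2b, c2⟩) (C.nerve_le _ _ ⟨_, c2, g2a⟩)
      (C.E_symm _ _ e12)
  have k1 : lam v1 a1 = lam v1 v0 * lam v0 a1 :=
    (hM v1 m1 v0 m0 a1 n1 (C.E_symm _ _ e01) (C.nerve_le _ _ ⟨_, g1a, c1⟩)
      (C.nerve_le _ _ ⟨_, g1b, c1⟩)).symm
  have k0 : lam a1 v0 * lam v0 a1 = 1 := hM.symm n1 m0 (C.nerve_le _ _ ⟨_, c1, g1a⟩)
  apply hne
  have hW' : lam a1 v0 * (lam v0 v3 * lam v3 v2 * lam v2 v1 * lam v1 v0) * lam v0 a1 = 1 := by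
    rw [← k4, ← k3, ← k2]
    rw [k1] at hW
    rw [← hW]; group
  have k0' : lam v0 a1 = (lam a1 v0)⁻¹ := (inv_eq_of_mul_eq_one_right k0).symm
  rw [k0'] at hW'
  exact conj_eq_one_iff.mp hW'

end Pieces

end Vale.Agent.P173.Hol
end
end

section

section

/-! # P173: vanishing of `H²` with rational coefficients from asphericity -/

namespace Vale.Agent.P173.Hol

/-- The boundary of the face `(r, h)` of the Cayley complex, as an integral combination of edges
`(x, g)` (from `g` to `φ x * g`). -/
noncomputable def bdry {G X : Type*} [Group G] (φ : X → G) (w : FreeGroup X) (h : G) :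
    (X × G →₀ ℤ) :=
  S φ (fun x h => Finsupp.single (x, h) (1 : ℤ)) w h

/-- The second boundary map of the Cayley complex. -/
noncomputable def d2 {G X R : Type*} [Group G] (φ : X → G) (rel : R → FreeGroup X) :
    (R × G →₀ ℤ) →+ (X × G →₀ ℤ) :=
  Finsupp.liftAddHom fun p => (zmultiplesHom _ (bdry φ (rel p.1) p.2) : ℤ →+ (X × G →₀ ℤ))

theorem d2_single {G X R : Type*} [Group G] (φ : X → G) (rel : R → FreeGroup X) (r : R) (h : G) :
    d2 φ rel (Finsupp.single (r, h) 1) = bdry φ (rel r) h := by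
  simp only [d2, Finsupp.liftAddHom_apply, zmultiplesHom_apply, zero_smul, Finsupp.sum_single_index, one_smul]

/-- If `d2` is injective then every cochain on the faces with values in a rational vector space
is a coboundary. -/
theorem star_of_injective {G X R : Type*} [Group G] (φ : X → G) (rel : R → FreeGroup X)
    (hinj : Function.Injective (d2 φ rel)) (B : Type*) [AddCommGroup B] [Module ℚ B]
    (c : R → G → B) : ∃ b : X → G → B, ∀ r h, S φ b (rel r) h = c r h := by
  classical
  letI : DivisibleBy B ℤ :=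
    { div := fun b n => ((n : ℚ)⁻¹) • b
      div_zero := fun b => by simp
      div_cancel := fun {n} b hn => by
        have hn' : (n : ℚ) ≠ 0 := by exact_mod_cast hn
        have : n • ((n : ℚ)⁻¹ • b) = (n : ℚ) • ((n : ℚ)⁻¹ • b) := by
          rw [Int.cast_smul_eq_zsmul]
        rw [this, smul_smul, mul_inv_cancel₀ hn', one_smul] }
  let c' : (R × G →₀ ℤ) →+ B := Finsupp.liftAddHom fun p => (zmultiplesHom _ (c p.1 p.2) : ℤ →+ B)
  obtain ⟨b', hb'⟩ := (Module.Baer.of_divisible B).extension_property_addMonoidHom (d2 φ rel)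
    hinj c'
  refine ⟨fun x h => b' (Finsupp.single (x, h) 1), fun r h => ?_⟩
  rw [S_map b' φ (fun x h => Finsupp.single (x, h) (1 : ℤ))]
  have h1 := DFunLike.congr_fun hb' (Finsupp.single (r, h) 1)
  rw [AddMonoidHom.comp_apply, d2_single] at h1
  change b' (bdry φ (rel r) h) = c r h
  rw [h1]
  simp only [Finsupp.liftAddHom_apply, zmultiplesHom_apply, zero_smul, Finsupp.sum_single_index, one_smul, c']

end Vale.Agent.P173.Hol
end
end

section

section

/-!
# P173: the 3-coloured flag complex `L`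

`Gp` : letters `a, x, y` with a binary string (the children of `s` are `false :: s` and
`true :: s`), `Gen := Option Gp` (`none` is the identity).  Triangles `t : Tri` have faces
`face 2 t`, `face 0 t`, `face 1 t` (edges 01, 12, 02), to be read as
`face 2 t * face 0 t = face 1 t`.  `L` is the clique complex of `Adj` on `Vx`.
-/

namespace Vale.Agent.P173

/-- The three kinds of generators. -/
inductive Letter
  | a
  | x
  | y
  deriving DecidableEq

/-- Nontrivial generators: a letter and a binary string. -/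
abbrev Gp : Type := Letter × List Bool

/-- Generators; `none` is the identity. -/
abbrev Gen : Type := Option Gp

/-- The triangles of the Delta-complex. -/
inductive Tri
  /-- `g * 1 = g` -/
  | r (g : Gen)
  /-- `1 * g = g` -/
  | l (g : Gp)
  /-- `a_{s0} * a_{s1} = x_s` -/
  | m0 (s : List Bool)
  /-- `a_{s1} * a_{s0} = y_s` -/
  | m1 (s : List Bool)
  /-- `a_s * y_s = x_s` -/
  | m2 (s : List Bool)
  deriving DecidableEq

/-- The edge of the triangle `t` opposite to the vertex `p`. -/
def face : Fin 3 → Tri → Gen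
  | 2, .r g => g
  | 0, .r _ => none
  | 1, .r g => g
  | 2, .l _ => none
  | 0, .l g => some g
  | 1, .l g => some g
  | 2, .m0 s => some (.a, false :: s)
  | 0, .m0 s => some (.a, true :: s)
  | 1, .m0 s => some (.x, s)
  | 2, .m1 s => some (.a, true :: s)
  | 0, .m1 s => some (.a, false :: s)
  | 1, .m1 s => some (.y, s)
  | 2, .m2 s => some (.a, s)
  | 0, .m2 s => some (.y, s)
  | 1, .m2 s => some (.x, s)

/-- Vertices of `L`: vertices, edges and triangles of the Delta-complex. -/
inductive Vx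
  | v0 (i : Fin 3)
  | v1 (p : Fin 3) (g : Gen)
  | v2 (t : Tri)
  deriving DecidableEq

/-- The colour of a vertex. -/
def col : Vx → Fin 3
  | .v0 _ => 0
  | .v1 _ _ => 1
  | .v2 _ => 2

/-- Adjacency. -/
def Adj : Vx → Vx → Prop
  | .v0 i, .v1 p _ => i ≠ p
  | .v1 p _, .v0 i => i ≠ p
  | .v1 p g, .v2 t => g = face p t
  | .v2 t, .v1 p g => g = face p t
  | .v0 _, .v2 _ => True
  | .v2 _, .v0 _ => True
  | .v0 _, .v0 _ => False
  | .v1 _ _, .v1 _ _ => False
  | .v2 _, .v2 _ => False

theorem Adj.symm : ∀ {v w : Vx}, Adj v w → Adj w v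
  | .v0 _, .v1 _ _, h => h
  | .v1 _ _, .v0 _, h => h
  | .v1 _ _, .v2 _, h => h
  | .v2 _, .v1 _ _, h => h
  | .v0 _, .v2 _, h => h
  | .v2 _, .v0 _, h => h
  | .v0 _, .v0 _, h => h
  | .v1 _ _, .v1 _ _, h => h
  | .v2 _, .v2 _, h => h

theorem Adj.col_ne : ∀ {v w : Vx}, Adj v w → col v ≠ col w
  | .v0 _, .v1 _ _, _ => by simp only [col, Fin.isValue, ne_eq, zero_ne_one, not_false_eq_true]
  | .v1 _ _, .v0 _, _ => by simp [col]
  | .v1 _ _, .v2 _, _ => by simp [col]
  | .v2 _, .v1 _ _, _ => by simp [col]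
  | .v0 _, .v2 _, _ => by simp [col]
  | .v2 _, .v0 _, _ => by simp [col]
  | .v0 _, .v0 _, h => h.elim
  | .v1 _ _, .v1 _ _, h => h.elim
  | .v2 _, .v2 _, h => h.elim

theorem Adj.irrefl (v : Vx) : ¬ Adj v v := fun h => h.col_ne rfl

theorem Adj.ne {v w : Vx} (h : Adj v w) : v ≠ w := by
  rintro rfl; exact Adj.irrefl _ h

/-- Equal or adjacent. -/
def Cl (v w : Vx) : Prop := v = w ∨ Adj v w

theorem Cl.refl (v : Vx) : Cl v v := Or.inl rfl

theorem Cl.symm {v w : Vx} (h : Cl v w) : Cl w v := by
  rcases h with rfl | h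
  · exact Or.inl rfl
  · exact Or.inr h.symm

instance : DecidableRel Adj := fun v w => by
  cases v <;> cases w <;> unfold Adj <;> infer_instance

instance : Countable Letter := by
  refine Function.Injective.countable (f := fun l : Letter => (match l with
    | .a => 0 | .x => 1 | .y => 2 : ℕ)) ?_
  intro l l' h
  cases l <;> cases l' <;> simp_all

instance : Countable Tri := by
  refine Function.Injective.countable (β := (Gen ⊕ Gp) ⊕ (List Bool ⊕ (List Bool ⊕ List Bool)))
    (f := fun t : Tri => match t with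
    | .r g => .inl (.inl g) | .l g => .inl (.inr g) | .m0 s => .inr (.inl s)
    | .m1 s => .inr (.inr (.inl s)) | .m2 s => .inr (.inr (.inr s))) ?_
  intro t t' h
  cases t <;> cases t' <;> simp_all

instance : Countable Vx := by
  refine Function.Injective.countable (β := Fin 3 ⊕ ((Fin 3 × Gen) ⊕ Tri))
    (f := fun t : Vx => match t with
    | .v0 i => .inl i | .v1 p g => .inr (.inl (p, g)) | .v2 t => .inr (.inr t)) ?_
  intro t t' h
  cases t <;> cases t' <;> simp_all

end Vale.Agent.P173
end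
end

section

section

/-!
# P173: the complex `L`: `H¹ = 0` (`L1`) and `H² = 0` (`L2`)
-/

namespace Vale.Agent.P173

section L1

variable {A : Type*} [AddCommGroup A]

/-- Normalised solutions of the cocycle equations on the Delta-complex are constant. -/
theorem const_of_face (μ : Fin 3 → Gen → A)
    (h : ∀ t, μ 2 (face 2 t) + μ 0 (face 0 t) = μ 1 (face 1 t)) (p : Fin 3) (g : Gen) :
    μ p g = μ p none := by
  have hr : ∀ g, μ 2 g + μ 0 none = μ 1 g := fun g => h (.r g)
  have hl : ∀ g : Gp, μ 2 none + μ 0 (some g) = μ 1 (some g) := fun g => h (.l g)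
  have hm0 : ∀ s, μ 2 (some (.a, false :: s)) + μ 0 (some (.a, true :: s)) =
    μ 1 (some (.x, s)) := fun s => h (.m0 s)
  have hm1 : ∀ s, μ 2 (some (.a, true :: s)) + μ 0 (some (.a, false :: s)) =
    μ 1 (some (.y, s)) := fun s => h (.m1 s)
  have hm2 : ∀ s, μ 2 (some (.a, s)) + μ 0 (some (.y, s)) = μ 1 (some (.x, s)) :=
    fun s => h (.m2 s)
  have h2 : ∀ g, μ 2 g = μ 1 g - μ 0 none := fun g => by rw [← hr g]; abel
  have h0 : ∀ g : Gp, μ 0 (some g) = μ 1 (some g) - μ 2 none := fun g => by rw [← hl g]; abel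
  have h1 : μ 1 none = μ 2 none + μ 0 none := (hr none).symm
  -- the letters x and y
  have hxy : ∀ s, μ 1 (some (.x, s)) = μ 1 (some (.y, s)) := by
    intro s
    rw [← hm0 s, ← hm1 s, h2, h2, h0, h0]
    abel
  have ha : ∀ s, μ 1 (some (.a, s)) = μ 1 none := by
    intro s
    have e := hm2 s
    rw [h2, h0, hxy s] at e
    have e2 : μ 1 (some (.a, s)) = μ 2 none + μ 0 none := by
      have e3 : μ 1 (some (Letter.a, s)) =
        (μ 1 (some (Letter.a, s)) - μ 0 none + (μ 1 (some (Letter.y, s)) - μ 2 none)) +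
          (μ 2 none + μ 0 none) - μ 1 (some (Letter.y, s)) := by abel
      rw [e3, e]; abel
    rw [e2, h1]
  have hx : ∀ s, μ 1 (some (.x, s)) = μ 1 none := by
    intro s
    rw [← hm0 s, h2, h0, ha, ha, h1]
    abel
  have hy : ∀ s, μ 1 (some (.y, s)) = μ 1 none := fun s => by rw [← hxy, hx]
  have hall : ∀ g, μ 1 g = μ 1 none := by
    intro g
    rcases g with _ | ⟨c, s⟩
    · rfl
    · cases c
      · exact ha s
      · exact hx s
      · exact hy s
  fin_cases p
  · rcases g with _ | g
    · rfl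
    · change μ 0 (some g) = μ 0 none
      rw [h0, hall, h1]; abel
  · exact hall g
  · change μ 2 g = μ 2 none
    rw [h2, hall, h1]; abel

/-- **(L1)** `H¹(L; A) = 0`. -/
theorem L1 (lam : Vx → Vx → A) (hanti : ∀ v w, Adj v w → lam w v = - lam v w)
    (hadd : ∀ u v w, Adj u v → Adj v w → Adj u w → lam u v + lam v w = lam u w) :
    ∃ u : Vx → A, ∀ v w, Adj v w → lam v w = u w - u v := by
  -- the data on the three types of edges
  have key : ∀ i p t, i ≠ p →
      lam (.v0 i) (.v1 p (face p t)) + lam (.v1 p (face p t)) (.v2 t) =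
        lam (.v0 i) (.v2 t) := fun i p t h => hadd _ _ _ h rfl trivial
  let μ : Fin 3 → Gen → A := fun p g =>
    match p with
    | 0 => lam (.v0 1) (.v1 0 g) - lam (.v0 2) (.v1 0 g)
    | 1 => lam (.v0 0) (.v1 1 g) - lam (.v0 2) (.v1 1 g)
    | 2 => lam (.v0 0) (.v1 2 g) - lam (.v0 1) (.v1 2 g)
  have e0 : ∀ t, μ 0 (face 0 t) = lam (.v0 1) (.v2 t) - lam (.v0 2) (.v2 t) := by
    intro t
    rw [← key 1 0 t (by decide), ← key 2 0 t (by decide)]
    change lam (.v0 1) (.v1 0 _) - lam (.v0 2) (.v1 0 _) = _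
    abel
  have e1 : ∀ t, μ 1 (face 1 t) = lam (.v0 0) (.v2 t) - lam (.v0 2) (.v2 t) := by
    intro t
    rw [← key 0 1 t (by decide), ← key 2 1 t (by decide)]
    change lam (.v0 0) (.v1 1 _) - lam (.v0 2) (.v1 1 _) = _
    abel
  have e2 : ∀ t, μ 2 (face 2 t) = lam (.v0 0) (.v2 t) - lam (.v0 1) (.v2 t) := by
    intro t
    rw [← key 0 2 t (by decide), ← key 1 2 t (by decide)]
    change lam (.v0 0) (.v1 2 _) - lam (.v0 1) (.v1 2 _) = _
    abel
  have hμ : ∀ t, μ 2 (face 2 t) + μ 0 (face 0 t) = μ 1 (face 1 t) := by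
    intro t; rw [e0, e1, e2]; abel
  have hc := const_of_face μ hμ
  have h1 : μ 1 none = μ 2 none + μ 0 none := (hμ (.r none)).symm
  -- the potential on the vertices of the Delta-complex
  let u0 : Fin 3 → A := fun i => match i with
    | 0 => 0
    | 1 => μ 2 none
    | 2 => μ 1 none
  let u : Vx → A := fun v => match v with
    | .v0 i => u0 i
    | .v1 p g => match p with
      | 0 => u0 1 + lam (.v0 1) (.v1 0 g)
      | 1 => lam (.v0 0) (.v1 1 g)
      | 2 => lam (.v0 0) (.v1 2 g)
    | .v2 t => lam (.v0 0) (.v2 t)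
  have k01 : ∀ i p g, i ≠ p → lam (.v0 i) (.v1 p g) = u (.v1 p g) - u (.v0 i) := by
    intro i p g hip
    have c0 : lam (.v0 1) (.v1 0 g) - lam (.v0 2) (.v1 0 g) = μ 0 none := hc 0 g
    have c1 : lam (.v0 0) (.v1 1 g) - lam (.v0 2) (.v1 1 g) = μ 1 none := hc 1 g
    have c2 : lam (.v0 0) (.v1 2 g) - lam (.v0 1) (.v1 2 g) = μ 2 none := hc 2 g
    fin_cases p <;> fin_cases i
    · exact absurd rfl hip
    · change lam (.v0 1) (.v1 0 g) = (μ 2 none + lam (.v0 1) (.v1 0 g)) - μ 2 none
      abel
    · change lam (.v0 2) (.v1 0 g) = (μ 2 none + lam (.v0 1) (.v1 0 g)) - μ 1 none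
      rw [h1, ← c0]; abel
    · change lam (.v0 0) (.v1 1 g) = lam (.v0 0) (.v1 1 g) - 0
      rw [sub_zero]
    · exact absurd rfl hip
    · change lam (.v0 2) (.v1 1 g) = lam (.v0 0) (.v1 1 g) - μ 1 none
      rw [← c1]; abel
    · change lam (.v0 0) (.v1 2 g) = lam (.v0 0) (.v1 2 g) - 0
      rw [sub_zero]
    · change lam (.v0 1) (.v1 2 g) = lam (.v0 0) (.v1 2 g) - μ 2 none
      rw [← c2]; abel
    · exact absurd rfl hip
  have k02 : ∀ i t, lam (.v0 i) (.v2 t) = u (.v2 t) - u (.v0 i) := by
    intro i t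
    fin_cases i
    · change lam (.v0 0) (.v2 t) = lam (.v0 0) (.v2 t) - 0
      rw [sub_zero]
    · change lam (.v0 1) (.v2 t) = lam (.v0 0) (.v2 t) - μ 2 none
      rw [← hc 2 (face 2 t), e2]; abel
    · change lam (.v0 2) (.v2 t) = lam (.v0 0) (.v2 t) - μ 1 none
      rw [← hc 1 (face 1 t), e1]; abel
  have k12 : ∀ p t, lam (.v1 p (face p t)) (.v2 t) = u (.v2 t) - u (.v1 p (face p t)) := by
    intro p t
    obtain ⟨i, hi⟩ : ∃ i : Fin 3, i ≠ p := ⟨p + 1, by revert p; decide⟩
    have h := key i p t hi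
    have h' : lam (.v1 p (face p t)) (.v2 t) =
      lam (.v0 i) (.v2 t) - lam (.v0 i) (.v1 p (face p t)) := by rw [← h]; abel
    rw [h', k01 i p _ hi, k02 i t]; abel
  refine ⟨u, ?_⟩
  intro v w hvw
  rcases v with i | ⟨p, g⟩ | t <;> rcases w with i' | ⟨p', g'⟩ | t'
  · exact hvw.elim
  · exact k01 _ _ _ hvw
  · exact k02 _ _
  · rw [hanti _ _ hvw.symm, k01 _ _ _ hvw]; abel
  · exact hvw.elim
  · have hg : g = face p t' := hvw
    subst hg
    exact k12 _ _
  · rw [hanti _ _ hvw.symm, k02]; abel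
  · have hg : g' = face p' t := hvw
    subst hg
    rw [hanti _ _ hvw.symm, k12]; abel
  · exact hvw.elim

end L1

section L2

variable {A : Type*} [AddCommGroup A]

/-- `H²` of the Delta-complex vanishes. -/
theorem exists_face_primitive (C : Tri → A) : ∃ B : Fin 3 → Gen → A,
    ∀ t, B 2 (face 2 t) + B 0 (face 0 t) - B 1 (face 1 t) = C t := by
  -- the coefficient of the letters
  let dxy : List Bool → A := fun s =>
    (C (.r (some (.a, false :: s))) + C (.l (.a, true :: s)) - C (.m0 s)) -
      (C (.r (some (.a, true :: s))) + C (.l (.a, false :: s)) - C (.m1 s))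
  let βa : List Bool → A := fun s =>
    C (.m2 s) - C (.r (some (.a, s))) - C (.l (.y, s)) + dxy s
  let β : Gp → A := fun g => match g with
    | (.a, s) => βa s
    | (.x, s) => βa (false :: s) + βa (true :: s) + C (.r (some (.a, false :: s))) +
        C (.l (.a, true :: s)) - C (.m0 s)
    | (.y, s) => βa (false :: s) + βa (true :: s) + C (.r (some (.a, true :: s))) +
        C (.l (.a, false :: s)) - C (.m1 s)
  let B : Fin 3 → Gen → A := fun p g => match p, g with
    | 0, none => 0
    | 2, none => 0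
    | 1, none => - C (.r none)
    | 1, some g => β g
    | 2, some g => β g + C (.r (some g))
    | 0, some g => β g + C (.l g)
  refine ⟨B, ?_⟩
  intro t
  rcases t with g | g | s | s | s
  · rcases g with _ | g
    · change (0 : A) + 0 - (- C (.r none)) = C (.r none)
      abel
    · change (β g + C (.r (some g))) + 0 - β g = C (.r (some g))
      abel
  · change 0 + (β g + C (.l g)) - β g = C (.l g)
    abel
  · change (βa (false :: s) + C (.r (some (.a, false :: s)))) +
      (βa (true :: s) + C (.l (.a, true :: s))) -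
      (βa (false :: s) + βa (true :: s) + C (.r (some (.a, false :: s))) +
        C (.l (.a, true :: s)) - C (.m0 s)) = C (.m0 s)
    abel
  · change (βa (true :: s) + C (.r (some (.a, true :: s)))) +
      (βa (false :: s) + C (.l (.a, false :: s))) -
      (βa (false :: s) + βa (true :: s) + C (.r (some (.a, true :: s))) +
        C (.l (.a, false :: s)) - C (.m1 s)) = C (.m1 s)
    abel
  · change ((C (.m2 s) - C (.r (some (.a, s))) - C (.l (.y, s)) +
        ((C (.r (some (.a, false :: s))) + C (.l (.a, true :: s)) - C (.m0 s)) -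
        (C (.r (some (.a, true :: s))) + C (.l (.a, false :: s)) - C (.m1 s)))) +
        C (.r (some (.a, s)))) +
      ((βa (false :: s) + βa (true :: s) + C (.r (some (.a, true :: s))) +
        C (.l (.a, false :: s)) - C (.m1 s)) + C (.l (.y, s))) -
      (βa (false :: s) + βa (true :: s) + C (.r (some (.a, false :: s))) +
        C (.l (.a, true :: s)) - C (.m0 s)) = C (.m2 s)
    abel

/-- **(L2)** `H²(L; A) = 0`: every function on the 3-cliques is a coboundary. -/
theorem L2 (c : Fin 3 → Fin 3 → Gen → Tri → A) :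
    ∃ (b01 : Fin 3 → Fin 3 → Gen → A) (b12 : Fin 3 → Gen → Tri → A) (b02 : Fin 3 → Tri → A),
      ∀ i p g t, i ≠ p → g = face p t → b01 i p g + b12 p g t - b02 i t = c i p g t := by
  obtain ⟨B, hB⟩ := exists_face_primitive (fun t =>
    (c 0 2 (face 2 t) t - c 1 2 (face 2 t) t) + (c 1 0 (face 0 t) t - c 2 0 (face 0 t) t) -
      (c 0 1 (face 1 t) t - c 2 1 (face 1 t) t))
  let b01 : Fin 3 → Fin 3 → Gen → A := fun i p g => match i, p with
    | 0, 1 => B 1 g
    | 0, 2 => B 2 g
    | 1, 0 => B 0 g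
    | _, _ => 0
  let b02 : Fin 3 → Tri → A := fun i t => match i with
    | 0 => 0
    | 1 => c 0 2 (face 2 t) t - c 1 2 (face 2 t) t - B 2 (face 2 t)
    | 2 => c 0 1 (face 1 t) t - c 2 1 (face 1 t) t - B 1 (face 1 t)
  let lo : Fin 3 → Fin 3 := fun p => match p with
    | 0 => 1
    | 1 => 0
    | 2 => 0
  let b12 : Fin 3 → Gen → Tri → A := fun p g t => c (lo p) p g t - b01 (lo p) p g + b02 (lo p) t
  refine ⟨b01, b12, b02, ?_⟩
  intro i p g t hip hg
  subst hg
  have h := hB t
  fin_cases p <;> fin_cases i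
  · exact absurd rfl hip
  · change B 0 (face 0 t) + (c 1 0 (face 0 t) t - B 0 (face 0 t) +
      (c 0 2 (face 2 t) t - c 1 2 (face 2 t) t - B 2 (face 2 t))) -
      (c 0 2 (face 2 t) t - c 1 2 (face 2 t) t - B 2 (face 2 t)) = c 1 0 (face 0 t) t
    abel
  · change 0 + (c 1 0 (face 0 t) t - B 0 (face 0 t) +
      (c 0 2 (face 2 t) t - c 1 2 (face 2 t) t - B 2 (face 2 t))) -
      (c 0 1 (face 1 t) t - c 2 1 (face 1 t) t - B 1 (face 1 t)) = c 2 0 (face 0 t) t
    have h' : c 2 0 (face 0 t) t = (c 0 2 (face 2 t) t - c 1 2 (face 2 t) t) +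
      c 1 0 (face 0 t) t - (c 0 1 (face 1 t) t - c 2 1 (face 1 t) t) -
      (B 2 (face 2 t) + B 0 (face 0 t) - B 1 (face 1 t)) := by
      rw [h]; abel
    rw [h']; abel
  · change B 1 (face 1 t) + (c 0 1 (face 1 t) t - B 1 (face 1 t) + 0) - 0 =
      c 0 1 (face 1 t) t
    abel
  · exact absurd rfl hip
  · change 0 + (c 0 1 (face 1 t) t - B 1 (face 1 t) + 0) -
      (c 0 1 (face 1 t) t - c 2 1 (face 1 t) t - B 1 (face 1 t)) = c 2 1 (face 1 t) t
    abel
  · change B 2 (face 2 t) + (c 0 2 (face 2 t) t - B 2 (face 2 t) + 0) - 0 =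
      c 0 2 (face 2 t) t
    abel
  · change 0 + (c 0 2 (face 2 t) t - B 2 (face 2 t) + 0) -
      (c 0 2 (face 2 t) t - c 1 2 (face 2 t) t - B 2 (face 2 t)) = c 1 2 (face 2 t) t
    abel
  · exact absurd rfl hip

end L2

end Vale.Agent.P173
end
end

section

section

/-!
# P173: locally unipotent local systems on the complex `L`
-/

namespace Vale.Agent.P173

/-! ### From labels of generators to a transport on `L` -/

section transport

variable {G : Type*} [Group G] (ρ : Gen → G)

/-- Transport inside the edge `(p, g)` from its lower end to the vertex `i`. -/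
def edgeTr (p : Fin 3) (g : Gen) (i : Fin 3) : G :=
  if i = 2 ∨ (p = 2 ∧ i = 1) then ρ g else 1

/-- Transport inside the triangle `t` from the vertex `0` to the vertex `i`. -/
def triTr (t : Tri) (i : Fin 3) : G :=
  if i = 0 then 1 else if i = 1 then ρ (face 2 t) else ρ (face 1 t)

/-- Transport inside the triangle `t` from the vertex `0` to the lower end of the edge
opposite to `p`. -/
def triEdgeTr (t : Tri) (p : Fin 3) : G := if p = 0 then ρ (face 2 t) else 1

/-- The transport on `L`. -/
def transport : Vx → Vx → G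
  | .v1 p g, .v0 i => edgeTr ρ p g i
  | .v0 i, .v1 p g => (edgeTr ρ p g i)⁻¹
  | .v2 t, .v0 i => triTr ρ t i
  | .v0 i, .v2 t => (triTr ρ t i)⁻¹
  | .v2 t, .v1 p _ => triEdgeTr ρ t p
  | .v1 p _, .v2 t => (triEdgeTr ρ t p)⁻¹
  | .v0 _, .v0 _ => 1
  | .v1 _ _, .v1 _ _ => 1
  | .v2 _, .v2 _ => 1

lemma tri_edge_vertex {t : Tri} (h : ρ (face 2 t) * ρ (face 0 t) = ρ (face 1 t))
    {p i : Fin 3} (hne : i ≠ p) :
    triEdgeTr ρ t p * edgeTr ρ p (face p t) i = triTr ρ t i := by
  fin_cases p <;> fin_cases i <;> simp_all [triEdgeTr, edgeTr, triTr]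

lemma transport_mul {S : Set Vx}
    (h : ∀ t, Vx.v2 t ∈ S → ρ (face 2 t) * ρ (face 0 t) = ρ (face 1 t))
    {u v w : Vx} (hu : u ∈ S) (hv : v ∈ S) (hw : w ∈ S) (huv : Cl u v) (hvw : Cl v w)
    (huw : Cl u w) : transport ρ u v * transport ρ v w = transport ρ u w := by
  have hself : ∀ x : Vx, transport ρ x x = 1 := by
    intro x
    cases x <;> rfl
  have hinv : ∀ x y : Vx, transport ρ y x = (transport ρ x y)⁻¹ := by
    intro x y
    cases x <;> cases y <;> simp [transport]
  rcases huv with rfl | huv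
  · rw [hself, one_mul]
  rcases hvw with rfl | hvw
  · rw [hself, mul_one]
  rcases huw with rfl | huw
  · rw [hself, hinv v u]
    simp
  -- a genuine clique: three different dimensions
  have key : ∀ (i p : Fin 3) (g : Gen) (t : Tri), Vx.v2 t ∈ S → i ≠ p → g = face p t →
      triEdgeTr ρ t p * edgeTr ρ p g i = triTr ρ t i := by
    rintro i p g t ht hne rfl
    exact tri_edge_vertex ρ (h t ht) hne
  cases u with
  | v0 i =>
    cases v with
    | v0 j => exact huv.elim
    | v1 p g =>
      cases w with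
      | v0 j => exact huw.elim
      | v1 p' g' => exact hvw.elim
      | v2 t =>
        show (edgeTr ρ p g i)⁻¹ * (triEdgeTr ρ t p)⁻¹ = (triTr ρ t i)⁻¹
        rw [← key i p g t hw huv hvw, mul_inv_rev]
    | v2 t =>
      cases w with
      | v0 j => exact huw.elim
      | v1 p g =>
        show (triTr ρ t i)⁻¹ * triEdgeTr ρ t p = (edgeTr ρ p g i)⁻¹
        rw [← key i p g t hv huw hvw]
        group
      | v2 t' => exact hvw.elim
  | v1 p g =>
    cases v with
    | v0 i =>
      cases w with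
      | v0 j => exact hvw.elim
      | v1 p' g' => exact huw.elim
      | v2 t =>
        show edgeTr ρ p g i * (triTr ρ t i)⁻¹ = (triEdgeTr ρ t p)⁻¹
        rw [← key i p g t hw huv huw]
        group
    | v1 p' g' => exact huv.elim
    | v2 t =>
      cases w with
      | v0 i =>
        show (triEdgeTr ρ t p)⁻¹ * triTr ρ t i = edgeTr ρ p g i
        rw [← key i p g t hv huw huv]
        group
      | v1 p' g' => exact huw.elim
      | v2 t' => exact hvw.elim
  | v2 t =>
    cases v with
    | v0 i =>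
      cases w with
      | v0 j => exact hvw.elim
      | v1 p g =>
        show triTr ρ t i * (edgeTr ρ p g i)⁻¹ = triEdgeTr ρ t p
        rw [← key i p g t hu hvw huw]
        group
      | v2 t' => exact huw.elim
    | v1 p g =>
      cases w with
      | v0 i =>
        show triEdgeTr ρ t p * edgeTr ρ p g i = triTr ρ t i
        exact key i p g t hu hvw huv
      | v1 p' g' => exact hvw.elim
      | v2 t' => exact huw.elim
    | v2 t' => exact huv.elim

lemma transport_mem (U : Subgroup G) (hρ : ∀ g, ρ g ∈ U) (u v : Vx) : transport ρ u v ∈ U := by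
  have h1 : ∀ p g i, edgeTr ρ p g i ∈ U := by
    intro p g i
    unfold edgeTr
    split_ifs
    · exact hρ g
    · exact U.one_mem
  have h2 : ∀ t i, triTr ρ t i ∈ U := by
    intro t i
    unfold triTr
    split_ifs
    · exact U.one_mem
    · exact hρ _
    · exact hρ _
  have h3 : ∀ t p, triEdgeTr ρ t p ∈ U := by
    intro t p
    unfold triEdgeTr
    split_ifs
    · exact hρ _
    · exact U.one_mem
  cases u with
  | v0 i =>
    cases v with
    | v0 j => exact U.one_mem
    | v1 p g => exact U.inv_mem (h1 p g i)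
    | v2 t => exact U.inv_mem (h2 t i)
  | v1 p g =>
    cases v with
    | v0 j => exact h1 p g j
    | v1 p' g' => exact U.one_mem
    | v2 t => exact U.inv_mem (h3 t p)
  | v2 t =>
    cases v with
    | v0 j => exact h2 t j
    | v1 p' g' => exact h3 t p'
    | v2 t' => exact U.one_mem

end transport

/-! ### Matrices -/

/-- Matrices vanishing below the `k`-th superdiagonal. -/
def upperJ (M k : ℕ) : Submodule ℚ (Matrix (Fin M) (Fin M) ℚ) where
  carrier := {A | ∀ i j : Fin M, (j : ℕ) < i + k → A i j = 0}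
  add_mem' {A B} hA hB i j h := by simp [hA i j h, hB i j h]
  zero_mem' i j _ := rfl
  smul_mem' c A hA i j h := by simp [hA i j h]

lemma mem_upperJ {M k : ℕ} {A : Matrix (Fin M) (Fin M) ℚ} :
    A ∈ upperJ M k ↔ ∀ i j : Fin M, (j : ℕ) < i + k → A i j = 0 := Iff.rfl

lemma upperJ_antitone (M : ℕ) : Antitone (upperJ M) := by
  intro k l hkl A hA i j h
  exact hA i j (by omega)

lemma upperJ_mul {M k l : ℕ} {A B : Matrix (Fin M) (Fin M) ℚ} (hA : A ∈ upperJ M k)
    (hB : B ∈ upperJ M l) : A * B ∈ upperJ M (k + l) := by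
  intro i j h
  rw [Matrix.mul_apply]
  refine Finset.sum_eq_zero fun m _ => ?_
  by_cases hm : (m : ℕ) < i + k
  · rw [hA i m hm, zero_mul]
  · rw [hB m j (by omega), mul_zero]

lemma upperJ_eq_bot (M : ℕ) : upperJ M M = ⊥ := by
  rw [eq_bot_iff]
  intro A hA
  rw [Submodule.mem_bot]
  ext i j
  exact hA i j (by have := j.2; omega)

/-- The unipotent units. -/
def unip (M : ℕ) : Subgroup (Matrix (Fin M) (Fin M) ℚ)ˣ where
  carrier := {u | (u : Matrix (Fin M) (Fin M) ℚ) - 1 ∈ upperJ M 1 ∧
    ((u⁻¹ : (Matrix (Fin M) (Fin M) ℚ)ˣ) : Matrix (Fin M) (Fin M) ℚ) - 1 ∈ upperJ M 1}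
  one_mem' := by simp
  mul_mem' := by
    have key : ∀ a b : Matrix (Fin M) (Fin M) ℚ, a - 1 ∈ upperJ M 1 → b - 1 ∈ upperJ M 1 →
        a * b - 1 ∈ upperJ M 1 := by
      intro a b ha hb
      have h1 : a * b - 1 = (a - 1) * (b - 1) + (a - 1) + (b - 1) := by noncomm_ring
      rw [h1]
      exact Submodule.add_mem _ (Submodule.add_mem _
        (upperJ_antitone M (by norm_num) (upperJ_mul ha hb)) ha) hb
    rintro u v ⟨hu, hu'⟩ ⟨hv, hv'⟩
    refine ⟨?_, ?_⟩
    · rw [Units.val_mul]
      exact key _ _ hu hv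
    · rw [mul_inv_rev, Units.val_mul]
      exact key _ _ hv' hu'
  inv_mem' := by
    rintro u ⟨hu, hu'⟩
    exact ⟨hu', by rw [inv_inv]; exact hu⟩

/-- Elementary matrix. -/
def el (M p q : ℕ) : Matrix (Fin M) (Fin M) ℚ :=
  Matrix.of fun i j => if (i : ℕ) = p ∧ (j : ℕ) = q then 1 else 0

lemma el_apply (M p q : ℕ) (i j : Fin M) :
    el M p q i j = if (i : ℕ) = p ∧ (j : ℕ) = q then 1 else 0 := rfl

lemma el_mul {M p q r : ℕ} (hq : q < M) : el M p q * el M q r = el M p r := by
  ext i j
  rw [Matrix.mul_apply, Finset.sum_eq_single ⟨q, hq⟩]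
  · simp only [el_apply]
    by_cases h1 : (i : ℕ) = p <;> by_cases h2 : (j : ℕ) = r <;> simp [h1, h2]
  · intro m _ hm
    have : (m : ℕ) ≠ q := fun h => hm (Fin.ext h)
    simp [el_apply, this]
  · simp only [Finset.mem_univ, not_true_eq_false, mul_eq_zero, IsEmpty.forall_iff]

lemma el_mul_ne {M p q q' r : ℕ} (hq : q ≠ q') : el M p q * el M q' r = 0 := by
  ext i j
  rw [Matrix.mul_apply]
  refine Finset.sum_eq_zero fun m _ => ?_
  simp only [el_apply]
  by_cases h1 : (m : ℕ) = q
  · have : (m : ℕ) ≠ q' := fun h => hq (h1.symm.trans h)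
    simp [this]
  · simp [h1]

/-- Elementary unipotent. -/
def tv (M p q : ℕ) (h : q ≠ p) : (Matrix (Fin M) (Fin M) ℚ)ˣ where
  val := 1 + el M p q
  inv := 1 - el M p q
  val_inv := by
    have := el_mul_ne (M := M) (p := p) (r := q) h
    rw [add_mul, mul_sub, one_mul, mul_sub, this]
    simp
  inv_val := by
    have := el_mul_ne (M := M) (p := p) (r := q) h
    rw [sub_mul, mul_add, one_mul, mul_add, this]
    simp

lemma tv_mem {M p q : ℕ} (h : p < q) : tv M p q h.ne' ∈ unip M := by
  have he : el M p q ∈ upperJ M 1 := by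
    intro i j hij
    rw [el_apply, if_neg]
    rintro ⟨h1, h2⟩
    omega
  refine ⟨?_, ?_⟩
  · show (1 + el M p q) - 1 ∈ upperJ M 1
    rw [add_sub_cancel_left]
    exact he
  · show (1 - el M p q) - 1 ∈ upperJ M 1
    have : (1 - el M p q) - 1 = - el M p q := by abel
    rw [this]
    exact Submodule.neg_mem _ he

lemma tv_commutator {M p L : ℕ} (hM : p + L < M)
    (h1 : p + 2 * L ≠ p) (h2 : p + L ≠ p) (h3 : p + 2 * L ≠ p + L) :
    tv M p (p + 2 * L) h1 * (tv M (p + L) (p + 2 * L) h3 * tv M p (p + L) h2)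
      = tv M p (p + L) h2 * tv M (p + L) (p + 2 * L) h3 := by
  ext1
  show (1 + el M p (p + 2 * L)) * ((1 + el M (p + L) (p + 2 * L)) * (1 + el M p (p + L)))
    = (1 + el M p (p + L)) * (1 + el M (p + L) (p + 2 * L))
  have e1 : el M (p + L) (p + 2 * L) * el M p (p + L) = 0 := el_mul_ne h1
  have e2 : el M p (p + 2 * L) * el M (p + L) (p + 2 * L) = 0 := el_mul_ne h3
  have e3 : el M p (p + 2 * L) * el M p (p + L) = 0 := el_mul_ne h1
  have e4 : el M p (p + L) * el M (p + L) (p + 2 * L) = el M p (p + 2 * L) := el_mul hM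
  have lhs : (1 + el M (p + L) (p + 2 * L)) * (1 + el M p (p + L))
      = 1 + el M p (p + L) + el M (p + L) (p + 2 * L) := by
    rw [add_mul, one_mul, mul_add, mul_one, e1]
    abel
  rw [lhs]
  have lhs2 : (1 + el M p (p + 2 * L)) * (1 + el M p (p + L) + el M (p + L) (p + 2 * L))
      = 1 + el M p (p + L) + el M (p + L) (p + 2 * L) + el M p (p + 2 * L) := by
    rw [add_mul, one_mul, mul_add, mul_add, mul_one, e3, e2]
    abel
  rw [lhs2]
  have rhs : (1 + el M p (p + L)) * (1 + el M (p + L) (p + 2 * L))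
      = 1 + el M (p + L) (p + 2 * L) + (el M p (p + L) + el M p (p + 2 * L)) := by
    rw [add_mul, one_mul, mul_add, mul_one, e4]
  rw [rhs]
  abel

/-! ### The dyadic representation -/

/-- Left end of the dyadic interval of `s` at depth `n`. -/
def lft (n : ℕ) : List Bool → ℕ
  | [] => 0
  | b :: s => lft n s + if b then 2 ^ (n - s.length - 1) else 0

lemma lft_le (n : ℕ) : ∀ s : List Bool, s.length ≤ n → lft n s + 2 ^ (n - s.length) ≤ 2 ^ n
  | [], _ => by simp only [lft, List.length_nil, tsub_zero, zero_add, Std.le_refl]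
  | b :: s, h => by
    have h1 : s.length + 1 ≤ n := by simpa only [Order.add_one_le_iff, List.length_cons] using h
    have ih := lft_le n s (by omega)
    have h2 : n - s.length = (n - s.length - 1) + 1 := by omega
    rw [h2, pow_succ] at ih
    have h3 : n - (b :: s).length = n - s.length - 1 := by simp only [List.length_cons]; omega
    rw [h3]
    unfold lft
    split_ifs <;> omega

/-- The matrix of `a_s`. -/
def rhoA (n : ℕ) (s : List Bool) : (Matrix (Fin (2 ^ n + 1)) (Fin (2 ^ n + 1)) ℚ)ˣ :=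
  tv (2 ^ n + 1) (lft n s) (lft n s + 2 ^ (n - s.length)) (by
    have : 0 < 2 ^ (n - s.length) := by positivity
    omega)

/-- The labels. -/
def rho (n : ℕ) : Gen → (Matrix (Fin (2 ^ n + 1)) (Fin (2 ^ n + 1)) ℚ)ˣ
  | none => 1
  | some (.a, s) => rhoA n s
  | some (.x, s) => rhoA n (false :: s) * rhoA n (true :: s)
  | some (.y, s) => rhoA n (true :: s) * rhoA n (false :: s)

lemma rhoA_mem (n : ℕ) (s : List Bool) : rhoA n s ∈ unip (2 ^ n + 1) := by
  have : 0 < 2 ^ (n - s.length) := by positivity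
  exact tv_mem (by omega)

lemma rho_mem (n : ℕ) (g : Gen) : rho n g ∈ unip (2 ^ n + 1) := by
  rcases g with _ | ⟨c, s⟩
  · exact (unip _).one_mem
  · cases c with
    | a => exact rhoA_mem n s
    | x => exact (unip _).mul_mem (rhoA_mem n _) (rhoA_mem n _)
    | y => exact (unip _).mul_mem (rhoA_mem n _) (rhoA_mem n _)

lemma tv_congr {M p q p' q' : ℕ} (hp : p = p') (hq : q = q') (h : q ≠ p) (h' : q' ≠ p') :
    tv M p q h = tv M p' q' h' := by
  subst hp hq
  rfl

lemma rho_rel (n : ℕ) (s : List Bool) (hs : s.length < n) :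
    rhoA n s * (rhoA n (true :: s) * rhoA n (false :: s))
      = rhoA n (false :: s) * rhoA n (true :: s) := by
  set L := 2 ^ (n - s.length - 1) with hL
  have hL0 : 0 < L := by positivity
  have h2L : 2 ^ (n - s.length) = 2 * L := by
    have h0 : 2 ^ (n - s.length) = 2 ^ ((n - s.length - 1) + 1) := by
      congr 1
      omega
    rw [h0, pow_succ, mul_comm]
  have hle := lft_le n s hs.le
  rw [h2L] at hle
  have e0 : rhoA n s = tv (2 ^ n + 1) (lft n s) (lft n s + 2 * L) (by omega) :=
    tv_congr rfl (by rw [h2L]) _ _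
  have e1 : rhoA n (false :: s) = tv (2 ^ n + 1) (lft n s) (lft n s + L) (by omega) := by
    apply tv_congr
    · simp [lft]
    · have : n - (false :: s).length = n - s.length - 1 := by simp only [List.length_cons]; omega
      rw [this]
      simp only [lft, Bool.false_eq_true, ↓reduceIte, add_zero, hL, Nat.add_left_cancel_iff]
  have e2 : rhoA n (true :: s)
      = tv (2 ^ n + 1) (lft n s + L) (lft n s + 2 * L) (by omega) := by
    apply tv_congr
    · simp only [lft, ↓reduceIte, hL, Nat.add_left_cancel_iff]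
    · have : n - (true :: s).length = n - s.length - 1 := by simp only [List.length_cons]; omega
      rw [this]
      simp only [lft, ↓reduceIte, hL]
      ring
  rw [e0, e1, e2]
  exact tv_commutator (by omega) _ _ _

/-- **(L3)** On every finite set of vertices of `L` there is a unipotent local system which is
nontrivial on the four-cycle `0, (2, a), 1, (2, 1), 0`. -/
theorem L3 (S : Finset Vx) : ∃ (M : ℕ) (lam : Vx → Vx → (Matrix (Fin M) (Fin M) ℚ)ˣ),
    (∀ u v, ((lam u v : Matrix (Fin M) (Fin M) ℚ) - 1) ∈ upperJ M 1) ∧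
    (∀ u v w, u ∈ S → v ∈ S → w ∈ S → Cl u v → Cl v w → Cl u w →
      lam u v * lam v w = lam u w) ∧
    lam (.v0 0) (.v1 2 (some (.a, []))) * lam (.v1 2 (some (.a, []))) (.v0 1) *
      lam (.v0 1) (.v1 2 none) * lam (.v1 2 none) (.v0 0) ≠ 1 := by
  classical
  let f : Vx → ℕ := fun v => match v with
    | .v2 (.m2 s) => s.length + 1
    | _ => 0
  set n := S.sup f with hn
  refine ⟨2 ^ n + 1, transport (rho n), fun u v => ?_, ?_, ?_⟩
  · exact (transport_mem (rho n) (unip _) (rho_mem n) u v).1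
  · intro u v w hu hv hw huv hvw huw
    refine transport_mul (rho n) (S := (S : Set Vx)) ?_ hu hv hw huv hvw huw
    intro t ht
    cases t with
    | r g =>
      show rho n g * rho n none = rho n g
      simp [rho]
    | l g =>
      show rho n none * rho n (some g) = rho n (some g)
      simp [rho]
    | m0 s => rfl
    | m1 s => rfl
    | m2 s =>
      have hle : f (.v2 (.m2 s)) ≤ n := Finset.le_sup (f := f) ht
      exact rho_rel n s hle
  · show (edgeTr (rho n) 2 (some (.a, [])) 0)⁻¹ * edgeTr (rho n) 2 (some (.a, [])) 1 *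
      (edgeTr (rho n) 2 none 1)⁻¹ * edgeTr (rho n) 2 none 0 ≠ 1
    have h1 : edgeTr (rho n) 2 (some (.a, [])) 0 = 1 := rfl
    have h2 : edgeTr (rho n) 2 (some (.a, [])) 1 = rhoA n [] := rfl
    have h3 : edgeTr (rho n) 2 none 1 = 1 := rfl
    have h4 : edgeTr (rho n) 2 none 0 = 1 := rfl
    rw [h1, h2, h3, h4]
    rw [inv_one, one_mul, mul_one, mul_one]
    intro hcon
    have hpos : 0 < 2 ^ n := by positivity
    set i0 : Fin (2 ^ n + 1) := ⟨0, by positivity⟩ with hi0
    set i1 : Fin (2 ^ n + 1) := ⟨2 ^ n, by omega⟩ with hi1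
    have hne : i0 ≠ i1 := by
      intro h
      have := congrArg Fin.val h
      simp only [hi0, hi1] at this
      omega
    have h5 : ((rhoA n [] : (Matrix (Fin (2 ^ n + 1)) (Fin (2 ^ n + 1)) ℚ)ˣ) :
        Matrix (Fin (2 ^ n + 1)) (Fin (2 ^ n + 1)) ℚ) i0 i1 = (1 : Matrix _ _ ℚ) i0 i1 := by
      rw [hcon]
      rfl
    have h6 : ((rhoA n [] : (Matrix (Fin (2 ^ n + 1)) (Fin (2 ^ n + 1)) ℚ)ˣ) :
        Matrix (Fin (2 ^ n + 1)) (Fin (2 ^ n + 1)) ℚ) i0 i1
        = (1 : Matrix _ _ ℚ) i0 i1 + el (2 ^ n + 1) 0 (0 + 2 ^ (n - 0)) i0 i1 := rfl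
    rw [h6, Matrix.one_apply_ne hne, el_apply] at h5
    simp only [hi0, Fin.zero_eta, Fin.coe_ofNat_eq_mod, Nat.zero_mod, hi1, tsub_zero, zero_add, and_self, ↓reduceIte, one_ne_zero] at h5

end Vale.Agent.P173
end
end

section

section

/-! # P173: the abstract contradiction applied to the complex `L` -/

namespace Vale.Agent.P173.Hol

open Vale.Agent.P173

/-- The filtration of the matrix algebra by upper triangular matrices. -/
def filtUpper (M : ℕ) : Filt (Matrix (Fin M) (Fin M) ℚ) where
  J := upperJ M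
  N := M
  anti k := upperJ_antitone M (Nat.le_succ k)
  mul_mem _ _ _ _ _ ha _ hb := upperJ_mul ha hb
  eq_bot := upperJ_eq_bot M

theorem h1_of_E {G X R : Type*} [Group G] (C : Pieces G X R Vx) (hE : C.E = Cl)
    (B : Type*) [AddCommGroup B] : C.H1 B := by
  intro lam hlam
  rw [hE] at hlam
  have hself : ∀ v, lam v v = 0 := by
    intro v
    have := hlam v v v (Cl.refl v) (Cl.refl v) (Cl.refl v)
    simpa using this
  obtain ⟨u, hu⟩ := L1 lam (by
      intro v w h
      have := hlam v w v (Or.inr h) (Or.inr h.symm) (Cl.refl v)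
      rw [hself] at this
      exact (neg_eq_of_add_eq_zero_right this).symm)
    (fun u v w h1 h2 h3 => hlam u v w (Or.inr h1) (Or.inr h2) (Or.inr h3))
  refine ⟨fun v => - u v, ?_⟩
  intro v w h
  rw [hE] at h
  rcases h with rfl | h
  · show lam v v = -u v - -u v
    rw [hself, sub_self]
  · show lam v w = -u v - -u w
    rw [hu v w h, sub_neg_eq_add, add_comm, ← sub_eq_add_neg]

/-- There is no system of pieces with nerve `L` in a Cayley complex whose `H²` with rational
coefficients vanishes. -/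
theorem no_pieces_star {G X R : Type*} [Group G] (C : Pieces G X R Vx) (hE : C.E = Cl)
    (star : ∀ (B : Type) [AddCommGroup B] [Module ℚ B] (c : R → G → B),
      ∃ b : X → G → B, ∀ r h, S C.φ b (C.rel r) h = c r h) : False := by
  have : Nonempty Vx := ⟨.v0 0⟩
  refine C.contradiction star
    (fun B _ _ => h1_of_E C hE B) (.v0 0) (.v1 2 none) (.v0 1) (.v1 2 (some (.a, [])))
    ?_ ?_ ?_ ?_ ?_
  · rw [hE]; exact Or.inr (by show (0 : Fin 3) ≠ 2; decide)
  · rw [hE]; exact Or.inr (by show (1 : Fin 3) ≠ 2; decide)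
  · rw [hE]; exact Or.inr (by show (1 : Fin 3) ≠ 2; decide)
  · rw [hE]; exact Or.inr (by show (0 : Fin 3) ≠ 2; decide)
  · intro Sf
    obtain ⟨M, lam, h1, h2, h3⟩ := L3 Sf
    refine ⟨Matrix (Fin M) (Fin M) ℚ, inferInstance, inferInstance, filtUpper M, lam, h1, ?_, h3⟩
    intro u hu v hv w hw huv hvw huw
    rw [hE] at huv hvw huw
    exact h2 u v w hu hv hw huv hvw huw

/-- There is no system of pieces with nerve `L` in a Cayley complex with injective `d2`. -/
theorem no_pieces {G X R : Type*} [Group G] (C : Pieces G X R Vx) (hE : C.E = Cl)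
    (hinj : Function.Injective (d2 C.φ C.rel)) : False :=
  no_pieces_star C hE (fun B _ _ c => star_of_injective C.φ C.rel hinj B c)

end Vale.Agent.P173.Hol
end
end

section

section

/-!
Right-angled Coxeter groups with multiplicities: a generator `s ⟨v, i⟩` for every vertex `v` and
every index `i : I v`; `s ⟨v, i⟩` and `s ⟨v', i'⟩` commute if `v = v'` or `adj v v'`.
-/

namespace Vale.Agent.P173

variable {V : Type*} (adj : V → V → Prop) (I : V → Type*)

/-- The relators of the right-angled Coxeter group. -/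
def racgRels : Set (FreeGroup (Σ v, I v)) :=
  {r | (∃ g, r = FreeGroup.of g * FreeGroup.of g) ∨
    ∃ g h : Σ v, I v, (g.1 = h.1 ∨ adj g.1 h.1) ∧
      r = FreeGroup.of g * FreeGroup.of h * (FreeGroup.of g)⁻¹ * (FreeGroup.of h)⁻¹}

/-- The right-angled Coxeter group. -/
def Racg : Type _ := PresentedGroup (racgRels adj I)

instance : Group (Racg adj I) := inferInstanceAs (Group (PresentedGroup (racgRels adj I)))

namespace Racg

variable {adj I}

/-- The generators. -/
def s (g : Σ v, I v) : Racg adj I := PresentedGroup.of g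

theorem s_mul_s (g : Σ v, I v) : (s g * s g : Racg adj I) = 1 := by
  have h : (PresentedGroup.mk (racgRels adj I)) (FreeGroup.of g * FreeGroup.of g) = 1 :=
    PresentedGroup.one_of_mem (Or.inl ⟨g, rfl⟩)
  rw [map_mul] at h
  exact h

theorem s_inv (g : Σ v, I v) : (s g : Racg adj I)⁻¹ = s g :=
  inv_eq_of_mul_eq_one_left (s_mul_s g)

theorem s_mul_s_mul (g : Σ v, I v) (w : Racg adj I) : s g * (s g * w) = w := by
  rw [← mul_assoc, s_mul_s, one_mul]

theorem s_comm {g h : Σ v, I v} (hgh : g.1 = h.1 ∨ adj g.1 h.1) :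
    (s g * s h : Racg adj I) = s h * s g := by
  have h1 : (PresentedGroup.mk (racgRels adj I))
      (FreeGroup.of g * FreeGroup.of h * (FreeGroup.of g)⁻¹ * (FreeGroup.of h)⁻¹) = 1 :=
    PresentedGroup.one_of_mem (Or.inr ⟨g, h, hgh, rfl⟩)
  simp only [map_mul, map_inv] at h1
  have h2 : (s g * s h * (s g)⁻¹ * (s h)⁻¹ : Racg adj I) = 1 := h1
  rw [mul_inv_eq_one, mul_inv_eq_iff_eq_mul] at h2
  exact h2

/-- The universal property. -/
def lift {H : Type*} [Group H] (f : (Σ v, I v) → H) (h1 : ∀ g, f g * f g = 1)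
    (h2 : ∀ g h : Σ v, I v, (g.1 = h.1 ∨ adj g.1 h.1) → f g * f h = f h * f g) :
    Racg adj I →* H :=
  PresentedGroup.toGroup (rels := racgRels adj I) (f := f) (by
    rintro r (⟨g, rfl⟩ | ⟨g, h, hgh, rfl⟩)
    · simp [h1]
    · simp only [map_mul, map_inv, FreeGroup.lift_apply_of]
      rw [h2 g h hgh]
      group)

theorem lift_s {H : Type*} [Group H] (f : (Σ v, I v) → H) (h1 : ∀ g, f g * f g = 1)
    (h2 : ∀ g h : Σ v, I v, (g.1 = h.1 ∨ adj g.1 h.1) → f g * f h = f h * f g) (g : Σ v, I v) :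
    lift f h1 h2 (s g : Racg adj I) = f g := by
  unfold lift s
  exact PresentedGroup.toGroup.of _

theorem closure_range_s : Subgroup.closure (Set.range (s : (Σ v, I v) → Racg adj I)) = ⊤ :=
  PresentedGroup.closure_range_of _

/-- Induction on the length of a word. -/
@[elab_as_elim]
theorem induction {p : Racg adj I → Prop} (h1 : p 1) (hs : ∀ g w, p w → p (s g * w))
    (w : Racg adj I) : p w := by
  have hw : w ∈ Subgroup.closure (Set.range (s : (Σ v, I v) → Racg adj I)) := by
    rw [closure_range_s]; trivial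
  induction hw using Subgroup.closure_induction_left with
  | one => exact h1
  | mul_left x hx y _ hy =>
    obtain ⟨g, rfl⟩ := hx
    exact hs g y hy
  | inv_mul_cancel x hx y _ hy =>
    obtain ⟨g, rfl⟩ := hx
    rw [s_inv]
    exact hs g y hy

theorem hom_ext {H : Type*} [Group H] {a b : Racg adj I →* H} (h : ∀ g, a (s g) = b (s g)) :
    a = b := by
  ext w
  induction w using induction with
  | h1 => rw [map_one, map_one]
  | hs g w ih => rw [map_mul, map_mul, h, ih]

/-! ### Retractions -/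

open Classical in
/-- The retraction killing the generators that do not satisfy `M`. -/
noncomputable def retr (M : (Σ v, I v) → Prop) : Racg adj I →* Racg adj I :=
  lift (fun g => if M g then s g else 1)
    (fun g => by
      split_ifs
      · exact s_mul_s g
      · rw [one_mul])
    (fun g h hgh => by
      split_ifs
      · exact s_comm hgh
      · rw [one_mul, mul_one]
      · rw [one_mul, mul_one]
      · rfl)

theorem retr_s_of {M : (Σ v, I v) → Prop} {g : Σ v, I v} (h : M g) :
    retr M (s g : Racg adj I) = s g := by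
  rw [retr, lift_s, if_pos h]

theorem retr_s_of_not {M : (Σ v, I v) → Prop} {g : Σ v, I v} (h : ¬ M g) :
    retr M (s g : Racg adj I) = 1 := by
  rw [retr, lift_s, if_neg h]

theorem retr_retr (M M' : (Σ v, I v) → Prop) (w : Racg adj I) :
    retr M (retr M' w) = retr (fun g => M g ∧ M' g) w := by
  have : (retr M).comp (retr M') = (retr (fun g => M g ∧ M' g) : Racg adj I →* Racg adj I) := by
    apply hom_ext
    intro g
    rw [MonoidHom.comp_apply]
    by_cases h' : M' g
    · rw [retr_s_of h']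
      by_cases h : M g
      · rw [retr_s_of h, retr_s_of (M := fun g => M g ∧ M' g) ⟨h, h'⟩]
      · rw [retr_s_of_not h, retr_s_of_not (M := fun g => M g ∧ M' g) (fun hh => h hh.1)]
    · rw [retr_s_of_not h', map_one, retr_s_of_not (M := fun g => M g ∧ M' g) (fun hh => h' hh.2)]
  rw [← this, MonoidHom.comp_apply]

/-! ### Invariant functions and the functional tree lemma -/

/-- The functions invariant under left multiplication by the generators over `S`. -/
def Inv {A : Type*} (S : Set V) (f : Racg adj I → A) : Prop :=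
  ∀ v ∈ S, ∀ (i : I v) (w : Racg adj I), f (s ⟨v, i⟩ * w) = f w

theorem Inv.mono {A : Type*} {S T : Set V} (h : S ⊆ T) {f : Racg adj I → A} (hf : Inv T f) :
    Inv S f := fun v hv => hf v (h hv)

section FTL

variable {A : Type*} [AddCommGroup A]

/-- The permutation `(w, a) ↦ (s w, a + f w - f (s w))` -/
def twist (g : Σ v, I v) (f : Racg adj I → A) : Equiv.Perm (Racg adj I × A) where
  toFun p := (s g * p.1, p.2 + f p.1 - f (s g * p.1))
  invFun p := (s g * p.1, p.2 + f p.1 - f (s g * p.1))
  left_inv p := by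
    ext
    · simp only [s_mul_s_mul]
    · simp only [s_mul_s_mul]
      abel
  right_inv p := by
    ext
    · simp only [s_mul_s_mul]
    · simp only [s_mul_s_mul]
      abel

theorem twist_apply (g : Σ v, I v) (f : Racg adj I → A) (p : Racg adj I × A) :
    twist g f p = (s g * p.1, p.2 + f p.1 - f (s g * p.1)) := rfl

theorem twist_mul_self (g : Σ v, I v) (f : Racg adj I → A) : twist g f * twist g f = 1 := by
  apply Equiv.ext
  intro p
  exact (twist g f).left_inv p

theorem twist_comm {g h : Σ v, I v} (hgh : g.1 = h.1 ∨ adj g.1 h.1) (f f' : Racg adj I → A)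
    (h1 : ∀ w, f (s g * (s h * w)) - f (s h * w) = f (s g * w) - f w)
    (h2 : ∀ w, f' (s h * (s g * w)) - f' (s g * w) = f' (s h * w) - f' w) :
    twist g f * twist h f' = twist h f' * twist g f := by
  apply Equiv.ext
  rintro ⟨w, a⟩
  have hc : s g * (s h * w) = s h * (s g * w) := by
    rw [← mul_assoc, s_comm hgh, mul_assoc]
  have e1 := h1 w
  have e2 := h2 w
  simp only [Equiv.Perm.mul_apply, twist_apply]
  refine Prod.ext hc ?_
  show a + f' w - f' (s h * w) + f (s h * w) - f (s g * (s h * w)) =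
    a + f w - f (s g * w) + f' (s g * w) - f' (s h * (s g * w))
  have e1' : f (s h * w) - f (s g * (s h * w)) = f w - f (s g * w) := by
    rw [← neg_sub, e1, neg_sub]
  have e2' : f' (s g * w) - f' (s h * (s g * w)) = f' w - f' (s h * w) := by
    rw [← neg_sub, e2, neg_sub]
  calc a + f' w - f' (s h * w) + f (s h * w) - f (s g * (s h * w))
      = a + (f' w - f' (s h * w)) + (f (s h * w) - f (s g * (s h * w))) := by abel
    _ = a + (f' (s g * w) - f' (s h * (s g * w))) + (f w - f (s g * w)) := by rw [e1', e2']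
    _ = _ := by abel

theorem twist_comm_same {g h : Σ v, I v} (hgh : g.1 = h.1 ∨ adj g.1 h.1)
    (f : Racg adj I → A) : twist g f * twist h f = twist h f * twist g f := by
  apply Equiv.ext
  rintro ⟨w, a⟩
  have hc : s g * (s h * w) = s h * (s g * w) := by
    rw [← mul_assoc, s_comm hgh, mul_assoc]
  simp only [Equiv.Perm.mul_apply, twist_apply]
  refine Prod.ext hc ?_
  show a + f w - f (s h * w) + f (s h * w) - f (s g * (s h * w)) =
    a + f w - f (s g * w) + f (s g * w) - f (s h * (s g * w))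
  rw [hc]
  abel

open Classical in
/-- **Functional tree lemma.** -/
theorem exists_ftl (hsymm : ∀ v v', adj v v' → adj v' v) (N Sc : Set V)
    (hdisj : ∀ v ∈ N, v ∉ Sc) (hind : ∀ v ∈ Sc, ∀ v' ∈ Sc, ¬ adj v v')
    (f : V → Racg adj I → A)
    (hf : ∀ v ∈ Sc, Inv {v' | v' ∈ N ∧ adj v v'} (f v)) :
    ∃ u : Racg adj I → A, Inv N u ∧ ∀ v ∈ Sc, Inv {v} (fun w => f v w + u w) := by
  set F : V → Racg adj I → A := fun v => if v ∈ Sc then f v else 0 with hF
  have hFS : ∀ v ∈ Sc, F v = f v := fun v hv => by rw [hF]; exact if_pos hv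
  have hFN : ∀ v ∈ N, F v = 0 := fun v hv => by rw [hF]; exact if_neg (hdisj v hv)
  set T : (Σ v, I v) → Prop := fun g => g.1 ∈ N ∨ g.1 ∈ Sc with hT
  have key : ∀ g h : Σ v, I v, T g → T h → (g.1 ≠ h.1 ∧ adj g.1 h.1) → ∀ w : Racg adj I,
      F g.1 (s g * (s h * w)) - F g.1 (s h * w) = F g.1 (s g * w) - F g.1 w := by
    intro g h hg hh hgh w
    rcases hg with hg | hg
    · rw [hFN _ hg]; simp
    · rcases hh with hh | hh
      · rw [hFS _ hg]
        have h1 : f g.1 (s h * (s g * w)) = f g.1 (s g * w) :=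
          hf _ hg h.1 ⟨hh, hgh.2⟩ h.2 _
        have h2 : f g.1 (s h * w) = f g.1 w := hf _ hg h.1 ⟨hh, hgh.2⟩ h.2 _
        have h3 : s g * (s h * w) = s h * (s g * w) := by
          rw [← mul_assoc, s_comm (Or.inr hgh.2), mul_assoc]
        rw [h3, h1, h2]
      · exact absurd hgh.2 (hind _ hg _ hh)
  have comm : ∀ g h : Σ v, I v, T g → T h → (g.1 = h.1 ∨ adj g.1 h.1) →
      twist g (F g.1) * twist h (F h.1) = twist h (F h.1) * twist g (F g.1) := by
    intro g h hg hh hgh
    by_cases he : g.1 = h.1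
    · rw [← he]
      exact twist_comm_same hgh _
    · have hadj : adj g.1 h.1 := hgh.resolve_left he
      exact twist_comm hgh _ _ (key g h hg hh ⟨he, hadj⟩)
        (key h g hh hg ⟨fun e => he e.symm, hsymm _ _ hadj⟩)
  set rho : Racg adj I →* Equiv.Perm (Racg adj I × A) :=
    lift (fun g => if T g then twist g (F g.1) else 1)
      (fun g => by
        split_ifs
        · exact twist_mul_self _ _
        · exact one_mul _)
      (fun g h hgh => by
        split_ifs with hg hh hh
        · exact comm g h hg hh hgh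
        · rw [one_mul, mul_one]
        · rw [one_mul, mul_one]
        · rfl) with hrho
  have rho_s : ∀ g, T g → rho (s g) = twist g (F g.1) := fun g hg => by
    rw [hrho, lift_s, if_pos hg]
  have rho_s' : ∀ g, ¬ T g → rho (s g) = 1 := fun g hg => by
    rw [hrho, lift_s, if_neg hg]
  have fst_rho : ∀ (w : Racg adj I) (p : Racg adj I × A), (rho w p).1 = retr T w * p.1 := by
    intro w
    induction w using induction with
    | h1 => intro p; simp only [map_one, Equiv.Perm.coe_one, id_eq, one_mul]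
    | hs g w ih =>
      intro p
      rw [map_mul, map_mul, Equiv.Perm.mul_apply]
      by_cases hg : T g
      · rw [rho_s g hg, retr_s_of hg, twist_apply, mul_assoc, ← ih p]
      · rw [rho_s' g hg, retr_s_of_not hg, one_mul, ← ih p, Equiv.Perm.one_apply]
  refine ⟨fun w => (rho w ((retr T w)⁻¹ * w, 0)).2, ?_, ?_⟩
  · intro v hv i w
    have hg : T ⟨v, i⟩ := Or.inl hv
    have h1 : (retr T (s ⟨v, i⟩ * w : Racg adj I))⁻¹ * (s ⟨v, i⟩ * w) = (retr T w)⁻¹ * w := by
      rw [map_mul, retr_s_of hg, mul_inv_rev, s_inv, mul_assoc, s_mul_s_mul]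
    show (rho (s ⟨v, i⟩ * w) _).2 = _
    rw [h1, map_mul, Equiv.Perm.mul_apply, rho_s _ hg, twist_apply]
    show _ + F v _ - F v _ = _
    rw [hFN v hv]
    simp only [Pi.zero_apply, add_zero, sub_zero]
  · intro v hv v' hv' i w
    obtain rfl : v' = v := hv'
    have hg : T ⟨v', i⟩ := Or.inr hv
    have h1 : (retr T (s ⟨v', i⟩ * w : Racg adj I))⁻¹ * (s ⟨v', i⟩ * w) = (retr T w)⁻¹ * w := by
      rw [map_mul, retr_s_of hg, mul_inv_rev, s_inv, mul_assoc, s_mul_s_mul]
    have h2 := fst_rho w ((retr T w)⁻¹ * w, 0)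
    rw [← mul_assoc, mul_inv_cancel, one_mul] at h2
    show f v' (s ⟨v', i⟩ * w) + (rho (s ⟨v', i⟩ * w) _).2 = f v' w + _
    rw [h1, map_mul, Equiv.Perm.mul_apply, rho_s _ hg, twist_apply]
    show f v' (s ⟨v', i⟩ * w) + (_ + F v' _ - F v' _) = _
    rw [hFS v' hv, h2]
    abel

end FTL

end Racg

end Vale.Agent.P173
end
end

section

section

/-!
# P173: the groups `W`, `G = ker π`, the retractions `rM`, finite supports

`I3 : Fin 3 → Type` are the index sets (one for each colour); the generators of `W` are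
`Racg.s ⟨v, i⟩` with `v : Vx`, `i : I3 (col v)`.
-/

namespace Vale.Agent.P173

/-- The set of all indices. -/
abbrev JJ (I3 : Fin 3 → Type) : Type := Σ c : Fin 3, I3 c

/-- The set of generators of `W`. -/
abbrev GenW (I3 : Fin 3 → Type) : Type := Σ v : Vx, I3 (col v)

/-- The group `W`. -/
abbrev WW (I3 : Fin 3 → Type) : Type := Racg Adj (fun v => I3 (col v))

variable {I3 : Fin 3 → Type}

/-- The index of a generator. -/
def idx (g : GenW I3) : JJ I3 := ⟨col g.1, g.2⟩

open Classical in
/-- The homomorphism `π : W → (Z/2)^J`. -/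
noncomputable def piHom : WW I3 →* (JJ I3 → ℤˣ) :=
  Racg.lift (fun g => Pi.mulSingle (idx g) (-1))
    (fun g => by
      rw [← Pi.mulSingle_mul]
      simp)
    (fun g h _ => mul_comm _ _)

variable (I3) in
/-- The group `G`. -/
noncomputable def GG : Subgroup (WW I3) := (piHom (I3 := I3)).ker

open Classical in
theorem piHom_s (g : GenW I3) : piHom (Racg.s g : WW I3) = Pi.mulSingle (idx g) (-1) := by
  rw [piHom, Racg.lift_s]

theorem piHom_s_same (g : GenW I3) : piHom (Racg.s g : WW I3) (idx g) = -1 := by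
  classical
  rw [piHom_s]
  exact Pi.mulSingle_eq_same _ _

theorem piHom_s_ne (g : GenW I3) {j : JJ I3} (h : j ≠ idx g) :
    piHom (Racg.s g : WW I3) j = 1 := by
  classical
  rw [piHom_s]
  exact Pi.mulSingle_eq_of_ne h _

theorem mem_GG {w : WW I3} : w ∈ GG I3 ↔ piHom w = 1 := MonoidHom.mem_ker

/-! ### The subgroups `W(M)` -/

/-- The retraction killing the generators whose index is not in `M`. -/
noncomputable def rM (M : Set (JJ I3)) : WW I3 →* WW I3 := Racg.retr (fun g => idx g ∈ M)

theorem rM_s {M : Set (JJ I3)} {g : GenW I3} (h : idx g ∈ M) :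
    rM M (Racg.s g : WW I3) = Racg.s g := Racg.retr_s_of h

theorem rM_s_not {M : Set (JJ I3)} {g : GenW I3} (h : idx g ∉ M) :
    rM M (Racg.s g : WW I3) = 1 := Racg.retr_s_of_not h

theorem rM_rM (M M' : Set (JJ I3)) (w : WW I3) : rM M (rM M' w) = rM (M ∩ M') w :=
  Racg.retr_retr _ _ w

/-- `W(M)`. -/
noncomputable def WM (M : Set (JJ I3)) : Subgroup (WW I3) := (rM M).eqLocus (MonoidHom.id _)

theorem mem_WM {M : Set (JJ I3)} {w : WW I3} : w ∈ WM M ↔ rM M w = w := Iff.rfl

theorem s_mem_WM {M : Set (JJ I3)} {g : GenW I3} (h : idx g ∈ M) : (Racg.s g : WW I3) ∈ WM M :=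
  rM_s h

theorem rM_mem (M : Set (JJ I3)) (w : WW I3) : rM M w ∈ WM M := by
  rw [mem_WM, rM_rM, Set.inter_self]

theorem WM_inter (M M' : Set (JJ I3)) : WM (M ∩ M') = WM M ⊓ WM M' := by
  ext w
  rw [Subgroup.mem_inf]
  constructor
  · intro h
    rw [mem_WM] at h
    constructor
    · rw [mem_WM, ← h, rM_rM, ← Set.inter_assoc, Set.inter_self]
    · rw [mem_WM, ← h, rM_rM, Set.inter_comm M M', ← Set.inter_assoc, Set.inter_self]
  · rintro ⟨h, h'⟩
    rw [mem_WM] at *
    rw [← rM_rM, h', h]

theorem WM_mono {M M' : Set (JJ I3)} (h : M ⊆ M') : WM M ≤ WM M' := by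
  have := WM_inter M M'
  rw [Set.inter_eq_left.2 h] at this
  rw [this]
  exact inf_le_right

theorem WM_eq_closure (M : Set (JJ I3)) :
    WM M = Subgroup.closure {w | ∃ g : GenW I3, idx g ∈ M ∧ w = Racg.s g} := by
  apply le_antisymm
  · intro w hw
    rw [mem_WM] at hw
    rw [← hw]
    clear hw
    induction w using Racg.induction with
    | h1 => rw [map_one]; exact one_mem _
    | hs g w ih =>
      rw [map_mul]
      refine mul_mem ?_ ih
      by_cases h : idx g ∈ M
      · rw [rM_s h]
        exact Subgroup.subset_closure ⟨g, h, rfl⟩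
      · rw [rM_s_not h]
        exact one_mem _
  · rw [Subgroup.closure_le]
    rintro w ⟨g, h, rfl⟩
    exact s_mem_WM h

/-- Every element of `W` lies in some `W(F)` with `F` finite. -/
theorem exists_finset_mem_WM (w : WW I3) : ∃ F : Finset (JJ I3), w ∈ WM (F : Set (JJ I3)) := by
  classical
  induction w using Racg.induction with
  | h1 => exact ⟨∅, one_mem _⟩
  | hs g w ih =>
    obtain ⟨F, hF⟩ := ih
    refine ⟨insert (idx g) F, mul_mem (s_mem_WM (by simp)) (WM_mono ?_ hF)⟩
    simp

/-- `π` of an element of `W(M)` is supported in `M`. -/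
theorem piHom_of_mem_WM {M : Set (JJ I3)} {w : WW I3} (hw : w ∈ WM M) {j : JJ I3} (hj : j ∉ M) :
    piHom w j = 1 := by
  rw [WM_eq_closure] at hw
  induction hw using Subgroup.closure_induction with
  | mem x hx =>
    obtain ⟨g, hg, rfl⟩ := hx
    exact piHom_s_ne g (fun h => hj (h ▸ hg))
  | one => simp only [map_one, Pi.one_apply]
  | mul x y _ _ hx hy => rw [map_mul, Pi.mul_apply, hx, hy, one_mul]
  | inv x _ hx => rw [map_inv, Pi.inv_apply, hx, inv_one]

/-! ### Clique subgroups -/

/-- The subgroup generated by the generators over `τ`. -/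
def Wτ (τ : Set Vx) : Subgroup (WW I3) :=
  Subgroup.closure {w | ∃ g : GenW I3, g.1 ∈ τ ∧ w = Racg.s g}

theorem Wτ_comm {τ : Set Vx} (hτ : ∀ v ∈ τ, ∀ v' ∈ τ, Cl v v') :
    ∀ x ∈ {w : WW I3 | ∃ g : GenW I3, g.1 ∈ τ ∧ w = Racg.s g},
    ∀ y ∈ {w : WW I3 | ∃ g : GenW I3, g.1 ∈ τ ∧ w = Racg.s g}, x * y = y * x := by
  rintro _ ⟨g, hg, rfl⟩ _ ⟨h, hh, rfl⟩
  exact Racg.s_comm (hτ _ hg _ hh)

/-- Every element of the subgroup of a clique is a product over a list of distinct generators. -/
theorem exists_list_of_mem_Wτ {τ : Set Vx} (hτ : ∀ v ∈ τ, ∀ v' ∈ τ, Cl v v') {w : WW I3}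
    (hw : w ∈ Wτ τ) : ∃ l : List (GenW I3), l.Nodup ∧ (∀ g ∈ l, g.1 ∈ τ) ∧
      w = (l.map (fun g => (Racg.s g : WW I3))).prod := by
  classical
  have hcl : ∀ l : List (GenW I3), (∀ g ∈ l, g.1 ∈ τ) → ∀ g : GenW I3, g.1 ∈ τ →
      l.Nodup →
      ∃ l' : List (GenW I3), l'.Nodup ∧ (∀ g ∈ l', g.1 ∈ τ) ∧
        Racg.s g * (l.map (fun g => (Racg.s g : WW I3))).prod =
          (l'.map (fun g => (Racg.s g : WW I3))).prod := by
    intro l hl g hg hnd
    by_cases hgl : g ∈ l
    · obtain ⟨l1, l2, rfl⟩ := List.append_of_mem hgl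
      refine ⟨l1 ++ l2, ?_, ?_, ?_⟩
      · exact hnd.sublist (List.Sublist.append (List.Sublist.refl _)
          (List.sublist_cons_self _ _))
      · intro h hh
        apply hl
        rcases List.mem_append.1 hh with h' | h'
        · exact List.mem_append.2 (Or.inl h')
        · exact List.mem_append.2 (Or.inr (List.mem_cons_of_mem _ h'))
      · have hcomm : ∀ l1 : List (GenW I3), (∀ g ∈ l1, g.1 ∈ τ) →
            Racg.s g * (l1.map (fun g => (Racg.s g : WW I3))).prod =
            (l1.map (fun g => (Racg.s g : WW I3))).prod * Racg.s g := by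
          intro l1 hl1
          induction l1 with
          | nil => simp
          | cons a l1 ih =>
            rw [List.map_cons, List.prod_cons, ← mul_assoc,
              Racg.s_comm (hτ _ hg _ (hl1 a (by simp))), mul_assoc,
              ih (fun g hg => hl1 g (by simp [hg])), mul_assoc]
        rw [List.map_append, List.prod_append, List.map_cons, List.prod_cons,
          List.map_append, List.prod_append, ← mul_assoc,
          hcomm l1 (fun g hg => hl g (by simp [hg])), mul_assoc, ← mul_assoc (Racg.s g),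
          Racg.s_mul_s, one_mul]
    · refine ⟨g :: l, List.nodup_cons.2 ⟨hgl, hnd⟩, ?_, ?_⟩
      · intro h hh
        rcases List.mem_cons.1 hh with rfl | h'
        · exact hg
        · exact hl _ h'
      · simp
  unfold Wτ at hw
  induction hw using Subgroup.closure_induction_left with
  | one => exact ⟨[], by simp, by simp, by simp⟩
  | mul_left x hx y hy ih =>
    obtain ⟨g, hg, rfl⟩ := hx
    obtain ⟨l, hnd, hl, hw⟩ := ih
    obtain ⟨l', h1, h2, h3⟩ := hcl l hl g hg hnd
    exact ⟨l', h1, h2, by rw [hw, h3]⟩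
  | inv_mul_cancel x hx y hy ih =>
    obtain ⟨g, hg, rfl⟩ := hx
    obtain ⟨l, hnd, hl, hw⟩ := ih
    obtain ⟨l', h1, h2, h3⟩ := hcl l hl g hg hnd
    exact ⟨l', h1, h2, by rw [Racg.s_inv, hw, h3]⟩

theorem idx_injOn_clique {τ : Set Vx} (hτ : ∀ v ∈ τ, ∀ v' ∈ τ, Cl v v') (g h : GenW I3)
    (hg : g.1 ∈ τ) (hh : h.1 ∈ τ) (he : idx g = idx h) : g = h := by
  obtain ⟨v, i⟩ := g
  obtain ⟨v', i'⟩ := h
  have hc : col v = col v' := congrArg Sigma.fst he
  have hv : v = v' := by
    rcases hτ _ hg _ hh with h | h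
    · exact h
    · exact absurd hc h.col_ne
  subst hv
  have : i = i' := eq_of_heq (Sigma.mk.inj_iff.1 he).2
  rw [this]

/-- The projection `π` is injective on the subgroup of a clique. -/
theorem piHom_injOn_clique {τ : Set Vx} (hτ : ∀ v ∈ τ, ∀ v' ∈ τ, Cl v v') {w : WW I3}
    (hw : w ∈ Wτ τ) (h1 : piHom w = 1) : w = 1 := by
  classical
  obtain ⟨l, hnd, hl, rfl⟩ := exists_list_of_mem_Wτ hτ hw
  rcases l with _ | ⟨g, l⟩
  · simp
  · exfalso
    have h2 := congrFun h1 (idx g)
    rw [List.map_cons, List.prod_cons, map_mul, Pi.mul_apply, piHom_s_same, Pi.one_apply] at h2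
    have h3 : ∀ l : List (GenW I3), (∀ h ∈ l, h.1 ∈ τ) → g ∉ l →
        piHom (l.map (fun g => (Racg.s g : WW I3))).prod (idx g) = 1 := by
      intro l hl hgl
      induction l with
      | nil => simp only [List.map_nil, List.prod_nil, map_one, Pi.one_apply]
      | cons a l ih =>
        rw [List.map_cons, List.prod_cons, map_mul, Pi.mul_apply,
          ih (fun g hg => hl g (by simp [hg])) (fun h => hgl (by simp [h])), mul_one]
        apply piHom_s_ne
        intro he
        have := idx_injOn_clique hτ g a (‹∀ h ∈ g :: _, h.1 ∈ τ› g (by simp)) (hl a (by simp)) he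
        exact hgl (by simp [this])
    rw [h3 l (fun h hh => hl h (by simp [hh])) (List.nodup_cons.1 hnd).1, mul_one] at h2
    exact absurd h2 (by decide)

/-! ### Cardinalities -/

open Cardinal in
/-- `|W(M)| ≤ max(ℵ₀, |M|)` -/
theorem mk_WM_le (M : Set (JJ I3)) : #(WM M) ≤ max ℵ₀ #M := by
  classical
  let S := {g : GenW I3 // idx g ∈ M}
  have hS : #S ≤ max ℵ₀ #M := by
    have hinj : Function.Injective (fun g : S => ((g.1.1, ⟨idx g.1, g.2⟩) : Vx × M)) := by
      rintro ⟨⟨v, i⟩, hg⟩ ⟨⟨v', i'⟩, hh⟩ he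
      have hv : v = v' := congrArg Prod.fst he
      subst hv
      have h2 : idx (⟨v, i⟩ : GenW I3) = idx ⟨v, i'⟩ := congrArg (fun p => (p.2 : JJ I3)) he
      have h3 : i = i' := eq_of_heq (Sigma.mk.inj_iff.1 h2).2
      subst h3
      rfl
    refine (mk_le_of_injective hinj).trans ?_
    rw [mk_prod, lift_id, lift_id]
    exact (mul_le_max _ _).trans
      (max_le (max_le ((mk_le_aleph0 (α := Vx)).trans (le_max_left _ _)) (le_max_right _ _))
        (le_max_left _ _))
  have hsurj : ∀ w ∈ WM M, ∃ l : List S, w = (l.map (fun g => (Racg.s g.1 : WW I3))).prod := by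
    intro w hw
    rw [WM_eq_closure] at hw
    induction hw using Subgroup.closure_induction_left with
    | one => exact ⟨[], by simp⟩
    | mul_left x hx y hy ih =>
      obtain ⟨g, hg, rfl⟩ := hx
      obtain ⟨l, hl⟩ := ih
      exact ⟨⟨g, hg⟩ :: l, by rw [hl]; simp⟩
    | inv_mul_cancel x hx y hy ih =>
      obtain ⟨g, hg, rfl⟩ := hx
      obtain ⟨l, hl⟩ := ih
      exact ⟨⟨g, hg⟩ :: l, by rw [hl, Racg.s_inv]; simp⟩
  have hinj : Function.Injective
      (fun w : WM M => Classical.choose (hsurj w.1 w.2) : WM M → List S) := by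
    intro w w' he
    have h1 := Classical.choose_spec (hsurj w.1 w.2)
    have h2 := Classical.choose_spec (hsurj w'.1 w'.2)
    apply Subtype.ext
    rw [h1, h2]
    exact congrArg (fun l : List S => (l.map (fun g => (Racg.s g.1 : WW I3))).prod) he
  calc #(WM M) ≤ #(List S) := mk_le_of_injective hinj
    _ ≤ max ℵ₀ #S := mk_list_le_max S
    _ ≤ max ℵ₀ #M := max_le (le_max_left _ _) hS

end Vale.Agent.P173
end
end

section

section

/-!
# P173: finitary closure operators and cardinalities
-/

namespace Vale.Agent.P173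

universe u

open Cardinal

theorem mk_finset_le_max {α : Type u} : #(Finset α) ≤ max ℵ₀ #α := by
  classical
  refine (mk_le_of_injective (f := fun s : Finset α => s.toList) ?_).trans (mk_list_le_max α)
  intro s t h
  have : s.toList.toFinset = t.toList.toFinset := congrArg List.toFinset h
  simpa using this

/-- A finitary closure operator with countable values: every set `S` is contained in a closed set
of cardinality at most `max ℵ₀ |S|`. -/
theorem exists_closed {α : Type u} (op : Finset α → Set α) (hop : ∀ F, (op F).Countable)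
    (S : Set α) : ∃ N : Set α, S ⊆ N ∧ (∀ F : Finset α, (F : Set α) ⊆ N → op F ⊆ N) ∧
      #N ≤ max ℵ₀ #S := by
  classical
  set κ := max ℵ₀ #S with hκ
  let step : Set α → Set α := fun M => M ∪ ⋃ F : {F : Finset α // (F : Set α) ⊆ M}, op F.1
  have hstep : ∀ M : Set α, #M ≤ κ → #(step M) ≤ κ := by
    intro M hM
    have h1 : #{F : Finset α // (F : Set α) ⊆ M} ≤ κ := by
      have h2 : #{F : Finset α // (F : Set α) ⊆ M} ≤ #(Finset M) := by
        refine mk_le_of_injective
          (f := fun F => (F.1.subtype (· ∈ M) : Finset M)) ?_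
        intro F F' h
        apply Subtype.ext
        ext x
        constructor
        · intro hx
          have : (⟨x, F.2 hx⟩ : M) ∈ F.1.subtype (· ∈ M) := by simpa using hx
          have h' : F.1.subtype (· ∈ M) = F'.1.subtype (· ∈ M) := h
          rw [h'] at this
          simpa using this
        · intro hx
          have : (⟨x, F'.2 hx⟩ : M) ∈ F'.1.subtype (· ∈ M) := by simpa using hx
          have h' : F.1.subtype (· ∈ M) = F'.1.subtype (· ∈ M) := h
          rw [← h'] at this
          simpa using this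
      exact (h2.trans mk_finset_le_max).trans (max_le (le_max_left _ _) hM)
    have h3 : #(⋃ F : {F : Finset α // (F : Set α) ⊆ M}, op F.1) ≤ κ := by
      refine (mk_iUnion_le _).trans ?_
      refine mul_le_of_le (le_max_left _ _) h1 ?_
      refine (ciSup_le' (a := ℵ₀) ?_).trans (le_max_left _ _)
      intro F
      exact (hop F.1).le_aleph0
    exact (mk_union_le _ _).trans (add_le_of_le (le_max_left _ _) hM h3)
  let Nn : ℕ → Set α := fun n => step^[n] S
  have hNsucc : ∀ n, Nn (n + 1) = step (Nn n) := fun n => Function.iterate_succ_apply' _ _ _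
  have hmono : Monotone Nn := monotone_nat_of_le_succ (fun n => by
    rw [hNsucc]
    exact Set.subset_union_left)
  have hcard : ∀ n, #(Nn n) ≤ κ := by
    intro n
    induction n with
    | zero => exact le_max_right _ _
    | succ n ih =>
      rw [hNsucc]
      exact hstep _ ih
  refine ⟨⋃ n, Nn n, ?_, ?_, ?_⟩
  · exact Set.subset_iUnion Nn 0
  · intro F hF
    have : ∃ n, (F : Set α) ⊆ Nn n := by
      clear * - hF hmono
      induction F using Finset.induction_on with
      | empty => exact ⟨0, by simp⟩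
      | insert a F _ ih =>
        obtain ⟨n, hn⟩ := ih (fun x hx => hF (by simp at hx ⊢; exact Or.inr hx))
        obtain ⟨m, hm⟩ := Set.mem_iUnion.1 (hF (show a ∈ _ by simp))
        refine ⟨max n m, ?_⟩
        intro x hx
        rcases Finset.mem_insert.1 (Finset.mem_coe.1 hx) with rfl | hx
        · exact hmono (le_max_right n m) hm
        · exact hmono (le_max_left n m) (hn hx)
    obtain ⟨n, hn⟩ := this
    refine Set.Subset.trans ?_ (Set.subset_iUnion Nn (n + 1))
    rw [hNsucc]
    refine Set.Subset.trans ?_ Set.subset_union_right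
    exact Set.subset_iUnion (fun F : {F : Finset α // (F : Set α) ⊆ Nn n} => op F.1) ⟨F, hn⟩
  · have h := mk_iUnion_le_lift.{u, 0} Nn
    rw [lift_uzero] at h
    refine h.trans ?_
    refine mul_le_of_le (le_max_left _ _) (by simp only [mk_eq_aleph0, lift_aleph0, hκ, le_sup_left]) ?_
    refine ciSup_le' ?_
    intro n
    rw [lift_uzero]
    exact hcard n

end Vale.Agent.P173
end
end

section

section

/-!
# P173, sections 3.1 - 3.3: closed sets and the pieces
-/

namespace Vale.Agent.P173

universe u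

open Cardinal

/-! ### Generalities on subgroups of free groups -/

section Words

variable {X R : Type u}

/-- Words in the letters of `A`. -/
def FX (A : Set X) : Subgroup (FreeGroup X) := Subgroup.closure (FreeGroup.of '' A)

/-- Products of conjugates of the relators in `B` by words in the letters of `A`. -/
def NC (rel : R → FreeGroup X) (A : Set X) (B : Set R) : Subgroup (FreeGroup X) :=
  Subgroup.closure {g | ∃ n ∈ FX A, ∃ t ∈ rel '' B, g = n * t * n⁻¹}

theorem FX_mono {A A' : Set X} (h : A ⊆ A') : FX A ≤ FX A' :=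
  Subgroup.closure_mono (Set.image_mono h)

theorem NC_mono (rel : R → FreeGroup X) {A A' : Set X} {B B' : Set R} (h : A ⊆ A')
    (h' : B ⊆ B') : NC rel A B ≤ NC rel A' B' := by
  apply Subgroup.closure_mono
  rintro g ⟨n, hn, t, ⟨r, hr, rfl⟩, rfl⟩
  exact ⟨n, FX_mono h hn, _, ⟨r, h' hr, rfl⟩, rfl⟩

theorem exists_finset_mem_FX_of {A : Set X} {w : FreeGroup X} (hw : w ∈ FX A) :
    ∃ F : Finset X, (F : Set X) ⊆ A ∧ w ∈ FX (F : Set X) := by
  classical
  unfold FX at hw
  induction hw using Subgroup.closure_induction with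
  | mem g hg =>
    obtain ⟨x, hx, rfl⟩ := hg
    exact ⟨{x}, by simpa using hx, Subgroup.subset_closure ⟨x, by simp, rfl⟩⟩
  | one => exact ⟨∅, by simp, one_mem _⟩
  | mul a b _ _ ha hb =>
    obtain ⟨F, hF, hF'⟩ := ha
    obtain ⟨F2, hF2, hF2'⟩ := hb
    refine ⟨F ∪ F2, by simp [hF, hF2], mul_mem (FX_mono ?_ hF') (FX_mono ?_ hF2')⟩
    · simp
    · simp
  | inv a _ ha =>
    obtain ⟨F, hF, hF'⟩ := ha
    exact ⟨F, hF, inv_mem hF'⟩

theorem exists_finset_mem_FX (w : FreeGroup X) : ∃ F : Finset X, w ∈ FX (F : Set X) := by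
  have : w ∈ FX (Set.univ : Set X) := by
    unfold FX
    rw [Set.image_univ, FreeGroup.closure_range_of]
    trivial
  obtain ⟨F, _, hF⟩ := exists_finset_mem_FX_of this
  exact ⟨F, hF⟩

theorem exists_finset_mem_NC (rel : R → FreeGroup X) {w : FreeGroup X}
    (hw : w ∈ Subgroup.normalClosure (Set.range rel)) :
    ∃ (A : Finset X) (B : Finset R), w ∈ NC rel (A : Set X) (B : Set R) := by
  classical
  unfold Subgroup.normalClosure at hw
  induction hw using Subgroup.closure_induction with
  | mem g hg =>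
    rw [Group.mem_conjugatesOfSet_iff] at hg
    obtain ⟨t, ⟨r, rfl⟩, ht⟩ := hg
    rw [isConj_iff] at ht
    obtain ⟨n, rfl⟩ := ht
    obtain ⟨A, hA⟩ := exists_finset_mem_FX n
    exact ⟨A, {r}, Subgroup.subset_closure ⟨n, hA, rel r, ⟨r, by simp, rfl⟩, rfl⟩⟩
  | one => exact ⟨∅, ∅, one_mem _⟩
  | mul a b _ _ ha hb =>
    obtain ⟨A, B, h⟩ := ha
    obtain ⟨A', B', h'⟩ := hb
    refine ⟨A ∪ A', B ∪ B', mul_mem (NC_mono rel ?_ ?_ h) (NC_mono rel ?_ ?_ h')⟩ <;> simp
  | inv a _ ha =>
    obtain ⟨A, B, h⟩ := ha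
    exact ⟨A, B, inv_mem h⟩

theorem countable_closure {G : Type u} [Group G] {S : Set G} (hS : S.Countable) :
    (Subgroup.closure S : Set G).Countable := by
  have h1 : (Subgroup.closure S : Set G) ⊆
      Set.range (fun l : List (S × Bool) =>
        (l.map (fun p => cond p.2 (p.1 : G) (p.1 : G)⁻¹)).prod) := by
    intro w hw
    have hw' : w ∈ Subgroup.closure S := hw
    induction hw' using Subgroup.closure_induction with
    | mem g hg => exact ⟨[(⟨g, hg⟩, true)], by simp⟩
    | one => exact ⟨[], by simp⟩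
    | mul a b ha hb iha ihb =>
      obtain ⟨l, hl⟩ := iha ha
      obtain ⟨l', hl'⟩ := ihb hb
      refine ⟨l ++ l', ?_⟩
      simp only at hl hl' ⊢
      rw [List.map_append, List.prod_append, hl, hl']
    | inv a ha iha =>
      obtain ⟨l, hl⟩ := iha ha
      refine ⟨(l.map (fun p => (p.1, !p.2))).reverse, ?_⟩
      simp only at hl ⊢
      rw [← hl, List.prod_inv_reverse, List.map_reverse, List.map_map, List.map_map]
      congr 2
      apply List.map_congr_left
      rintro ⟨a, b⟩ _
      cases b <;> simp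
  have : Countable S := hS
  exact (Set.countable_range _).mono h1

theorem countable_FX {A : Set X} (hA : A.Countable) : (FX A : Set (FreeGroup X)).Countable :=
  countable_closure (hA.image _)

end Words

/-! ### Closed sets -/

section Closed

variable {I3 : Fin 3 → Type} {X R : Type u}

/-- The universe of the closure operator. -/
abbrev Al (I3 : Fin 3 → Type) (X R : Type u) : Type u := JJ I3 ⊕ (X ⊕ R)

/-- The indices in `M`. -/
def MJ (M : Set (Al I3 X R)) : Set (JJ I3) := Sum.inl ⁻¹' M

/-- The letters in `M`. -/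
def MX (M : Set (Al I3 X R)) : Set X := (fun x => Sum.inr (Sum.inl x)) ⁻¹' M

/-- The relators in `M`. -/
def MR (M : Set (Al I3 X R)) : Set R := (fun r => Sum.inr (Sum.inr r)) ⁻¹' M

theorem MJ_mono {M M' : Set (Al I3 X R)} (h : M ⊆ M') : MJ M ⊆ MJ M' := fun _ hj => h hj

theorem MX_mono {M M' : Set (Al I3 X R)} (h : M ⊆ M') : MX M ⊆ MX M' := fun _ hj => h hj

theorem MR_mono {M M' : Set (Al I3 X R)} (h : M ⊆ M') : MR M ⊆ MR M' := fun _ hj => h hj

/-- Good subsets. -/
structure Good (φ : X → GG I3) (rel : R → FreeGroup X) (M : Set (Al I3 X R)) : Prop where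
  rel_mem : ∀ r ∈ MR M, rel r ∈ FX (MX M)
  phi_mem : ∀ x ∈ MX M, (φ x : WW I3) ∈ WM (MJ M)
  surj : ∀ g : GG I3, (g : WW I3) ∈ WM (MJ M) → ∃ w ∈ FX (MX M), FreeGroup.lift φ w = g
  ker : ∀ w ∈ FX (MX M), FreeGroup.lift φ w = 1 → w ∈ NC rel (MX M) (MR M)

/-- There is a finitary closure operator with countable values whose closed sets are good. -/
theorem exists_op (φ : X → GG I3) (rel : R → FreeGroup X)
    (hsurj : Function.Surjective (FreeGroup.lift φ))
    (hker : ∀ w, FreeGroup.lift φ w = 1 → w ∈ Subgroup.normalClosure (Set.range rel)) :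
    ∃ op : Finset (Al I3 X R) → Set (Al I3 X R), (∀ F, (op F).Countable) ∧
      ∀ M : Set (Al I3 X R), (∀ F : Finset (Al I3 X R), (F : Set (Al I3 X R)) ⊆ M → op F ⊆ M) →
        Good φ rel M := by
  classical
  choose lr hlr using fun r => exists_finset_mem_FX (rel r)
  choose sx hsx using fun x => exists_finset_mem_WM (φ x : WW I3)
  choose wg hwg using hsurj
  choose lg hlg using fun g => exists_finset_mem_FX (wg g)
  have hAB : ∀ w : FreeGroup X, ∃ (A : Finset X) (B : Finset R), FreeGroup.lift φ w = 1 →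
      w ∈ NC rel (A : Set X) (B : Set R) := by
    intro w
    by_cases h : FreeGroup.lift φ w = 1
    · obtain ⟨A, B, hAB⟩ := exists_finset_mem_NC rel (hker w h)
      exact ⟨A, B, fun _ => hAB⟩
    · exact ⟨∅, ∅, fun h' => absurd h' h⟩
  choose Aw Bw hABw using hAB
  let iX : X → Al I3 X R := fun x => Sum.inr (Sum.inl x)
  let iR : R → Al I3 X R := fun r => Sum.inr (Sum.inr r)
  let op1 : Finset (Al I3 X R) → Set (Al I3 X R) := fun F =>
    ⋃ r ∈ MR (F : Set (Al I3 X R)), iX '' (lr r : Set X)
  let op2 : Finset (Al I3 X R) → Set (Al I3 X R) := fun F =>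
    ⋃ x ∈ MX (F : Set (Al I3 X R)), Sum.inl '' (sx x : Set (JJ I3))
  let op3 : Finset (Al I3 X R) → Set (Al I3 X R) := fun F =>
    ⋃ g ∈ {g : GG I3 | (g : WW I3) ∈ WM (MJ (F : Set (Al I3 X R)))}, iX '' (lg g : Set X)
  let op4 : Finset (Al I3 X R) → Set (Al I3 X R) := fun F =>
    ⋃ w ∈ (FX (MX (F : Set (Al I3 X R))) : Set (FreeGroup X)),
      (iX '' (Aw w : Set X) ∪ iR '' (Bw w : Set R))
  have hMRfin : ∀ F : Finset (Al I3 X R), (MR (F : Set (Al I3 X R))).Finite := fun F =>
    F.finite_toSet.preimage (by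
      intro a _ b _ h
      simpa using h)
  have hMXfin : ∀ F : Finset (Al I3 X R), (MX (F : Set (Al I3 X R))).Finite := fun F =>
    F.finite_toSet.preimage (by
      intro a _ b _ h
      simpa using h)
  have hMJfin : ∀ F : Finset (Al I3 X R), (MJ (F : Set (Al I3 X R))).Finite := fun F =>
    F.finite_toSet.preimage (by
      intro a _ b _ h
      simpa using h)
  refine ⟨fun F => op1 F ∪ op2 F ∪ op3 F ∪ op4 F, ?_, ?_⟩
  · intro F
    refine Set.Countable.union (Set.Countable.union (Set.Countable.union ?_ ?_) ?_) ?_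
    · exact (hMRfin F).countable.biUnion (fun r _ => ((lr r).countable_toSet.image _))
    · exact (hMXfin F).countable.biUnion (fun x _ => ((sx x).countable_toSet.image _))
    · refine Set.Countable.biUnion ?_ (fun g _ => ((lg g).countable_toSet.image _))
      have h1 : (WM (MJ (F : Set (Al I3 X R))) : Set (WW I3)).Countable := by
        rw [← le_aleph0_iff_set_countable]
        exact (mk_WM_le _).trans (max_le le_rfl (hMJfin F).countable.le_aleph0)
      exact h1.preimage (Subtype.val_injective)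
    · refine Set.Countable.biUnion (countable_FX (hMXfin F).countable) (fun w _ => ?_)
      exact ((Aw w).countable_toSet.image _).union ((Bw w).countable_toSet.image _)
  · intro M hM
    have hM1 : ∀ F : Finset (Al I3 X R), (F : Set (Al I3 X R)) ⊆ M → op1 F ⊆ M := fun F hF =>
      (fun y hy => hM F hF (Or.inl (Or.inl (Or.inl hy))))
    have hM2 : ∀ F : Finset (Al I3 X R), (F : Set (Al I3 X R)) ⊆ M → op2 F ⊆ M := fun F hF =>
      (fun y hy => hM F hF (Or.inl (Or.inl (Or.inr hy))))
    have hM3 : ∀ F : Finset (Al I3 X R), (F : Set (Al I3 X R)) ⊆ M → op3 F ⊆ M := fun F hF =>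
      (fun y hy => hM F hF (Or.inl (Or.inr hy)))
    have hM4 : ∀ F : Finset (Al I3 X R), (F : Set (Al I3 X R)) ⊆ M → op4 F ⊆ M := fun F hF =>
      (fun y hy => hM F hF (Or.inr hy))
    refine ⟨?_, ?_, ?_, ?_⟩
    · intro r hr
      refine FX_mono ?_ (hlr r)
      intro x hx
      refine hM1 {iR r} (by rw [Finset.coe_singleton, Set.singleton_subset_iff]; exact hr) ?_
      refine Set.mem_biUnion (x := r) ?_ ⟨x, hx, rfl⟩
      show iR r ∈ (({iR r} : Finset (Al I3 X R)) : Set (Al I3 X R))
      simp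
    · intro x hx
      refine WM_mono ?_ (hsx x)
      intro j hj
      refine hM2 {iX x} (by rw [Finset.coe_singleton, Set.singleton_subset_iff]; exact hx) ?_
      refine Set.mem_biUnion (x := x) ?_ ⟨j, hj, rfl⟩
      show iX x ∈ (({iX x} : Finset (Al I3 X R)) : Set (Al I3 X R))
      simp
    · intro g hg
      refine ⟨wg g, FX_mono ?_ (hlg g), hwg g⟩
      intro x hx
      obtain ⟨F, hF⟩ := exists_finset_mem_WM (g : WW I3)
      -- intersect the finite support with `MJ M`
      have hg' : (g : WW I3) ∈ WM (((F : Set (JJ I3))) ∩ MJ M) := by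
        rw [WM_inter]
        exact ⟨hF, hg⟩
      let F' : Finset (Al I3 X R) := (F.filter (· ∈ MJ M)).image Sum.inl
      have hF' : (F' : Set (Al I3 X R)) ⊆ M := by
        intro y hy
        have hy' : y ∈ (F.filter (· ∈ MJ M)).image Sum.inl := hy
        rw [Finset.mem_image] at hy'
        obtain ⟨j, hj, rfl⟩ := hy'
        exact (Finset.mem_filter.1 hj).2
      have hMJF' : ((F : Set (JJ I3))) ∩ MJ M ⊆ MJ (F' : Set (Al I3 X R)) := by
        intro j hj
        show Sum.inl j ∈ (F' : Set (Al I3 X R))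
        rw [Finset.mem_coe, Finset.mem_image]
        exact ⟨j, Finset.mem_filter.2 ⟨hj.1, hj.2⟩, rfl⟩
      refine hM3 F' hF' ?_
      exact Set.mem_biUnion (x := g) (WM_mono hMJF' hg') ⟨x, hx, rfl⟩
    · intro w hw h1
      obtain ⟨F, hF, hwF⟩ := exists_finset_mem_FX_of hw
      let F' : Finset (Al I3 X R) := F.image iX
      have hF' : (F' : Set (Al I3 X R)) ⊆ M := by
        intro y hy
        have hy' : y ∈ F.image iX := hy
        rw [Finset.mem_image] at hy'
        obtain ⟨j, hj, rfl⟩ := hy'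
        exact hF hj
      have hMXF' : (F : Set X) ⊆ MX (F' : Set (Al I3 X R)) := by
        intro j hj
        show iX j ∈ (F' : Set (Al I3 X R))
        rw [Finset.mem_coe, Finset.mem_image]
        exact ⟨j, hj, rfl⟩
      have hsub := hM4 F' hF'
      refine NC_mono rel ?_ ?_ (hABw w h1)
      · intro x hx
        exact hsub (Set.mem_biUnion (x := w) (FX_mono hMXF' hwF) (Or.inl ⟨x, hx, rfl⟩))
      · intro r hr
        exact hsub (Set.mem_biUnion (x := w) (FX_mono hMXF' hwF) (Or.inr ⟨r, hr, rfl⟩))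

/-- The choice of the closed sets `N c` and the indices `b c`. -/
theorem exists_N (h0 : ℵ₀ < #(I3 0)) (h1 : #(I3 0) < #(I3 1)) (h2 : #(I3 1) < #(I3 2))
    (φ : X → GG I3) (rel : R → FreeGroup X)
    (hsurj : Function.Surjective (FreeGroup.lift φ))
    (hker : ∀ w, FreeGroup.lift φ w = 1 → w ∈ Subgroup.normalClosure (Set.range rel)) :
    ∃ (N : Fin 3 → Set (Al I3 X R)) (b : ∀ c, I3 c),
      (∀ c c', Good φ rel (N c ∩ N c')) ∧
      ∀ c c', (Sum.inl ⟨c', b c'⟩ : Al I3 X R) ∈ N c ↔ c' ≠ c := by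
  classical
  obtain ⟨op, hop, hgood⟩ := exists_op φ rel hsurj hker
  have hclosed := exists_closed op hop
  -- the part of colour `c`
  let T : Fin 3 → Set (Al I3 X R) := fun c => Set.range (fun i : I3 c => Sum.inl ⟨c, i⟩)
  have hTinj : ∀ c, Function.Injective (fun i : I3 c => (Sum.inl ⟨c, i⟩ : Al I3 X R)) := by
    intro c i i' h
    have h' : (⟨c, i⟩ : JJ I3) = ⟨c, i'⟩ := Sum.inl_injective h
    exact eq_of_heq (Sigma.mk.inj_iff.1 h').2
  have hT : ∀ c, #(T c) = lift.{u} #(I3 c) := by
    intro c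
    have := mk_range_eq_of_injective (hTinj c)
    rw [lift_uzero] at this
    exact this
  -- a set of small cardinality misses an index of colour `c`
  have hmiss : ∀ (c : Fin 3) (N : Set (Al I3 X R)), #N < lift.{u} #(I3 c) →
      ∃ i : I3 c, (Sum.inl ⟨c, i⟩ : Al I3 X R) ∉ N := by
    intro c N hN
    by_contra hcon
    push Not at hcon
    have : T c ⊆ N := by
      rintro _ ⟨i, rfl⟩
      exact hcon i
    exact absurd (mk_le_mk_of_subset this) (not_le.2 (by rw [hT]; exact hN))
  have hl0 : ℵ₀ < lift.{u} #(I3 0) := by simpa only [Fin.isValue, aleph0_lt_lift, lift_aleph0] using lift_strictMono.{0, u} h0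
  have hl1 : lift.{u} #(I3 0) < lift.{u} #(I3 1) := by simpa only [Fin.isValue, lift_lt] using lift_strictMono.{0, u} h1
  have hl2 : lift.{u} #(I3 1) < lift.{u} #(I3 2) := by simpa only [Fin.isValue, lift_lt] using lift_strictMono.{0, u} h2
  obtain ⟨N2, hN2S, hN2c, hN2⟩ := hclosed (T 0 ∪ T 1)
  have hN2' : #N2 < lift.{u} #(I3 2) := by
    refine hN2.trans_lt (max_lt (hl0.trans (hl1.trans hl2)) ((mk_union_le _ _).trans_lt ?_))
    rw [hT, hT]
    exact add_lt_of_lt (hl0.trans (hl1.trans hl2)).le (hl1.trans hl2) hl2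
  obtain ⟨b2, hb2⟩ := hmiss 2 N2 hN2'
  obtain ⟨N1, hN1S, hN1c, hN1⟩ := hclosed (T 0 ∪ {Sum.inl ⟨2, b2⟩})
  have hN1' : #N1 < lift.{u} #(I3 1) := by
    refine hN1.trans_lt (max_lt (hl0.trans hl1) ((mk_union_le _ _).trans_lt ?_))
    rw [hT]
    refine add_lt_of_lt (hl0.trans hl1).le hl1 ?_
    rw [mk_singleton]
    exact one_lt_aleph0.trans (hl0.trans hl1)
  obtain ⟨b1, hb1⟩ := hmiss 1 N1 hN1'
  obtain ⟨N0, hN0S, hN0c, hN0⟩ := hclosed ({Sum.inl ⟨1, b1⟩, Sum.inl ⟨2, b2⟩})
  have hN0' : #N0 < lift.{u} #(I3 0) := by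
    refine hN0.trans_lt (max_lt hl0 ?_)
    exact ((Set.toFinite _).countable.le_aleph0).trans_lt hl0
  obtain ⟨b0, hb0⟩ := hmiss 0 N0 hN0'
  let N : Fin 3 → Set (Al I3 X R) := fun c => match c with
    | 0 => N0 | 1 => N1 | 2 => N2
  let b : ∀ c, I3 c := fun c => match c with
    | 0 => b0 | 1 => b1 | 2 => b2
  have hNc : ∀ c, ∀ F : Finset (Al I3 X R), (F : Set (Al I3 X R)) ⊆ N c → op F ⊆ N c := by
    intro c
    fin_cases c
    · exact hN0c
    · exact hN1c
    · exact hN2c
  refine ⟨N, b, ?_, ?_⟩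
  · intro c c'
    apply hgood
    intro F hF
    exact Set.subset_inter (hNc c F (hF.trans Set.inter_subset_left))
      (hNc c' F (hF.trans Set.inter_subset_right))
  · have e01 : (Sum.inl ⟨1, b1⟩ : Al I3 X R) ∈ N0 := hN0S (by simp)
    have e02 : (Sum.inl ⟨2, b2⟩ : Al I3 X R) ∈ N0 := hN0S (by simp)
    have e10 : (Sum.inl ⟨0, b0⟩ : Al I3 X R) ∈ N1 := hN1S (Or.inl ⟨b0, rfl⟩)
    have e12 : (Sum.inl ⟨2, b2⟩ : Al I3 X R) ∈ N1 := hN1S (Or.inr rfl)
    have e20 : (Sum.inl ⟨0, b0⟩ : Al I3 X R) ∈ N2 := hN2S (Or.inl ⟨b0, rfl⟩)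
    have e21 : (Sum.inl ⟨1, b1⟩ : Al I3 X R) ∈ N2 := hN2S (Or.inr ⟨b1, rfl⟩)
    intro c c'
    fin_cases c <;> fin_cases c'
    · exact iff_of_false hb0 (fun h => h rfl)
    · exact iff_of_true e01 (by decide)
    · exact iff_of_true e02 (by decide)
    · exact iff_of_true e10 (by decide)
    · exact iff_of_false hb1 (fun h => h rfl)
    · exact iff_of_true e12 (by decide)
    · exact iff_of_true e20 (by decide)
    · exact iff_of_true e21 (by decide)
    · exact iff_of_false hb2 (fun h => h rfl)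

end Closed

end Vale.Agent.P173
end
end

section

section

/-!
# P173, section 3.3: the pieces
-/

namespace Vale.Agent.P173

universe u

open Cardinal

variable {I3 : Fin 3 → Type}

/-- The generator `s_{v, b (col v)}`. -/
def sb (b : ∀ c, I3 c) (v : Vx) : WW I3 := Racg.s ⟨v, b (col v)⟩

/-- `s_{v0} s_{v1} s_{v2}` for fixed vertices of the three colours. -/
def w0 (b : ∀ c, I3 c) : WW I3 := sb b (.v0 0) * sb b (.v1 0 none) * sb b (.v2 (.r none))

theorem sb_mul_sb (b : ∀ c, I3 c) (v : Vx) : sb b v * sb b v = 1 := Racg.s_mul_s _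

theorem sb_inv (b : ∀ c, I3 c) (v : Vx) : (sb b v)⁻¹ = sb b v := Racg.s_inv _

theorem sb_comm (b : ∀ c, I3 c) {v v' : Vx} (h : Cl v v') : sb b v * sb b v' = sb b v' * sb b v :=
  Racg.s_comm h

theorem prod_three {A : Type*} [CommMonoid A] (e : Fin 3 → A) {c1 c2 c3 : Fin 3}
    (h12 : c1 ≠ c2) (h13 : c1 ≠ c3) (h23 : c2 ≠ c3) : e c1 * e c2 * e c3 = e 0 * e 1 * e 2 := by
  have hu : ({c1, c2, c3} : Finset (Fin 3)) = Finset.univ := by
    revert c1 c2 c3; (clear * -; decide)
  have h1 : ∏ c ∈ ({c1, c2, c3} : Finset (Fin 3)), e c = e c1 * e c2 * e c3 := by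
    rw [Finset.prod_insert (by simp [h12, h13]), Finset.prod_insert (by simp [h23]),
      Finset.prod_singleton, mul_assoc]
  rw [← h1, hu, Fin.prod_univ_three]

open Classical in
/-- The image of `s_v` in `(Z/2)^J`. -/
noncomputable def ee (b : ∀ c, I3 c) (c : Fin 3) : JJ I3 → ℤˣ := Pi.mulSingle ⟨c, b c⟩ (-1)

theorem piHom_sb (b : ∀ c, I3 c) (v : Vx) : piHom (sb b v) = ee b (col v) :=
  piHom_s _

theorem mem_GG_prod (b : ∀ c, I3 c) {y1 y2 y3 : Vx} (h12 : col y1 ≠ col y2)
    (h13 : col y1 ≠ col y3) (h23 : col y2 ≠ col y3) :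
    sb b y1 * sb b y2 * sb b y3 * w0 b ∈ GG I3 := by
  rw [mem_GG]
  unfold w0
  simp only [map_mul, piHom_sb]
  rw [prod_three (ee b) h12 h13 h23]
  show ee b 0 * ee b 1 * ee b 2 * (ee b 0 * ee b 1 * ee b 2) = 1
  funext j
  exact Int.units_mul_self _

theorem sb_mem (b : ∀ c, I3 c) {M : Set (JJ I3)} {v : Vx} (h : (⟨col v, b (col v)⟩ : JJ I3) ∈ M) :
    sb b v ∈ WM M := s_mem_WM h

section

variable {X R : Type u} (N : Fin 3 → Set (Al I3 X R)) (b : ∀ c, I3 c)

/-- The piece of the vertex `v`. -/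
def PP (v : Vx) : Set (GG I3) := {h | (h : WW I3) * (sb b v * w0 b)⁻¹ ∈ WM (MJ (N (col v)))}

variable {N b}

theorem mem_PP {v : Vx} {h : GG I3} :
    h ∈ PP N b v ↔ (h : WW I3) * (sb b v * w0 b)⁻¹ ∈ WM (MJ (N (col v))) := Iff.rfl

theorem PP_mul (v : Vx) (g h : GG I3) (hg : (g : WW I3) ∈ WM (MJ (N (col v)))) :
    g * h ∈ PP N b v ↔ h ∈ PP N b v := by
  rw [mem_PP, mem_PP, Subgroup.coe_mul, mul_assoc]
  exact Subgroup.mul_mem_cancel_left _ hg

theorem PP_diff (v : Vx) {h h' : GG I3} (hh : h ∈ PP N b v) (hh' : h' ∈ PP N b v) :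
    ((h' * h⁻¹ : GG I3) : WW I3) ∈ WM (MJ (N (col v))) := by
  have h1 := mul_mem (mem_PP.1 hh') (inv_mem (mem_PP.1 hh))
  have : (h' : WW I3) * (sb b v * w0 b)⁻¹ * ((h : WW I3) * (sb b v * w0 b)⁻¹)⁻¹ =
      ((h' * h⁻¹ : GG I3) : WW I3) := by
    rw [Subgroup.coe_mul, Subgroup.coe_inv]
    group
  rwa [this] at h1

variable (hb : ∀ c c', (Sum.inl ⟨c', b c'⟩ : Al I3 X R) ∈ N c ↔ c' ≠ c)

include hb

theorem sb_mem_of_ne {v v' : Vx} (h : col v' ≠ col v) : sb b v' ∈ WM (MJ (N (col v))) :=
  sb_mem b ((hb (col v) (col v')).2 h)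

/-- Membership of the special elements in the pieces. -/
theorem mem_PP_right {y1 y2 y3 : Vx} (h12 : col y1 ≠ col y2)
    (h13 : col y1 ≠ col y3) (h23 : col y2 ≠ col y3) :
    (⟨_, mem_GG_prod b h12 h13 h23⟩ : GG I3) ∈ PP N b y3 := by
  rw [mem_PP]
  show sb b y1 * sb b y2 * sb b y3 * w0 b * (sb b y3 * w0 b)⁻¹ ∈ WM (MJ (N (col y3)))
  have : sb b y1 * sb b y2 * sb b y3 * w0 b * (sb b y3 * w0 b)⁻¹ = sb b y1 * sb b y2 := by
    group
  rw [this]
  exact mul_mem (sb_mem_of_ne hb h13) (sb_mem_of_ne hb h23)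

theorem mem_PP_mid {y1 y2 y3 : Vx} (h12 : col y1 ≠ col y2)
    (h13 : col y1 ≠ col y3) (h23 : col y2 ≠ col y3) (hc : Cl y2 y3) :
    (⟨_, mem_GG_prod b h12 h13 h23⟩ : GG I3) ∈ PP N b y2 := by
  rw [mem_PP]
  show sb b y1 * sb b y2 * sb b y3 * w0 b * (sb b y2 * w0 b)⁻¹ ∈ WM (MJ (N (col y2)))
  have : sb b y1 * sb b y2 * sb b y3 * w0 b * (sb b y2 * w0 b)⁻¹ = sb b y1 * sb b y3 := by
    rw [mul_assoc (sb b y1), sb_comm b hc]
    group
  rw [this]
  exact mul_mem (sb_mem_of_ne hb h12) (sb_mem_of_ne hb h23.symm)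

theorem mem_PP_left {y1 y2 y3 : Vx} (h12 : col y1 ≠ col y2)
    (h13 : col y1 ≠ col y3) (h23 : col y2 ≠ col y3) (hc2 : Cl y1 y2) (hc3 : Cl y1 y3) :
    (⟨_, mem_GG_prod b h12 h13 h23⟩ : GG I3) ∈ PP N b y1 := by
  rw [mem_PP]
  show sb b y1 * sb b y2 * sb b y3 * w0 b * (sb b y1 * w0 b)⁻¹ ∈ WM (MJ (N (col y1)))
  have : sb b y1 * sb b y2 * sb b y3 * w0 b * (sb b y1 * w0 b)⁻¹ = sb b y2 * sb b y3 := by
    rw [sb_comm b hc2, mul_assoc (sb b y2), sb_comm b hc3]
    group
  rw [this]
  exact mul_mem (sb_mem_of_ne hb h12.symm) (sb_mem_of_ne hb h13.symm)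

/-- Cliques have nonempty triple intersections. -/
theorem nerve_ge_aux (u v w : Vx) (huv : Cl u v) (hvw : Cl v w) (huw : Cl u w) :
    (PP N b u ∩ PP N b v ∩ PP N b w).Nonempty := by
  have hfill : ∀ c : Fin 3, ∃ y : Vx, col y = c := by
    intro c
    fin_cases c
    · exact ⟨.v0 0, rfl⟩
    · exact ⟨.v1 0 none, rfl⟩
    · exact ⟨.v2 (.r none), rfl⟩
  have hthird : ∀ c c' : Fin 3, c ≠ c' → ∃ c'' : Fin 3, c'' ≠ c ∧ c'' ≠ c' := by decide
  -- pairs
  have hpair : ∀ v w : Vx, Adj v w → (PP N b v ∩ PP N b w).Nonempty := by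
    intro v w h
    obtain ⟨c, hc1, hc2⟩ := hthird _ _ h.col_ne
    obtain ⟨y, rfl⟩ := hfill c
    exact ⟨_, mem_PP_mid hb hc1 hc2 h.col_ne (Or.inr h), mem_PP_right hb hc1 hc2 h.col_ne⟩
  have hsingle : ∀ v : Vx, (PP N b v).Nonempty := by
    intro v
    have : ∃ c' : Fin 3, c' ≠ col v := by
      generalize col v = c
      revert c; decide
    obtain ⟨c', hc'⟩ := this
    obtain ⟨c, hc1, hc2⟩ := hthird _ _ hc'
    obtain ⟨y, rfl⟩ := hfill c
    obtain ⟨y', rfl⟩ := hfill c'
    exact ⟨_, mem_PP_right hb hc1 hc2 hc'⟩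
  rcases huv with rfl | huv
  · rw [Set.inter_self]
    rcases hvw with rfl | hvw
    · rw [Set.inter_self]
      exact hsingle _
    · exact hpair _ _ hvw
  · rcases hvw with rfl | hvw
    · rw [Set.inter_assoc, Set.inter_self]
      exact hpair _ _ huv
    · rcases huw with rfl | huw
      · obtain ⟨h, h1, h2⟩ := hpair _ _ huv
        exact ⟨h, ⟨h1, h2⟩, h1⟩
      · exact ⟨_, ⟨mem_PP_left hb huv.col_ne huw.col_ne hvw.col_ne (Or.inr huv) (Or.inr huw),
          mem_PP_mid hb huv.col_ne huw.col_ne hvw.col_ne (Or.inr hvw)⟩,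
          mem_PP_right hb huv.col_ne huw.col_ne hvw.col_ne⟩

open Classical in
/-- Intersecting pieces are adjacent (or equal). -/
theorem nerve_le_aux (v v' : Vx) (h : (PP N b v ∩ PP N b v').Nonempty) : Cl v v' := by
  by_contra hcl
  obtain ⟨h, h1, h2⟩ := h
  have hne : v ≠ v' := fun e => hcl (Or.inl e)
  let f : WW I3 →* Equiv.Perm (Fin 3) := Racg.lift
    (fun g => if g = ⟨v, b (col v)⟩ then Equiv.swap 0 1 else
      if g = ⟨v', b (col v')⟩ then Equiv.swap 1 2 else 1)
    (fun g => by
      split_ifs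
      · exact Equiv.swap_mul_self _ _
      · exact Equiv.swap_mul_self _ _
      · exact one_mul _)
    (fun g k hgk => by
      by_cases hg1 : g = ⟨v, b (col v)⟩
      · by_cases hk1 : k = ⟨v, b (col v)⟩
        · rw [if_pos hg1, if_pos hk1]
        · rw [if_pos hg1, if_neg hk1]
          by_cases hk2 : k = ⟨v', b (col v')⟩
          · exfalso
            subst hg1 hk2
            exact hcl hgk
          · rw [if_neg hk2, mul_one, one_mul]
      · rw [if_neg hg1]
        by_cases hk1 : k = ⟨v, b (col v)⟩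
        · rw [if_pos hk1]
          by_cases hg2 : g = ⟨v', b (col v')⟩
          · exfalso
            subst hk1 hg2
            exact hcl (Cl.symm hgk)
          · rw [if_neg hg2, mul_one, one_mul]
        · rw [if_neg hk1]
          by_cases hg2 : g = ⟨v', b (col v')⟩
          · by_cases hk2 : k = ⟨v', b (col v')⟩
            · rw [if_pos hg2, if_pos hk2]
            · rw [if_neg hk2, mul_one, one_mul]
          · rw [if_neg hg2, mul_one, one_mul])
  have hfs : ∀ g, f (Racg.s g) = if g = ⟨v, b (col v)⟩ then Equiv.swap 0 1 else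
      if g = ⟨v', b (col v')⟩ then Equiv.swap 1 2 else 1 := fun g => Racg.lift_s _ _ _ g
  have hfv : f (sb b v) = Equiv.swap 0 1 := by
    rw [sb, hfs, if_pos rfl]
  have hfv' : f (sb b v') = Equiv.swap 1 2 := by
    rw [sb, hfs, if_neg, if_pos rfl]
    intro e
    exact hne (congrArg Sigma.fst e).symm
  -- images of the two subgroups
  have hsub : ∀ (τ : Equiv.Perm (Fin 3)) (hτ : τ * τ = 1) (M : Set (JJ I3))
      (hM : ∀ g : GenW I3, idx g ∈ M → f (Racg.s g) = 1 ∨ f (Racg.s g) = τ),
      ∀ w ∈ WM M, f w = 1 ∨ f w = τ := by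
    intro τ hτ M hM w hw
    rw [WM_eq_closure] at hw
    induction hw using Subgroup.closure_induction with
    | mem x hx =>
      obtain ⟨g, hg, rfl⟩ := hx
      exact hM g hg
    | one => exact Or.inl (map_one _)
    | mul x y _ _ hx hy =>
      rw [map_mul]
      rcases hx with hx | hx <;> rcases hy with hy | hy <;> rw [hx, hy]
      · exact Or.inl (one_mul _)
      · exact Or.inr (one_mul _)
      · exact Or.inr (mul_one _)
      · exact Or.inl hτ
    | inv x _ hx =>
      rw [map_inv]
      rcases hx with hx | hx <;> rw [hx]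
      · exact Or.inl inv_one
      · exact Or.inr (inv_eq_of_mul_eq_one_left hτ)
  have hnot : ∀ c, (⟨c, b c⟩ : JJ I3) ∉ MJ (N c) := by
    intro c hc
    exact ((hb c c).1 hc) rfl
  have hA := hsub (Equiv.swap 1 2) (Equiv.swap_mul_self _ _) (MJ (N (col v))) (by
    intro g hg
    rw [hfs, if_neg]
    · split_ifs
      · exact Or.inr rfl
      · exact Or.inl rfl
    · rintro rfl
      exact hnot _ hg)
  have hB := hsub (Equiv.swap 0 1) (Equiv.swap_mul_self _ _) (MJ (N (col v'))) (by
    intro g hg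
    rw [hfs]
    split_ifs with e1 e2
    · exact Or.inr rfl
    · exfalso
      subst e2
      exact hnot _ hg
    · exact Or.inl rfl)
  have e1 := hA _ h1
  have e2 := hB _ h2
  have e3 : sb b v * sb b v' = ((h : WW I3) * (sb b v * w0 b)⁻¹)⁻¹ *
      ((h : WW I3) * (sb b v' * w0 b)⁻¹) := by
    have : sb b v * sb b v' = sb b v * (sb b v')⁻¹ := by rw [sb_inv]
    rw [this]
    group
  have e4 : f (sb b v * sb b v') = Equiv.swap 0 1 * Equiv.swap 1 2 := by
    rw [map_mul, hfv, hfv']
  rw [e3, map_mul, map_inv] at e4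
  rcases e1 with e1 | e1 <;> rcases e2 with e2 | e2 <;> rw [e1, e2] at e4 <;> revert e4 <;> decide

end

/-- **Sections 3.1 - 3.3**: the system of pieces of a presentation of `G`. -/
theorem exists_pieces (h0 : ℵ₀ < #(I3 0)) (h1 : #(I3 0) < #(I3 1)) (h2 : #(I3 1) < #(I3 2))
    {X R : Type u} (φ : X → GG I3) (rel : R → FreeGroup X)
    (hsurj : Function.Surjective (FreeGroup.lift φ))
    (hrel : ∀ r, FreeGroup.lift φ (rel r) = 1)
    (hker : ∀ w, FreeGroup.lift φ w = 1 → w ∈ Subgroup.normalClosure (Set.range rel)) :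
    ∃ C : Hol.Pieces (GG I3) X R Vx, C.φ = φ ∧ C.rel = rel ∧ C.E = Cl := by
  obtain ⟨N, b, hN, hb⟩ := exists_N h0 h1 h2 φ rel hsurj hker
  have hN' : ∀ c, Good φ rel (N c) := fun c => by
    have := hN c c
    rwa [Set.inter_self] at this
  refine ⟨{
    φ := φ
    rel := rel
    E := Cl
    XN := fun v => MX (N (col v))
    RN := fun v => MR (N (col v))
    P := fun v => PP N b v
    rel_one := hrel
    ker_le := hker
    E_refl := Cl.refl
    E_symm := fun _ _ => Cl.symm
    P_step := ?_
    rel_mem := fun v r hr => (hN' (col v)).rel_mem r hr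
    conn := ?_
    simp_conn := fun v w hw hw1 => (hN' (col v)).ker w hw hw1
    nerve_le := nerve_le_aux hb
    nerve_ge := nerve_ge_aux hb }, rfl, rfl, rfl⟩
  · intro v x hx h
    exact PP_mul v (φ x) h ((hN' (col v)).phi_mem x hx)
  · intro v w h hh h' hh'
    have e1 := PP_diff v hh.1 hh'.1
    have e2 := PP_diff w hh.2 hh'.2
    have e3 : ((h' * h⁻¹ : GG I3) : WW I3) ∈ WM (MJ (N (col v) ∩ N (col w))) := by
      have : MJ (N (col v) ∩ N (col w)) = MJ (N (col v)) ∩ MJ (N (col w)) := rfl
      rw [this, WM_inter]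
      exact ⟨e1, e2⟩
    obtain ⟨u, hu, hu'⟩ := (hN (col v) (col w)).surj _ e3
    exact ⟨u, hu, by rw [hu', inv_mul_cancel_right]⟩

end Vale.Agent.P173
end
end

section

section

/-!
# P173: a criterion for `cd G ≥ 2`
-/

open CategoryTheory

namespace Vale.Agent.P173

theorem freeLift_trivial_single {G : Type} [Group G] {n : ℕ}
    (c : (Fin n → G) → ℤ) (w : Fin n → G) (g : G) (r : ℤ) :
    (Rep.freeLift ℤ G (Rep.trivial ℤ G ℤ) c).hom (Finsupp.single w (.single g r)) = r * c w := by
  change (Representation.freeLift (Rep.trivial ℤ G ℤ).ρ c) (Finsupp.single w (.single g r)) = _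
  rw [Representation.freeLift_single_single]
  rfl

theorem hom_trivial_single {G : Type} [Group G] {n : ℕ}
    (f : Rep.free ℤ G (Fin n → G) ⟶ Rep.trivial ℤ G ℤ) (w : Fin n → G) (g : G) (r : ℤ) :
    f.hom (Finsupp.single w (.single g r)) = r * f.hom (Finsupp.single w (.single 1 1)) := by
  have h : f = Rep.freeLift ℤ G (Rep.trivial ℤ G ℤ)
      (fun w => f.hom (Finsupp.single w (.single 1 1))) := by
    apply Rep.free_ext
    intro w
    rw [freeLift_trivial_single, one_mul]
  rw [h, freeLift_trivial_single, freeLift_trivial_single, one_mul]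

/-- If the trivial module `ℤ` has projective dimension `< 2`, every 2-cocycle (with trivial
integer coefficients) is a coboundary. -/
theorem exists_coboundary_of_hasProjectiveDimensionLT_two {G : Type} [Group G]
    (hpd : HasProjectiveDimensionLT (Rep.trivial ℤ G ℤ) 2) (c : G → G → ℤ)
    (hc : ∀ x y z, c y z - c (x * y) z + c x (y * z) - c x y = 0) :
    ∃ F : G → ℤ, ∀ a b, c a b = F b - F (a * b) + F a := by
  let R := Rep.barResolution ℤ G
  let Y : Rep ℤ G := Rep.trivial ℤ G ℤ
  -- the cocycle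
  let c' : (Fin 2 → G) → ℤ := fun v => c (v 0) (v 1)
  let f : R.complex.X 2 ⟶ Y := Rep.freeLift ℤ G Y c'
  have hf : R.complex.d 3 2 ≫ f = 0 := by
    change (Rep.barComplex ℤ G).d 3 2 ≫ f = 0
    rw [Rep.barComplex.d_def]
    apply Rep.free_ext
    intro v
    rw [Rep.hom_comp, Representation.IntertwiningMap.comp_apply, Rep.barComplex.d_single]
    rw [map_add, map_sum]
    simp only [Fin.sum_univ_succ, Fin.sum_univ_zero]
    change (Rep.freeLift ℤ G (Rep.trivial ℤ G ℤ) c').hom _ +
      ((Rep.freeLift ℤ G (Rep.trivial ℤ G ℤ) c').hom _ +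
      ((Rep.freeLift ℤ G (Rep.trivial ℤ G ℤ) c').hom _ +
      ((Rep.freeLift ℤ G (Rep.trivial ℤ G ℤ) c').hom _ + 0))) = 0
    rw [freeLift_trivial_single, freeLift_trivial_single, freeLift_trivial_single,
      freeLift_trivial_single]
    have h := hc (v 0) (v 1) (v 2)
    simp only [Fin.isValue, Fin.succ_zero_eq_one, Fin.succ_one_eq_two, one_mul, Int.reduceNeg, Nat.reduceAdd, Fin.coe_ofNat_eq_mod, Nat.zero_mod, zero_add, pow_one, Fin.contractNth, lt_self_iff_false, ↓reduceIte, Fin.castSucc_zero, Nat.mod_succ, not_lt_zero, one_ne_zero, neg_mul, Nat.one_mod, even_two, Even.neg_pow, one_pow, Order.lt_one_iff, Fin.castSucc_one, Int.reducePow, Order.lt_two_iff, zero_le, Std.le_refl, add_zero, c']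
    linarith only [h]
  let _ := HasExt.standard (Rep ℤ G)
  have h0 : R.extMk f 3 rfl hf = 0 := Abelian.Ext.eq_zero_of_hasProjectiveDimensionLT _ 2 le_rfl
  rw [R.extMk_eq_zero_iff f 3 rfl hf 1 rfl] at h0
  obtain ⟨g0, hg0⟩ := h0
  obtain ⟨g, hg⟩ : ∃ g : Rep.free ℤ G (Fin 1 → G) ⟶ Rep.trivial ℤ G ℤ,
      Rep.barComplex.d ℤ G 1 ≫ g = Rep.freeLift ℤ G (Rep.trivial ℤ G ℤ) c' := by
    refine ⟨g0, ?_⟩
    rw [← Rep.barComplex.d_def]
    exact hg0
  refine ⟨fun h => g.hom (Finsupp.single (fun _ : Fin 1 => h) (.single 1 1)), ?_⟩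
  intro a b
  have h : (Rep.barComplex.d ℤ G 1 ≫ g).hom (Finsupp.single ![a, b] (.single 1 1)) =
      (Rep.freeLift ℤ G (Rep.trivial ℤ G ℤ) c').hom (Finsupp.single ![a, b] (.single 1 1)) := by
    rw [hg]
  rw [freeLift_trivial_single, Rep.hom_comp, Representation.IntertwiningMap.comp_apply,
    Rep.barComplex.d_single, map_add, map_sum] at h
  simp only [Fin.sum_univ_succ, Fin.sum_univ_zero] at h
  rw [hom_trivial_single, hom_trivial_single, hom_trivial_single] at h
  have e0 : (fun i : Fin 1 => ![a, b] i.succ) = fun _ => b := by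
    funext i; fin_cases i; rfl
  have e1 : (Fin.contractNth (0 : Fin 2) (fun x1 x2 => x1 * x2) ![a, b]) =
      fun _ : Fin 1 => a * b := by
    funext i; fin_cases i; rfl
  have e2 : (Fin.contractNth (Fin.succ 0 : Fin 2) (fun x1 x2 => x1 * x2) ![a, b]) =
      fun _ : Fin 1 => a := by
    funext i; fin_cases i; rfl
  rw [e0, e1, e2] at h
  simp only [one_mul, Int.reduceNeg, Nat.reduceAdd, Fin.isValue, Fin.coe_ofNat_eq_mod, Nat.zero_mod, zero_add, pow_one, MonoidAlgebra.single_neg, Finsupp.single_neg, map_neg, Fin.succ_zero_eq_one, Nat.mod_succ, even_two, Even.neg_pow, one_pow, add_zero, Matrix.cons_val_zero, Matrix.cons_val_one, Matrix.cons_val_fin_one, c'] at h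
  linarith only [h]

/-- If `G` contains commuting elements `x, y` separated by two homomorphisms to `ℤ`, then the
trivial module `ℤ` does not have projective dimension `< 2`. -/
theorem not_hasProjectiveDimensionLT_two {G : Type} [Group G] (x y : G) (hxy : x * y = y * x)
    (α β : G → ℤ) (hα : ∀ g h, α (g * h) = α g + α h) (hβ : ∀ g h, β (g * h) = β g + β h)
    (h1 : α x = 1) (h2 : β y = 1) (h3 : α y = 0) :
    ¬ HasProjectiveDimensionLT (Rep.trivial ℤ G ℤ) 2 := by
  intro hpd
  obtain ⟨F, hF⟩ := exists_coboundary_of_hasProjectiveDimensionLT_two hpd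
    (fun a b => α a * β b) (fun x y z => by simp only [hα, hβ]; ring)
  have e1 := hF x y
  have e2 := hF y x
  rw [h1, h2] at e1
  rw [h3, ← hxy] at e2
  omega

end Vale.Agent.P173
end
end

section

section

/-!
# P173: `cd G ≥ 2`
-/

open CategoryTheory

namespace Vale.Agent.P173

/-- The sign of an element of the infinite dihedral group. -/
def sgnD : DihedralGroup 0 →* ℤˣ where
  toFun
    | .r _ => 1
    | .sr _ => -1
  map_one' := rfl
  map_mul' := by
    rintro (a | a) (b | b)
    · simp [DihedralGroup.r_mul_r]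
    · simp [DihedralGroup.r_mul_sr]
    · simp [DihedralGroup.sr_mul_r]
    · simp [DihedralGroup.sr_mul_sr]

/-- The rotation number. -/
def rotD : DihedralGroup 0 → ℤ
  | .r k => k
  | .sr _ => 0

theorem rotD_mul {a b : DihedralGroup 0} (ha : sgnD a = 1) (hb : sgnD b = 1) :
    rotD (a * b) = rotD a + rotD b := by
  rcases a with k | k <;> rcases b with l | l
  · rw [DihedralGroup.r_mul_r]; rfl
  · exact absurd hb (by change ¬ (-1 : ℤˣ) = 1; decide)
  · exact absurd ha (by change ¬ (-1 : ℤˣ) = 1; decide)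
  · exact absurd ha (by change ¬ (-1 : ℤˣ) = 1; decide)

variable {I3 : Fin 3 → Type}

theorem eq_of_idx_eq {g h : GenW I3} (hgh : g.1 = h.1 ∨ Adj g.1 h.1) (hi : idx g = idx h) :
    g.1 = h.1 := by
  rcases hgh with h1 | h1
  · exact h1
  · have : col g.1 = col h.1 := congrArg Sigma.fst hi
    exact absurd this h1.col_ne

open Classical in
/-- The generators with index `j` are sent to reflections (`sr 1` for the vertex `a`, `sr 0` for
the other ones), the other generators are killed. -/
noncomputable def foldHom (j : JJ I3) (a : Vx) : WW I3 →* DihedralGroup 0 :=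
  Racg.lift (fun g => if idx g = j then (if g.1 = a then .sr 1 else .sr 0) else 1)
    (fun g => by
      split_ifs
      · rw [DihedralGroup.sr_mul_sr, sub_self]; rfl
      · rw [DihedralGroup.sr_mul_sr, sub_self]; rfl
      · rw [one_mul])
    (fun g h hgh => by
      by_cases h1 : idx g = j
      · by_cases h2 : idx h = j
        · have h3 : g.1 = h.1 := eq_of_idx_eq hgh (h1.trans h2.symm)
          simp only [h1, h2, h3]
        · simp only [h2, if_false, mul_one, one_mul]
      · simp only [h1, if_false, mul_one, one_mul])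

open Classical in
theorem foldHom_s (j : JJ I3) (a : Vx) (g : GenW I3) : foldHom j a (Racg.s g) =
    if idx g = j then (if g.1 = a then .sr 1 else .sr 0) else 1 := by
  rw [foldHom, Racg.lift_s]

theorem foldHom_s_eq {j : JJ I3} {a : Vx} {g : GenW I3} (h : idx g = j) (h' : g.1 = a) :
    foldHom j a (Racg.s g) = .sr 1 := by
  classical
  rw [foldHom_s, if_pos h, if_pos h']

theorem foldHom_s_ne {j : JJ I3} {a : Vx} {g : GenW I3} (h : idx g = j) (h' : g.1 ≠ a) :
    foldHom j a (Racg.s g) = .sr 0 := by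
  classical
  rw [foldHom_s, if_pos h, if_neg h']

theorem foldHom_s_one {j : JJ I3} {a : Vx} {g : GenW I3} (h : idx g ≠ j) :
    foldHom j a (Racg.s g) = 1 := by
  classical
  rw [foldHom_s, if_neg h]

theorem sgnD_foldHom (j : JJ I3) (a : Vx) (w : WW I3) :
    sgnD (foldHom j a w) = piHom w j := by
  have : sgnD.comp (foldHom j a) = (Pi.evalMonoidHom (fun _ : JJ I3 => ℤˣ) j).comp piHom := by
    apply Racg.hom_ext
    intro g
    rw [MonoidHom.comp_apply, MonoidHom.comp_apply, foldHom_s]
    by_cases h : idx g = j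
    · subst h
      rw [if_pos rfl, Pi.evalMonoidHom_apply, piHom_s_same]
      split_ifs <;> rfl
    · rw [if_neg h, Pi.evalMonoidHom_apply, piHom_s_ne g (fun h' => h h'.symm), map_one]
  exact DFunLike.congr_fun this w

/-- The additive function on `G` defined by `foldHom`. -/
noncomputable def foldZ (j : JJ I3) (a : Vx) (w : GG I3) : ℤ := rotD (foldHom j a w.1)

theorem foldZ_mul (j : JJ I3) (a : Vx) (w w' : GG I3) :
    foldZ j a (w * w') = foldZ j a w + foldZ j a w' := by
  have h : ∀ w : GG I3, sgnD (foldHom j a w.1) = 1 := by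
    intro w
    rw [sgnD_foldHom, mem_GG.1 w.2]
    rfl
  unfold foldZ
  rw [Subgroup.coe_mul, map_mul, rotD_mul (h w) (h w')]

/-- The element `s_{v,i} s_{v',i}` (`v, v'` of the same colour). -/
theorem s_mul_s_mem_GG {g h : GenW I3} (hi : idx g = idx h) :
    (Racg.s g * Racg.s h : WW I3) ∈ GG I3 := by
  classical
  rw [mem_GG, map_mul, piHom_s, piHom_s, hi, ← Pi.mulSingle_mul]
  simp

/-- **`cd G ≥ 2`.** -/
theorem GG_not_hasProjectiveDimensionLT_two (h0 : Nonempty (I3 0)) (h2 : Nonempty (I3 2)) :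
    ¬ HasProjectiveDimensionLT (Rep.trivial ℤ (GG I3) ℤ) 2 := by
  obtain ⟨i⟩ := h0
  obtain ⟨j⟩ := h2
  let g0 : GenW I3 := ⟨.v0 0, i⟩
  let g1 : GenW I3 := ⟨.v0 1, i⟩
  let t0 : Tri := .m0 []
  let t1 : Tri := .m1 []
  let k0 : GenW I3 := ⟨.v2 t0, j⟩
  let k1 : GenW I3 := ⟨.v2 t1, j⟩
  let x : GG I3 := ⟨Racg.s g0 * Racg.s g1, s_mul_s_mem_GG rfl⟩
  let y : GG I3 := ⟨Racg.s k0 * Racg.s k1, s_mul_s_mem_GG rfl⟩
  have hxy : x * y = y * x := by
    apply Subtype.ext
    change (Racg.s g0 * Racg.s g1) * (Racg.s k0 * Racg.s k1) =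
      ((Racg.s k0 * Racg.s k1) * (Racg.s g0 * Racg.s g1) : WW I3)
    have c00 : (Racg.s g0 * Racg.s k0 : WW I3) = Racg.s k0 * Racg.s g0 :=
      Racg.s_comm (Or.inr trivial)
    have c01 : (Racg.s g0 * Racg.s k1 : WW I3) = Racg.s k1 * Racg.s g0 :=
      Racg.s_comm (Or.inr trivial)
    have c10 : (Racg.s g1 * Racg.s k0 : WW I3) = Racg.s k0 * Racg.s g1 :=
      Racg.s_comm (Or.inr trivial)
    have c11 : (Racg.s g1 * Racg.s k1 : WW I3) = Racg.s k1 * Racg.s g1 :=
      Racg.s_comm (Or.inr trivial)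
    have C0 : Commute (Racg.s g0 : WW I3) (Racg.s k0 * Racg.s k1) :=
      Commute.mul_right c00 c01
    have C1 : Commute (Racg.s g1 : WW I3) (Racg.s k0 * Racg.s k1) :=
      Commute.mul_right c10 c11
    exact Commute.mul_left C0 C1
  have hne : (idx k0 : JJ I3) ≠ idx g0 := by
    intro h
    have h' : (2 : Fin 3) = 0 := congrArg Sigma.fst h
    exact absurd h' (by decide)
  have hv : (Vx.v0 0) ≠ Vx.v0 1 := by
    intro h
    injection h with h
    exact absurd h (by decide)
  have ht : (Vx.v2 t0) ≠ Vx.v2 t1 := by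
    intro h
    injection h with h
    exact absurd h (by simp [t0, t1])
  refine not_hasProjectiveDimensionLT_two x y hxy (foldZ (idx g0) (.v0 1))
    (foldZ (idx k0) (.v2 t1)) (foldZ_mul _ _) (foldZ_mul _ _) ?_ ?_ ?_
  · change rotD (foldHom (idx g0) (.v0 1) (Racg.s g0 * Racg.s g1)) = 1
    rw [map_mul, foldHom_s_ne rfl hv,
      foldHom_s_eq (show idx g1 = idx g0 from rfl) (show g1.1 = Vx.v0 1 from rfl),
      DihedralGroup.sr_mul_sr]
    rfl
  · change rotD (foldHom (idx k0) (.v2 t1) (Racg.s k0 * Racg.s k1)) = 1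
    rw [map_mul, foldHom_s_ne rfl ht,
      foldHom_s_eq (show idx k1 = idx k0 from rfl) (show k1.1 = Vx.v2 t1 from rfl),
      DihedralGroup.sr_mul_sr]
    rfl
  · change rotD (foldHom (idx g0) (.v0 1) (Racg.s k0 * Racg.s k1)) = 0
    rw [map_mul, foldHom_s_one hne, foldHom_s_one (show idx k1 ≠ idx g0 from hne)]
    rfl

end Vale.Agent.P173
end
end

section

section

/-!
# P173: projective dimension at most two from a four-term resolution with split top differential
-/

open CategoryTheory CategoryTheory.Limits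

namespace Vale.Agent.P173

/-- In an abelian category, if `C₃ → C₂ → C₁ → C₀ → T → 0` is exact with `C₀, C₁, C₂` projective
and `C₃ → C₂` has a retraction, then `T` has projective dimension at most `2`. -/
theorem hasProjectiveDimensionLE_two_of_split {C : Type*} [Category C] [Abelian C]
    {C3 C2 C1 C0 T : C} [Projective C2] [Projective C1] [Projective C0]
    (d3 : C3 ⟶ C2) (d2 : C2 ⟶ C1) (d1 : C1 ⟶ C0) (e : C0 ⟶ T)
    (h32 : d3 ≫ d2 = 0) (h21 : d2 ≫ d1 = 0) (h10 : d1 ≫ e = 0)
    (ex2 : (ShortComplex.mk d3 d2 h32).Exact) (ex1 : (ShortComplex.mk d2 d1 h21).Exact)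
    (ex0 : (ShortComplex.mk d1 e h10).Exact) [Epi e]
    (r : C2 ⟶ C3) (hr : d3 ≫ r = 𝟙 C3) : HasProjectiveDimensionLE T 2 := by
  -- the first syzygy
  let f1 : C1 ⟶ kernel e := kernel.lift e d1 h10
  have hf1 : f1 ≫ kernel.ι e = d1 := kernel.lift_ι _ _ _
  have hf1e : Epi f1 := (ShortComplex.exact_iff_epi_kernel_lift _).1 ex0
  have S1 : (ShortComplex.mk (kernel.ι e) e (kernel.condition e)).ShortExact :=
    { exact := ShortComplex.exact_kernel e }
  -- the second syzygy
  have h21' : d2 ≫ f1 = 0 := by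
    rw [← cancel_mono (kernel.ι e), Category.assoc, hf1, h21, zero_comp]
  let f2 : C2 ⟶ kernel f1 := kernel.lift f1 d2 h21'
  have hf2 : f2 ≫ kernel.ι f1 = d2 := kernel.lift_ι _ _ _
  have ex1' : (ShortComplex.mk d2 f1 h21').Exact := by
    let φ : ShortComplex.mk d2 f1 h21' ⟶ ShortComplex.mk d2 d1 h21 :=
      { τ₁ := 𝟙 _, τ₂ := 𝟙 _, τ₃ := kernel.ι e, comm₂₃ := by simp [hf1] }
    have : Epi φ.τ₁ := by dsimp [φ]; infer_instance
    have : IsIso φ.τ₂ := by dsimp [φ]; infer_instance
    have : Mono φ.τ₃ := by dsimp [φ]; infer_instance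
    exact (ShortComplex.exact_iff_of_epi_of_isIso_of_mono φ).2 ex1
  have hf2e : Epi f2 := (ShortComplex.exact_iff_epi_kernel_lift _).1 ex1'
  have S2 : (ShortComplex.mk (kernel.ι f1) f1 (kernel.condition f1)).ShortExact :=
    { exact := ShortComplex.exact_kernel f1 }
  -- `C₃ → C₂ → kernel f1` is exact
  have h32' : d3 ≫ f2 = 0 := by
    rw [← cancel_mono (kernel.ι f1), Category.assoc, hf2, h32, zero_comp]
  have ex2' : (ShortComplex.mk d3 f2 h32').Exact := by
    let φ : ShortComplex.mk d3 f2 h32' ⟶ ShortComplex.mk d3 d2 h32 :=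
      { τ₁ := 𝟙 _, τ₂ := 𝟙 _, τ₃ := kernel.ι f1, comm₂₃ := by simp [hf2] }
    have : Epi φ.τ₁ := by dsimp [φ]; infer_instance
    have : IsIso φ.τ₂ := by dsimp [φ]; infer_instance
    have : Mono φ.τ₃ := by dsimp [φ]; infer_instance
    exact (ShortComplex.exact_iff_of_epi_of_isIso_of_mono φ).2 ex2
  have hk : d3 ≫ (𝟙 C2 - r ≫ d3) = 0 := by
    rw [Preadditive.comp_sub, Category.comp_id, ← Category.assoc, hr, Category.id_comp, sub_self]
  let σ : kernel f1 ⟶ C2 := ex2'.desc (𝟙 C2 - r ≫ d3) hk
  have hσ : f2 ≫ σ = 𝟙 C2 - r ≫ d3 := ex2'.g_desc _ _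
  have hret : σ ≫ f2 = 𝟙 _ := by
    rw [← cancel_epi f2, ← Category.assoc, hσ, Preadditive.sub_comp, Category.id_comp,
      Category.assoc, h32', comp_zero, sub_zero, Category.comp_id]
  have hproj : Projective (kernel f1) := (⟨σ, f2, hret⟩ : Retract (kernel f1) C2).projective
  have p1 : HasProjectiveDimensionLT (kernel f1) 1 := inferInstance
  have p2 : HasProjectiveDimensionLT (kernel e) 2 :=
    S2.hasProjectiveDimensionLT_X₃ 1 p1 inferInstance
  exact S1.hasProjectiveDimensionLT_X₃ 2 p2 inferInstance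


/-- Exactness in `Rep k G` may be checked on elements. -/
theorem rep_exact_of {k : Type} [CommRing k] {G : Type} [Group G] {A B C : Rep.{0} k G}
    (f : A ⟶ B) (g : B ⟶ C)
    (h : f ≫ g = 0) (hex : ∀ x : B, g.hom x = 0 → ∃ y : A, f.hom y = x) :
    (ShortComplex.mk f g h).Exact := by
  rw [← ShortComplex.exact_map_iff_of_faithful _ (forget₂ (Rep.{0} k G) (ModuleCat.{0} k)),
    ShortComplex.moduleCat_exact_iff]
  exact hex

end Vale.Agent.P173
end
end

section

section

/-!
# P173: permutation representations of free actions are projective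
-/

open CategoryTheory CategoryTheory.Limits

namespace Vale.Agent.P173

section

variable (k : Type) [CommRing k] (G : Type) [Group G] (X : Type) [MulAction G X]

/-- the permutation representation on `X →₀ k` -/
noncomputable def permRho : Representation k G (X →₀ k) where
  toFun g := Finsupp.lmapDomain k k (g • ·)
  map_one' := by
    ext x : 2
    simp
  map_mul' g h := by
    ext x : 2
    simp [mul_smul]

theorem permRho_single (g : G) (x : X) (r : k) :
    permRho k G X g (Finsupp.single x r) = Finsupp.single (g • x) r := by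
  simp only [permRho, MonoidHom.coe_mk, OneHom.coe_mk, Finsupp.lmapDomain_apply, Finsupp.mapDomain_single]

/-- the permutation representation as an object of `Rep k G` -/
noncomputable abbrev permRep : Rep.{0} k G := Rep.of (permRho k G X)

end

section

variable {k : Type} [CommRing k] {G : Type} [Group G] {X : Type} [MulAction G X]

/-- the intertwining map defined by an equivariant function -/
noncomputable def permLift (A : Rep.{0} k G) (a : X → A.V) (ha : ∀ g x, a (g • x) = A.ρ g (a x)) :
    permRep k G X ⟶ A :=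
  Rep.ofHom (σ := A.ρ) (LinearMap.intertwiningMap_of_isIntertwiningMap _ _
    (Finsupp.linearCombination k a) (by
      intro g v
      induction v using Finsupp.induction_linear with
      | zero => simp
      | add f h hf hh => simp only [map_add, hf, hh]
      | single x r =>
        rw [permRho_single, Finsupp.linearCombination_single, Finsupp.linearCombination_single,
          ha, map_smul]))

theorem permLift_apply (A : Rep.{0} k G) (a : X → A.V) (ha : ∀ g x, a (g • x) = A.ρ g (a x))
    (v : X →₀ k) : (permLift A a ha).hom v = Finsupp.linearCombination k a v := rfl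

theorem permLift_single (A : Rep.{0} k G) (a : X → A.V) (ha : ∀ g x, a (g • x) = A.ρ g (a x))
    (x : X) : (permLift A a ha).hom (Finsupp.single x (1 : k)) = a x := by
  rw [permLift_apply, Finsupp.linearCombination_single, one_smul]

theorem perm_hom_ext {A : Rep.{0} k G} {f g : permRep k G X ⟶ A}
    (h : ∀ x, f.hom (Finsupp.single x (1 : k)) = g.hom (Finsupp.single x (1 : k))) : f = g := by
  ext : 1
  apply Representation.IntertwiningMap.ext
  apply Finsupp.lhom_ext
  intro x r
  have : (Finsupp.single x r : X →₀ k) = r • Finsupp.single x (1 : k) := by simp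
  rw [this, map_smul, map_smul]
  exact congrArg (r • ·) (h x)

/-- The permutation representation of a free action is projective. -/
theorem permRep_projective (hfree : ∀ (g : G) (x : X), g • x = x → g = 1) :
    Projective (permRep k G X) := by
  refine ⟨fun {E B} f e he => ?_⟩
  classical
  have hsurj : Function.Surjective e.hom := (Rep.epi_iff_surjective e).1 he
  -- orbit representatives
  let rep : X → X := fun x => (Quotient.mk (MulAction.orbitRel G X) x).out
  have hrep : ∀ x, ∃ g : G, g • rep x = x := by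
    intro x
    have h1 : (MulAction.orbitRel G X) (rep x) x := Quotient.exact (Quotient.out_eq _)
    have h2 : (MulAction.orbitRel G X) x (rep x) := (MulAction.orbitRel G X).symm h1
    rw [MulAction.orbitRel_apply, MulAction.mem_orbit_iff] at h2
    exact h2
  choose γ hγ using hrep
  have hrepg : ∀ (g : G) x, rep (g • x) = rep x := by
    intro g x
    have : Quotient.mk (MulAction.orbitRel G X) (g • x) = Quotient.mk _ x := by
      apply Quotient.sound
      change (MulAction.orbitRel G X) (g • x) x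
      rw [MulAction.orbitRel_apply]
      exact MulAction.mem_orbit _ _
    simp only [rep, this]
  have hγg : ∀ (g : G) x, γ (g • x) = g * γ x := by
    intro g x
    have h1 := hγ (g • x)
    rw [hrepg] at h1
    have h2 : (γ (g • x))⁻¹ * (g * γ x) = 1 := by
      apply hfree _ (rep x)
      rw [mul_smul, mul_smul, hγ x, inv_smul_eq_iff]
      exact h1.symm
    rw [inv_mul_eq_one] at h2
    exact h2
  let a' : X → E.V := fun x => E.ρ (γ x) ((fun y : X => (hsurj (f.hom (Finsupp.single y
    (1 : k)))).choose) (rep x))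
  have ha' : ∀ x, e.hom ((fun y : X => (hsurj (f.hom (Finsupp.single y
    (1 : k)))).choose) (rep x)) = f.hom (Finsupp.single (rep x) (1 : k)) := fun x =>
      (hsurj (f.hom (Finsupp.single (rep x) (1 : k)))).choose_spec
  refine ⟨permLift E a' ?_, ?_⟩
  · intro g x
    simp only [a']
    rw [hrepg, hγg, map_mul]
    rfl
  · apply perm_hom_ext
    intro x
    rw [Rep.hom_comp, Representation.IntertwiningMap.comp_apply, permLift_single]
    simp only [a']
    rw [Rep.hom_comm_apply, ha', ← Rep.hom_comm_apply]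
    congr 1
    have : (permRep k G X).ρ (γ x) (Finsupp.single (rep x) (1 : k)) =
        Finsupp.single (γ x • rep x) (1 : k) := permRho_single k G X _ _ _
    rw [this, hγ]

end

end Vale.Agent.P173
end
end

section

section

/-!
# P173: the functional tree lemma (FTL)

`W` is a group with involutive generators `s x` (`x : Γ`), each `x` lying over a vertex `vtx x : V`;
`s x` and `s y` commute when `vtx x = vtx y` or `vtx x`, `vtx y` are adjacent, and `W` is
universal for these relations.
-/

namespace Vale.P173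

/-- `W` is the right-angled Coxeter group with generators `s x`, `x : Γ`, where `s x` and `s y`
commute exactly when (as relations) `vtx x = vtx y` or `adj (vtx x) (vtx y)`. -/
structure IsRACG {W Γ V : Type} [Group W] (s : Γ → W) (vtx : Γ → V) (adj : V → V → Prop) :
    Prop where
  invol : ∀ x, s x * s x = 1
  comm : ∀ x y, (vtx x = vtx y ∨ adj (vtx x) (vtx y)) → s x * s y = s y * s x
  gen : Subgroup.closure (Set.range s) = ⊤
  lift : ∀ (H : Type) [Group H] (g : Γ → H), (∀ x, g x * g x = 1) →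
    (∀ x y, (vtx x = vtx y ∨ adj (vtx x) (vtx y)) → g x * g y = g y * g x) →
    ∃ φ : W →* H, ∀ x, φ (s x) = g x

section FTL

variable {W Γ V A : Type} [Group W] [AddCommGroup A]

/-- the permutation of `W × A` used in the functional tree lemma -/
def twist (t : W) (ht : t * t = 1) (f : W → A) : Equiv.Perm (W × A) where
  toFun p := (p.1 * t, p.2 + f p.1 - f (p.1 * t))
  invFun p := (p.1 * t, p.2 + f p.1 - f (p.1 * t))
  left_inv p := by
    ext
    · simp [mul_assoc, ht]
    · simp [mul_assoc, ht]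
  right_inv p := by
    ext
    · simp [mul_assoc, ht]
    · simp [mul_assoc, ht]

@[simp] lemma twist_apply (t : W) (ht : t * t = 1) (f : W → A) (p : W × A) :
    twist t ht f p = (p.1 * t, p.2 + f p.1 - f (p.1 * t)) := rfl

/-- **Functional tree lemma.** -/
theorem ftl {s : Γ → W} {vtx : Γ → V} {adj : V → V → Prop} (hW : IsRACG s vtx adj)
    (hsymm : ∀ v v', adj v v' → adj v' v)
    (N Sc : Set V) (hdisj : ∀ v, v ∈ N → v ∈ Sc → False)
    (hind : ∀ v ∈ Sc, ∀ v' ∈ Sc, ¬ adj v v')
    (f : V → W → A)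
    (hf : ∀ v ∈ Sc, ∀ x, vtx x ∈ N → adj (vtx x) v → ∀ w, f v (w * s x) = f v w) :
    ∃ u : W → A, (∀ x, vtx x ∈ N → ∀ w, u (w * s x) = u w) ∧
      (∀ x, vtx x ∈ Sc → ∀ w, f (vtx x) (w * s x) + u (w * s x) = f (vtx x) w + u w) := by
  classical
  -- the action
  let g : Γ → Equiv.Perm (W × A) := fun x =>
    if vtx x ∈ N then twist (s x) (hW.invol x) (fun _ => 0)
    else if vtx x ∈ Sc then twist (s x) (hW.invol x) (f (vtx x))
    else 1
  have gN : ∀ x, vtx x ∈ N → g x = twist (s x) (hW.invol x) (fun _ => 0) := by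
    intro x hx; simp only [g, if_pos hx]
  have gS : ∀ x, vtx x ∈ Sc → g x = twist (s x) (hW.invol x) (f (vtx x)) := by
    intro x hx
    have : vtx x ∉ N := fun h => hdisj _ h hx
    simp only [g, if_neg this, if_pos hx]
  have gO : ∀ x, vtx x ∉ N → vtx x ∉ Sc → g x = 1 := by
    intro x h1 h2
    simp only [g, if_neg h1, if_neg h2]
  obtain ⟨Φ, hΦ⟩ := hW.lift (Equiv.Perm (W × A)) g (by
    intro x
    by_cases h1 : vtx x ∈ N
    · rw [gN x h1]
      ext p
      · simp only [Equiv.Perm.coe_mul, Function.comp_apply, twist_apply, add_zero, sub_zero, mul_assoc, hW.invol, mul_one, Prod.mk.eta, Equiv.Perm.coe_one, id_eq]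
      · simp only [Equiv.Perm.coe_mul, Function.comp_apply, twist_apply, add_zero, sub_zero, mul_assoc, hW.invol, mul_one, Prod.mk.eta, Equiv.Perm.coe_one, id_eq]
    by_cases h2 : vtx x ∈ Sc
    · rw [gS x h2]
      ext p
      · simp only [Equiv.Perm.coe_mul, Function.comp_apply, twist_apply, mul_assoc, hW.invol, mul_one, sub_add_cancel, add_sub_cancel_right, Prod.mk.eta, Equiv.Perm.coe_one, id_eq]
      · simp [mul_assoc, hW.invol]
    · rw [gO x h1 h2]; simp) (by
    intro x y hxy
    have hc := hW.comm x y hxy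
    by_cases hx1 : vtx x ∈ N
    · by_cases hy1 : vtx y ∈ N
      · rw [gN x hx1, gN y hy1]
        ext p
        · simp only [Equiv.Perm.coe_mul, Function.comp_apply, twist_apply, add_zero, sub_zero, mul_assoc, hc]
        · simp
      by_cases hy2 : vtx y ∈ Sc
      · rw [gN x hx1, gS y hy2]
        have hadj : adj (vtx x) (vtx y) := by
          rcases hxy with h | h
          · exact (hdisj _ hx1 (h ▸ hy2)).elim
          · exact h
        have key := hf (vtx y) hy2 x hx1 hadj
        ext p
        · simp only [Equiv.Perm.coe_mul, Function.comp_apply, twist_apply, mul_assoc, add_zero, sub_zero, hc]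
        · simp only [Equiv.Perm.coe_mul, Function.comp_apply, twist_apply, add_zero, sub_zero]
          rw [key, show p.1 * s x * s y = p.1 * s y * s x by rw [mul_assoc, hc, mul_assoc], key]
      · rw [gO y hy1 hy2]; simp
    by_cases hx2 : vtx x ∈ Sc
    · by_cases hy1 : vtx y ∈ N
      · rw [gS x hx2, gN y hy1]
        have hadj : adj (vtx y) (vtx x) := by
          rcases hxy with h | h
          · exact (hdisj _ hy1 (h ▸ hx2)).elim
          · exact hsymm _ _ h
        have key := hf (vtx x) hx2 y hy1 hadj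
        ext p
        · simp only [Equiv.Perm.coe_mul, Function.comp_apply, twist_apply, add_zero, sub_zero, mul_assoc, hc]
        · simp only [Equiv.Perm.coe_mul, Function.comp_apply, twist_apply, add_zero, sub_zero]
          rw [key, show p.1 * s y * s x = p.1 * s x * s y by rw [mul_assoc, ← hc, mul_assoc], key]
      by_cases hy2 : vtx y ∈ Sc
      · have hv : vtx x = vtx y := by
          rcases hxy with h | h
          · exact h
          · exact (hind _ hx2 _ hy2 h).elim
        rw [gS x hx2, gS y hy2, ← hv]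
        ext p
        · simp only [Equiv.Perm.coe_mul, Function.comp_apply, twist_apply, mul_assoc, sub_add_cancel, hc]
        · simp only [Equiv.Perm.coe_mul, Function.comp_apply, twist_apply]
          rw [show p.1 * s y * s x = p.1 * s x * s y by rw [mul_assoc, ← hc, mul_assoc]]
          abel
      · rw [gO y hy1 hy2]; simp
    · rw [gO x hx1 hx2]; simp)
  -- the retraction killing the generators outside `N ∪ Sc`
  obtain ⟨ρ, hρ⟩ := hW.lift W (fun x => if vtx x ∈ N ∨ vtx x ∈ Sc then s x else 1) (by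
    intro x
    by_cases h : vtx x ∈ N ∨ vtx x ∈ Sc
    · simp [h, hW.invol]
    · simp [h]) (by
    intro x y hxy
    by_cases h : vtx x ∈ N ∨ vtx x ∈ Sc <;> by_cases h' : vtx y ∈ N ∨ vtx y ∈ Sc <;>
      simp [h, h', hW.comm x y hxy])
  -- first component of the action
  have hfst : ∀ q : W, ∀ p : W × A, (Φ q p).1 = p.1 * (ρ q)⁻¹ := by
    intro q
    have hq : q ∈ Subgroup.closure (Set.range s) := by rw [hW.gen]; trivial
    induction hq using Subgroup.closure_induction with
    | mem q hq =>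
      obtain ⟨x, rfl⟩ := hq
      intro p
      have hinv : (s x)⁻¹ = s x := inv_eq_of_mul_eq_one_right (hW.invol x)
      rw [hΦ, hρ]
      by_cases h1 : vtx x ∈ N
      · rw [gN x h1]; simp [h1, hinv]
      by_cases h2 : vtx x ∈ Sc
      · rw [gS x h2]; simp [h2, hinv]
      · rw [gO x h1 h2]; simp only [Equiv.Perm.coe_one, id_eq, h1, h2, or_self, ↓reduceIte, inv_one, mul_one]
    | one => intro p; simp only [map_one, Equiv.Perm.coe_one, id_eq, inv_one, mul_one]
    | mul q r _ _ hq hr =>
      intro p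
      rw [map_mul, map_mul, Equiv.Perm.mul_apply, hq, hr, mul_inv_rev, mul_assoc]
    | inv q _ hq =>
      intro p
      have h1 := hq ((Φ q⁻¹) p)
      have h2 : Φ q (Φ q⁻¹ p) = p := by rw [← Equiv.Perm.mul_apply, ← map_mul]; simp
      rw [h2] at h1
      have h3 : (ρ q⁻¹)⁻¹ = ρ q := by simp
      rw [h3]
      calc (Φ q⁻¹ p).1 = (Φ q⁻¹ p).1 * (ρ q)⁻¹ * ρ q := by simp only [map_inv, Equiv.Perm.coe_inv, inv_mul_cancel_right]
        _ = p.1 * ρ q := by rw [← h1]
  let u : W → A := fun w => (Φ w⁻¹ (w * (ρ w)⁻¹, 0)).2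
  have hu : ∀ w, Φ w⁻¹ (w * (ρ w)⁻¹, 0) = (w, u w) := by
    intro w
    refine Prod.ext ?_ rfl
    rw [hfst]; simp only [map_inv, inv_inv, inv_mul_cancel_right]
  have hus : ∀ x, (vtx x ∈ N ∨ vtx x ∈ Sc) → ∀ w, (w * s x, u (w * s x)) = g x (w, u w) := by
    intro x hx w
    have hinv : (s x)⁻¹ = s x := inv_eq_of_mul_eq_one_right (hW.invol x)
    rw [← hu, ← hu, ← hΦ, ← Equiv.Perm.mul_apply, ← map_mul, mul_inv_rev, hinv]
    congr 1
    rw [map_mul, hρ, if_pos hx, mul_inv_rev, hinv, mul_assoc, ← mul_assoc (s x) (s x), hW.invol,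
      one_mul]
  refine ⟨u, ?_, ?_⟩
  · intro x hx w
    have := hus x (Or.inl hx) w
    rw [gN x hx] at this
    simpa using congrArg Prod.snd this
  · intro x hx w
    have := hus x (Or.inr hx) w
    rw [gS x hx] at this
    have h2 := congrArg Prod.snd this
    simp only [twist_apply] at h2
    rw [h2]; abel

end FTL

end Vale.P173
end
end

section

section

/-!
# P173: acyclicity of the cube complex, functional form

States `x : Fin 3 → Option V`; a cell of the cube complex is a state `x` together with a set `E`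
of open colours (the other colours carrying a vertex are walls) and a coset of the wall group.
-/

namespace Vale.P173

open Function

/-- a state assigns to every colour at most one vertex -/
abbrev State (V : Type) := Fin 3 → Option V

/-- `x` is a valid state with set `E` of open colours -/
structure Valid {V : Type} (col : V → Fin 3) (adj : V → V → Prop) (E : Finset (Fin 3))
    (x : State V) : Prop where
  hcol : ∀ c v, x c = some v → col v = c
  hadj : ∀ c c' v v', x c = some v → x c' = some v' → c ≠ c' → adj v v'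
  hopen : ∀ c ∈ E, x c ≠ none

/-- the walls of a state with set `E` of open colours -/
def Walls {V : Type} (E : Finset (Fin 3)) (x : State V) : Set V := {v | ∃ c, c ∉ E ∧ x c = some v}

section

variable {W Γ V A : Type} [Group W] [AddCommGroup A]

/-- `f` is invariant under right multiplication by the generators over `S` -/
def Inv (s : Γ → W) (vtx : Γ → V) (S : Set V) (f : W → A) : Prop :=
  ∀ g, vtx g ∈ S → ∀ w, f (w * s g) = f w

/-- cochains on the cells with open set `E` -/
def InvCoch (s : Γ → W) (vtx : Γ → V) (col : V → Fin 3) (adj : V → V → Prop)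
    (E : Finset (Fin 3)) (f : State V → W → A) : Prop :=
  ∀ x, Valid col adj E x → Inv s vtx (Walls E x) (f x)

/-- the differential in direction `c` -/
def dif (c : Fin 3) (f : State V → W → A) : State V → W → A :=
  fun x w => f x w - f (update x c none) w

/-- forget the colours in `K` -/
def eraseSt (K : Finset (Fin 3)) (x : State V) : State V := fun c => if c ∈ K then none else x c

/-- `f` does not depend on the colours in `K` -/
def Killed (col : V → Fin 3) (adj : V → V → Prop) (E K : Finset (Fin 3))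
    (f : State V → W → A) : Prop :=
  ∀ x, Valid col adj E x → f x = f (eraseSt K x)

omit [Group W] [AddCommGroup A] in
lemma killed_empty (col : V → Fin 3) (adj : V → V → Prop) (E : Finset (Fin 3))
    (f : State V → W → A) : Killed col adj E ∅ f := by
  intro x _
  congr 1

theorem plemma {s : Γ → W} {vtx : Γ → V} {adj : V → V → Prop} (hW : IsRACG s vtx adj)
    (hsymm : ∀ v v', adj v v' → adj v' v) (col : V → Fin 3)
    (hcoladj : ∀ v v', adj v v' → col v ≠ col v')
    (c : Fin 3) (K E E' : Finset (Fin 3)) (hcK : c ∉ K) (hKE : ∀ k ∈ K, k ∉ E)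
    (hcE' : c ∉ E') (hE : E = insert c E')
    (h : State V → W → A) (hinv : InvCoch s vtx col adj E h) (hkill : Killed col adj E K h) :
    ∃ f : State V → W → A, InvCoch s vtx col adj E' f ∧ Killed col adj E' K f ∧
      ∀ x, Valid col adj E x → dif c f x = h x := by
  classical
  have hcE : c ∈ E := by rw [hE]; exact Finset.mem_insert_self _ _
  -- the families used
  let N : State V → Set V := fun y =>
    {v | col v ∈ K ∧ ∀ c' v', eraseSt (insert c K) y c' = some v' → adj v v'} ∪
      Walls E (eraseSt (insert c K) y)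
  let S : State V → Set V := fun y =>
    {v | col v = c ∧ ∀ c' v', eraseSt (insert c K) y c' = some v' → adj v v'}
  let X : State V → V → State V := fun y v => update (eraseSt (insert c K) y) c (some v)
  let F : State V → V → W → A := fun y v => if Valid col adj E (X y v) then h (X y v) else 0
  have hF : ∀ y, ∀ v ∈ S y, ∀ g, vtx g ∈ N y → adj (vtx g) v → ∀ w, F y v (w * s g) = F y v w := by
    intro y v hv g hg hgv w
    by_cases hval : Valid col adj E (X y v)
    · simp only [F, if_pos hval]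
      rcases hg with hg | hg
      · obtain ⟨hgK, hgadj⟩ := hg
        set k := col (vtx g) with hk
        have hkc : k ≠ c := fun hh => hcK (hh ▸ hgK)
        let x'' : State V := update (X y v) k (some (vtx g))
        have hval'' : Valid col adj E x'' := by
          refine ⟨?_, ?_, ?_⟩
          · intro c1 v1 h1
            by_cases hc1 : c1 = k
            · subst hc1
              simp only [x'', update_self, Option.some.injEq] at h1
              rw [← h1]
            · simp only [x'', update_of_ne hc1] at h1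
              exact hval.hcol _ _ h1
          · have key : ∀ c2 v2, c2 ≠ k → X y v c2 = some v2 → adj (vtx g) v2 := by
              intro c2 v2 hc2 h2
              by_cases hc2' : c2 = c
              · subst hc2'
                simp only [X, update_self, Option.some.injEq] at h2
                rw [← h2]; exact hgv
              · simp only [X, update_of_ne hc2'] at h2
                exact hgadj _ _ h2
            intro c1 c2 v1 v2 h1 h2 hne
            by_cases hc1 : c1 = k
            · subst hc1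
              simp only [x'', update_self, Option.some.injEq] at h1
              rw [← h1]
              have hc2 : c2 ≠ k := fun hh => hne hh.symm
              simp only [x'', update_of_ne hc2] at h2
              exact key _ _ hc2 h2
            · by_cases hc2 : c2 = k
              · subst hc2
                simp only [x'', update_self, Option.some.injEq] at h2
                rw [← h2]
                simp only [x'', update_of_ne hc1] at h1
                exact hsymm _ _ (key _ _ hc1 h1)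
              · simp only [x'', update_of_ne hc1] at h1
                simp only [x'', update_of_ne hc2] at h2
                exact hval.hadj _ _ _ _ h1 h2 hne
          · intro c1 hc1
            by_cases hc1' : c1 = k
            · subst hc1'
              simp [x'']
            · simp only [x'', update_of_ne hc1']
              exact hval.hopen _ hc1
        have he : eraseSt K x'' = X y v := by
          funext c1
          by_cases hc1 : c1 ∈ K
          · have hne : c1 ≠ c := fun hh => hcK (hh ▸ hc1)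
            simp [eraseSt, X, hc1, update_of_ne hne]
          · have hne : c1 ≠ k := fun hh => hc1 (hh ▸ hgK)
            simp [eraseSt, x'', hc1, update_of_ne hne]
        have h3 : h x'' = h (X y v) := by rw [hkill _ hval'', he]
        have hw : vtx g ∈ Walls E x'' := ⟨k, hKE _ hgK, by simp [x'']⟩
        rw [← h3]
        exact hinv _ hval'' g hw w
      · obtain ⟨c', hc'E, hc'⟩ := hg
        have hne : c' ≠ c := fun hh => hc'E (hh ▸ hcE)
        refine hinv _ hval g ⟨c', hc'E, ?_⟩ w
        simp only [X, update_of_ne hne]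
        exact hc'
    · simp only [F, if_neg hval]
      rfl
  have key : ∀ y : State V, ∃ u : W → A, (∀ g, vtx g ∈ N y → ∀ w, u (w * s g) = u w) ∧
      (∀ g, vtx g ∈ S y → ∀ w, F y (vtx g) (w * s g) + u (w * s g) = F y (vtx g) w + u w) := by
    intro y
    refine ftl hW hsymm (N y) (S y) ?_ ?_ (F y) (hF y)
    · rintro v (⟨hv1, _⟩ | ⟨c', _, hc'⟩) ⟨hv2, hv3⟩
      · exact hcK (hv2 ▸ hv1)
      · exact hcoladj _ _ (hv3 _ _ hc') rfl
    · rintro v ⟨hv, _⟩ v' ⟨hv', _⟩ hvv'
      exact hcoladj _ _ hvv' (hv.trans hv'.symm)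
  choose u hu1 hu2 using key
  -- the answer
  let f : State V → W → A := fun x =>
    u (eraseSt (insert c K) x) + (if x c = none then 0 else h (eraseSt K x))
  have herase2 : ∀ x : State V, eraseSt (insert c K) (eraseSt (insert c K) x)
      = eraseSt (insert c K) x := by
    intro x; funext c1; simp only [eraseSt]; split_ifs <;> rfl
  have hX : ∀ x : State V, ∀ v, x c = some v → X x v = eraseSt K x := by
    intro x v hv
    funext c1
    by_cases hc1 : c1 = c
    · subst hc1
      simp [X, eraseSt, hcK, hv]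
    · simp [X, eraseSt, hc1]
  refine ⟨f, ?_, ?_, ?_⟩
  · intro x hx g hg w
    obtain ⟨c', hc'E', hc'⟩ := hg
    -- membership in N for c' ≠ c
    have hN : c' ≠ c → vtx g ∈ N (eraseSt (insert c K) x) := by
      intro hne
      by_cases hK : c' ∈ K
      · left
        refine ⟨by rw [hx.hcol _ _ hc']; exact hK, ?_⟩
        intro c1 v1 h1
        rw [herase2] at h1
        have hc1 : c1 ∉ insert c K := by
          intro hh; simp [eraseSt, hh] at h1
        simp only [eraseSt, if_neg hc1] at h1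
        have hne1 : c' ≠ c1 := by
          rintro rfl
          exact hc1 (Finset.mem_insert_of_mem hK)
        exact hx.hadj _ _ _ _ hc' h1 hne1
      · right
        rw [herase2]
        refine ⟨c', ?_, ?_⟩
        · rw [hE, Finset.mem_insert, not_or]; exact ⟨hne, hc'E'⟩
        · simp only [eraseSt]
          rw [if_neg (by rw [Finset.mem_insert, not_or]; exact ⟨hne, hK⟩)]
          exact hc'
    rcases hxc : x c with _ | v
    · have hne : c' ≠ c := by
        rintro rfl; rw [hxc] at hc'; exact absurd hc' (by simp)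
      have := hu1 _ g (hN hne) w
      simp only [f, hxc, if_true, Pi.add_apply, Pi.zero_apply, add_zero]
      exact this
    · have hvalK : Valid col adj E (eraseSt K x) := by
        refine ⟨?_, ?_, ?_⟩
        · intro c1 v1 h1
          by_cases hc1 : c1 ∈ K
          · simp [eraseSt, hc1] at h1
          · simp only [eraseSt, if_neg hc1] at h1
            exact hx.hcol _ _ h1
        · intro c1 c2 v1 v2 h1 h2 hne
          by_cases hc1 : c1 ∈ K
          · simp [eraseSt, hc1] at h1
          by_cases hc2 : c2 ∈ K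
          · simp [eraseSt, hc2] at h2
          simp only [eraseSt, if_neg hc1] at h1
          simp only [eraseSt, if_neg hc2] at h2
          exact hx.hadj _ _ _ _ h1 h2 hne
        · intro c1 hc1
          have hc1K : c1 ∉ K := fun hh => hKE _ hh hc1
          simp only [eraseSt, if_neg hc1K]
          rw [hE, Finset.mem_insert] at hc1
          rcases hc1 with rfl | hc1
          · rw [hxc]; simp
          · exact hx.hopen _ hc1
      have hXe : X (eraseSt (insert c K) x) v = eraseSt K x := by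
        rw [← hX x v hxc]
        simp only [X, herase2]
      have hFe : F (eraseSt (insert c K) x) v = h (eraseSt K x) := by
        simp only [F]; rw [hXe, if_pos hvalK]
      have hvS : v ∈ S (eraseSt (insert c K) x) := by
        refine ⟨hx.hcol _ _ hxc, ?_⟩
        intro c1 v1 h1
        rw [herase2] at h1
        have hc1 : c1 ∉ insert c K := by
          intro hh; simp [eraseSt, hh] at h1
        simp only [eraseSt, if_neg hc1] at h1
        refine hx.hadj _ _ _ _ hxc h1 ?_
        rintro rfl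
        exact hc1 (Finset.mem_insert_self _ _)
      have hfx : f x = u (eraseSt (insert c K) x) + F (eraseSt (insert c K) x) v := by
        simp only [f, hxc]; rw [hFe]; simp
      rw [hfx]
      simp only [Pi.add_apply]
      by_cases hne : c' = c
      · subst hne
        have hv : vtx g = v := by
          rw [hxc] at hc'; exact (Option.some.inj hc').symm
        have := hu2 (eraseSt (insert c' K) x) g (hv ▸ hvS) w
        rw [hv] at this
        rw [add_comm, this, add_comm]
      · have h1 := hu1 _ g (hN hne) w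
        have h2 := hF (eraseSt (insert c K) x) v hvS g (hN hne)
          (hx.hadj _ _ _ _ hc' hxc hne) w
        rw [h1, h2]
  · intro x _
    have h1 : eraseSt (insert c K) (eraseSt K x) = eraseSt (insert c K) x := by
      funext c1; simp only [eraseSt]
      by_cases h1 : c1 ∈ K
      · simp [h1]
      · simp [h1]
    have h2 : eraseSt K (eraseSt K x) = eraseSt K x := by
      funext c1; simp only [eraseSt]; split_ifs <;> rfl
    have h3 : eraseSt K x c = x c := by simp [eraseSt, hcK]
    simp only [f]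
    rw [h1, h2, h3]
  · intro x hx
    have h1 : eraseSt (insert c K) (update x c none) = eraseSt (insert c K) x := by
      funext c1
      by_cases hc1 : c1 = c
      · subst hc1; simp [eraseSt]
      · simp [eraseSt, update_of_ne hc1]
    have h2 : x c ≠ none := hx.hopen c hcE
    funext w
    simp only [dif, f, h1, update_self, if_true, if_neg h2, Pi.add_apply, Pi.zero_apply]
    rw [← hkill x hx]
    abel

/-! ### basic properties of `dif` -/

omit [Group W] in
lemma dif_add (c : Fin 3) (f g : State V → W → A) : dif c (f + g) = dif c f + dif c g := by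
  funext x w; simp only [dif, Pi.add_apply]; abel

omit [Group W] in
lemma dif_sub (c : Fin 3) (f g : State V → W → A) : dif c (f - g) = dif c f - dif c g := by
  funext x w; simp only [dif, Pi.sub_apply]; abel

omit [Group W] in
lemma dif_comm (c c' : Fin 3) (f : State V → W → A) : dif c (dif c' f) = dif c' (dif c f) := by
  funext x w
  by_cases h : c = c'
  · subst h; rfl
  · simp only [dif]
    rw [update_comm (Ne.symm h)]
    abel

/-- validity is inherited when opening fewer colours -/
lemma Valid.mono {col : V → Fin 3} {adj : V → V → Prop} {E E' : Finset (Fin 3)} {x : State V}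
    (hx : Valid col adj E x) (h : E' ⊆ E) : Valid col adj E' x :=
  ⟨hx.hcol, hx.hadj, fun c hc => hx.hopen c (h hc)⟩

lemma Valid.erase {col : V → Fin 3} {adj : V → V → Prop} {E E' : Finset (Fin 3)} {x : State V}
    (hx : Valid col adj E x) (c : Fin 3) (h : ∀ k ∈ E', k ∈ E ∧ k ≠ c) :
    Valid col adj E' (update x c none) := by
  refine ⟨?_, ?_, ?_⟩
  · intro c1 v1 h1
    by_cases hc1 : c1 = c
    · subst hc1; simp at h1
    · rw [update_of_ne hc1] at h1; exact hx.hcol _ _ h1
  · intro c1 c2 v1 v2 h1 h2 hne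
    by_cases hc1 : c1 = c
    · subst hc1; simp at h1
    by_cases hc2 : c2 = c
    · subst hc2; simp at h2
    rw [update_of_ne hc1] at h1
    rw [update_of_ne hc2] at h2
    exact hx.hadj _ _ _ _ h1 h2 hne
  · intro c1 hc1
    obtain ⟨h1, h2⟩ := h c1 hc1
    rw [update_of_ne h2]
    exact hx.hopen _ h1

lemma walls_erase (E E' : Finset (Fin 3)) (x : State V) (c : Fin 3)
    (h : ∀ k ∈ E, k ≠ c → k ∈ E') : Walls E' (update x c none) ⊆ Walls E x := by
  rintro v ⟨c', hc', hv⟩
  have hne : c' ≠ c := by rintro rfl; simp at hv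
  rw [update_of_ne hne] at hv
  exact ⟨c', fun h' => hc' (h _ h' hne), hv⟩

lemma walls_mono (E E' : Finset (Fin 3)) (x : State V) (h : E' ⊆ E) :
    Walls E x ⊆ Walls E' x := by
  rintro v ⟨c', hc', hv⟩
  exact ⟨c', fun h' => hc' (h h'), hv⟩

lemma InvCoch.dif {s : Γ → W} {vtx : Γ → V} {col : V → Fin 3} {adj : V → V → Prop}
    {E E' : Finset (Fin 3)} {f : State V → W → A} (hf : InvCoch s vtx col adj E' f) (c : Fin 3)
    (hE : E = insert c E') (hc : c ∉ E') : InvCoch s vtx col adj E (dif c f) := by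
  intro x hx g hg w
  have h1 : E' ⊆ E := by rw [hE]; exact Finset.subset_insert _ _
  have h2 := hf x (hx.mono h1) g (walls_mono _ _ _ h1 hg) w
  have hg' : vtx g ∈ Walls E' (update x c none) := by
    obtain ⟨c', hc', hv⟩ := hg
    have hne : c' ≠ c := by
      rintro rfl; apply hc'; rw [hE]; exact Finset.mem_insert_self _ _
    exact ⟨c', fun h => hc' (h1 h), by rw [update_of_ne hne]; exact hv⟩
  have h3 := hf (update x c none) (hx.erase c (by
    intro k hk
    exact ⟨h1 hk, fun h => hc (h ▸ hk)⟩)) g hg' w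
  simp only [P173.dif]
  rw [h2, h3]

lemma InvCoch.add {s : Γ → W} {vtx : Γ → V} {col : V → Fin 3} {adj : V → V → Prop}
    {E : Finset (Fin 3)} {f g : State V → W → A} (hf : InvCoch s vtx col adj E f)
    (hg : InvCoch s vtx col adj E g) : InvCoch s vtx col adj E (f + g) := by
  intro x hx y hy w
  simp only [Pi.add_apply]
  rw [hf x hx y hy w, hg x hx y hy w]

lemma InvCoch.sub {s : Γ → W} {vtx : Γ → V} {col : V → Fin 3} {adj : V → V → Prop}
    {E : Finset (Fin 3)} {f g : State V → W → A} (hf : InvCoch s vtx col adj E f)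
    (hg : InvCoch s vtx col adj E g) : InvCoch s vtx col adj E (f - g) := by
  intro x hx y hy w
  simp only [Pi.sub_apply]
  rw [hf x hx y hy w, hg x hx y hy w]

omit [Group W] in
/-- if all the differences in the direction `c` vanish then `f` does not depend on the colour -/
lemma dif_zero_erase {col : V → Fin 3} {adj : V → V → Prop} {E E' : Finset (Fin 3)}
    {f : State V → W → A} (c : Fin 3) (hE : E = insert c E')
    (h : ∀ x, Valid col adj E x → dif c f x = 0) :
    ∀ x, Valid col adj E' x → f x = f (update x c none) := by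
  intro x hx
  rcases hxc : x c with _ | v
  · congr 1
    funext c1
    by_cases h1 : c1 = c
    · subst h1; simp [hxc]
    · simp [update_of_ne h1]
  · have hx' : Valid col adj E x := ⟨hx.hcol, hx.hadj, by
      intro k hk
      rw [hE, Finset.mem_insert] at hk
      rcases hk with rfl | hk
      · rw [hxc]; simp
      · exact hx.hopen _ hk⟩
    have h1 := h x hx'
    funext w
    have h2 := congrFun h1 w
    simp only [dif, Pi.zero_apply, sub_eq_zero] at h2
    exact h2

/-- exactness in degree two -/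
theorem exact_two {s : Γ → W} {vtx : Γ → V} {adj : V → V → Prop} (hW : IsRACG s vtx adj)
    (hsymm : ∀ v v', adj v v' → adj v' v) (col : V → Fin 3)
    (hcoladj : ∀ v v', adj v v' → col v ≠ col v')
    (a12 a02 a01 : State V → W → A)
    (h12 : InvCoch s vtx col adj {1, 2} a12) (h02 : InvCoch s vtx col adj {0, 2} a02)
    (h01 : InvCoch s vtx col adj {0, 1} a01)
    (hcoc : ∀ x, Valid col adj {0, 1, 2} x → dif 0 a12 x - dif 1 a02 x + dif 2 a01 x = 0) :
    ∃ b2 b1 b0 : State V → W → A, InvCoch s vtx col adj {2} b2 ∧ InvCoch s vtx col adj {1} b1 ∧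
      InvCoch s vtx col adj {0} b0 ∧
      (∀ x, Valid col adj {1, 2} x → a12 x = dif 1 b2 x - dif 2 b1 x) ∧
      (∀ x, Valid col adj {0, 2} x → a02 x = dif 0 b2 x - dif 2 b0 x) ∧
      (∀ x, Valid col adj {0, 1} x → a01 x = dif 0 b1 x - dif 1 b0 x) := by
  classical
  obtain ⟨b2, hb2, -, hb2'⟩ := plemma hW hsymm col hcoladj 0 ∅ {0, 2} {2} (by simp only [Fin.isValue, Finset.notMem_empty, not_false_eq_true]) (by simp only [Finset.notMem_empty, Fin.isValue, Finset.mem_insert, Finset.mem_singleton, not_or, IsEmpty.forall_iff, implies_true])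
    (by decide) rfl a02 h02 (killed_empty _ _ _ _)
  obtain ⟨b1, hb1, -, hb1'⟩ := plemma hW hsymm col hcoladj 0 ∅ {0, 1} {1} (by simp only [Fin.isValue, Finset.notMem_empty, not_false_eq_true]) (by simp only [Finset.notMem_empty, Fin.isValue, Finset.mem_insert, Finset.mem_singleton, not_or, IsEmpty.forall_iff, implies_true])
    (by decide) rfl a01 h01 (killed_empty _ _ _ _)
  let a' : State V → W → A := a12 - (dif 1 b2 - dif 2 b1)
  have ha' : InvCoch s vtx col adj {1, 2} a' :=
    h12.sub ((hb2.dif 1 (by decide) (by decide)).sub (hb1.dif 2 (by decide) (by decide)))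
  have hd : ∀ x, Valid col adj {0, 1, 2} x → dif 0 a' x = 0 := by
    intro x hx
    have e1 : dif 0 (dif 1 b2) x = dif 1 a02 x := by
      rw [dif_comm]
      funext w
      simp only [P173.dif]
      have h1 := congrFun (hb2' x (hx.mono (by decide))) w
      have h2 := congrFun (hb2' (update x 1 none) (hx.erase 1 (by decide))) w
      simp only [P173.dif] at h1 h2
      rw [h1, h2]
    have e2 : dif 0 (dif 2 b1) x = dif 2 a01 x := by
      rw [dif_comm]
      funext w
      simp only [P173.dif]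
      have h1 := congrFun (hb1' x (hx.mono (by decide))) w
      have h2 := congrFun (hb1' (update x 2 none) (hx.erase 2 (by decide))) w
      simp only [P173.dif] at h1 h2
      rw [h1, h2]
    have e3 := hcoc x hx
    simp only [a', dif_sub, Pi.sub_apply]
    rw [e1, e2]
    rw [← e3]; abel
  have hk : Killed col adj {1, 2} {0} a' := by
    intro x hx
    rw [dif_zero_erase 0 (by decide) hd x hx]
    congr 1
    funext c1
    by_cases h1 : c1 = 0
    · subst h1; simp only [Fin.isValue, update_self, eraseSt, Finset.mem_singleton, ↓reduceIte]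
    · simp [eraseSt, h1]
  obtain ⟨b2', hb2i, hb2k, hb2d⟩ := plemma hW hsymm col hcoladj 1 {0} {1, 2} {2} (by simp only [Fin.isValue, Finset.mem_singleton, one_ne_zero, not_false_eq_true])
    (by decide) (by decide) rfl a' ha' hk
  refine ⟨b2 + b2', b1, 0, hb2.add hb2i, hb1, ?_, ?_, ?_, ?_⟩
  · intro x _ g _ w; rfl
  · intro x hx
    have h1 := hb2d x hx
    rw [dif_add]
    simp only [Pi.add_apply, h1, a', Pi.sub_apply]
    abel
  · intro x hx
    have h1 := hb2' x hx
    have h2 : dif 0 b2' x = 0 := by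
      funext w
      simp only [P173.dif, Pi.zero_apply, sub_eq_zero]
      have := hb2k x (hx.mono (by decide))
      rw [this]
      congr 2
      funext c1
      by_cases h1 : c1 = 0
      · subst h1; simp only [eraseSt, Fin.isValue, Finset.mem_singleton, ↓reduceIte, update_self]
      · simp [eraseSt, h1]
    have h3 : dif 2 (0 : State V → W → A) x = 0 := by funext w; simp [P173.dif]
    rw [dif_add, Pi.add_apply, h1, h2, h3]; simp
  · intro x hx
    have h1 := hb1' x hx
    have h3 : dif 1 (0 : State V → W → A) x = 0 := by funext w; simp [P173.dif]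
    rw [h1, h3]; simp

/-- exactness in degree one -/
theorem exact_one {s : Γ → W} {vtx : Γ → V} {adj : V → V → Prop} (hW : IsRACG s vtx adj)
    (hsymm : ∀ v v', adj v v' → adj v' v) (col : V → Fin 3)
    (hcoladj : ∀ v v', adj v v' → col v ≠ col v')
    (b2 b1 b0 : State V → W → A)
    (h2 : InvCoch s vtx col adj {2} b2) (h1 : InvCoch s vtx col adj {1} b1)
    (h0 : InvCoch s vtx col adj {0} b0)
    (hc12 : ∀ x, Valid col adj {1, 2} x → dif 1 b2 x = dif 2 b1 x)
    (hc02 : ∀ x, Valid col adj {0, 2} x → dif 0 b2 x = dif 2 b0 x)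
    (hc01 : ∀ x, Valid col adj {0, 1} x → dif 0 b1 x = dif 1 b0 x) :
    ∃ u : State V → W → A, InvCoch s vtx col adj ∅ u ∧
      (∀ x, Valid col adj {0} x → b0 x = dif 0 u x) ∧
      (∀ x, Valid col adj {1} x → b1 x = dif 1 u x) ∧
      (∀ x, Valid col adj {2} x → b2 x = dif 2 u x) := by
  classical
  obtain ⟨u0, hu0, -, hu0'⟩ := plemma hW hsymm col hcoladj 0 ∅ {0} ∅ (by simp only [Fin.isValue, Finset.notMem_empty, not_false_eq_true]) (by simp)
    (by decide) rfl b0 h0 (killed_empty _ _ _ _)
  let b1' : State V → W → A := b1 - dif 1 u0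
  have hb1' : InvCoch s vtx col adj {1} b1' := h1.sub (hu0.dif 1 (by decide) (by decide))
  have hd1 : ∀ x, Valid col adj {0, 1} x → dif 0 b1' x = 0 := by
    intro x hx
    have e1 : dif 0 (dif 1 u0) x = dif 1 b0 x := by
      rw [dif_comm]
      funext w
      simp only [P173.dif]
      have h1 := congrFun (hu0' x (hx.mono (by decide))) w
      have h2 := congrFun (hu0' (update x 1 none) (hx.erase 1 (by decide))) w
      simp only [P173.dif] at h1 h2
      rw [h1, h2]
    simp only [b1', dif_sub, Pi.sub_apply]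
    rw [e1, hc01 x hx, sub_self]
  have hk1 : Killed col adj {1} {0} b1' := by
    intro x hx
    rw [dif_zero_erase 0 (by decide) hd1 x hx]
    congr 1
    funext c1
    by_cases h1 : c1 = 0
    · subst h1; simp only [Fin.isValue, update_self, eraseSt, Finset.mem_singleton, ↓reduceIte]
    · simp [eraseSt, h1]
  obtain ⟨u1, hu1, hu1k, hu1'⟩ := plemma hW hsymm col hcoladj 1 {0} {1} ∅ (by simp only [Fin.isValue, Finset.mem_singleton, one_ne_zero, not_false_eq_true]) (by decide)
    (by decide) rfl b1' hb1' hk1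
  have hu1z : ∀ x, Valid col adj ∅ x → dif 0 u1 x = 0 := by
    intro x hx
    funext w
    simp only [P173.dif, Pi.zero_apply, sub_eq_zero]
    rw [hu1k x hx]
    congr 2
    funext c1
    by_cases h1 : c1 = 0
    · subst h1; simp only [eraseSt, Fin.isValue, Finset.mem_singleton, ↓reduceIte, update_self]
    · simp [eraseSt, h1]
  let b2' : State V → W → A := b2 - dif 2 (u0 + u1)
  have hb2' : InvCoch s vtx col adj {2} b2' := h2.sub ((hu0.add hu1).dif 2 (by decide) (by decide))
  have hd0 : ∀ x, Valid col adj {0, 2} x → dif 0 b2' x = 0 := by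
    intro x hx
    have e1 : dif 0 (dif 2 (u0 + u1)) x = dif 2 b0 x := by
      rw [dif_comm, dif_add]
      funext w
      simp only [P173.dif]
      have h1 := congrFun (hu0' x (hx.mono (by decide))) w
      have h2 := congrFun (hu0' (update x 2 none) (hx.erase 2 (by decide))) w
      have h3 := congrFun (hu1z x (hx.mono (by decide))) w
      have h4 := congrFun (hu1z (update x 2 none) (hx.erase 2 (by decide))) w
      simp only [P173.dif, Pi.add_apply] at h1 h2 h3 h4 ⊢
      rw [h1, h2, h3, h4]; simp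
    simp only [b2', dif_sub, Pi.sub_apply]
    rw [e1, hc02 x hx, sub_self]
  have hd1' : ∀ x, Valid col adj {1, 2} x → dif 1 b2' x = 0 := by
    intro x hx
    have e1 : dif 1 (dif 2 (u0 + u1)) x = dif 2 b1 x := by
      rw [dif_comm, dif_add]
      funext w
      simp only [P173.dif]
      have h1 := congrFun (hu1' x (hx.mono (by decide))) w
      have h2 := congrFun (hu1' (update x 2 none) (hx.erase 2 (by decide))) w
      simp only [P173.dif, Pi.sub_apply, b1', Pi.add_apply] at h1 h2 ⊢
      rw [sub_eq_iff_eq_add] at h1 h2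
      rw [h1, h2]; abel
    simp only [b2', dif_sub, Pi.sub_apply]
    rw [e1, hc12 x hx, sub_self]
  have hk2 : Killed col adj {2} {0, 1} b2' := by
    intro x hx
    rw [dif_zero_erase (E := {0, 2}) (E' := {2}) 0 (by decide) hd0 x hx]
    rw [dif_zero_erase (E := {1, 2}) (E' := {2}) 1 (by decide) hd1' (update x 0 none)
      (hx.erase 0 (by decide))]
    congr 1
    funext c1
    by_cases h1 : c1 = 0
    · subst h1; simp only [Fin.isValue, ne_eq, zero_ne_one, not_false_eq_true, update_of_ne, update_self, eraseSt, Finset.mem_insert, Finset.mem_singleton, or_false, ↓reduceIte]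
    by_cases h2 : c1 = 1
    · subst h2; simp only [Fin.isValue, update_self, eraseSt, Finset.mem_insert, one_ne_zero, Finset.mem_singleton, or_true, ↓reduceIte]
    · simp only [Fin.isValue, ne_eq, h2, not_false_eq_true, update_of_ne, h1, eraseSt, Finset.mem_insert, Finset.mem_singleton, or_self, ↓reduceIte]
  obtain ⟨u2, hu2, hu2k, hu2'⟩ := plemma hW hsymm col hcoladj 2 {0, 1} {2} ∅ (by simp only [Fin.isValue, Finset.mem_insert, Fin.reduceEq, Finset.mem_singleton, or_self, not_false_eq_true]) (by decide)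
    (by decide) rfl b2' hb2' hk2
  have hu2z0 : ∀ x, Valid col adj {0} x → dif 0 u2 x = 0 := by
    intro x hx
    funext w
    simp only [P173.dif, Pi.zero_apply, sub_eq_zero]
    rw [hu2k x (hx.mono (by decide)), hu2k (update x 0 none) (hx.erase 0 (by decide))]
    have : eraseSt {0, 1} x = eraseSt {0, 1} (update x 0 none) := by
      funext c1
      by_cases h1 : c1 = 0
      · subst h1; simp only [eraseSt, Fin.isValue, Finset.mem_insert, Finset.mem_singleton, zero_ne_one, or_false, ↓reduceIte]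
      · simp only [eraseSt, Fin.isValue, Finset.mem_insert, h1, Finset.mem_singleton, false_or, ne_eq, not_false_eq_true, update_of_ne]
    rw [this]
  have hu2z1 : ∀ x, Valid col adj {1} x → dif 1 u2 x = 0 := by
    intro x hx
    funext w
    simp only [P173.dif, Pi.zero_apply, sub_eq_zero]
    rw [hu2k x (hx.mono (by decide)), hu2k (update x 1 none) (hx.erase 1 (by decide))]
    have : eraseSt {0, 1} x = eraseSt {0, 1} (update x 1 none) := by
      funext c1
      by_cases h1 : c1 = 1
      · subst h1; simp only [eraseSt, Fin.isValue, Finset.mem_insert, one_ne_zero, Finset.mem_singleton, or_true, ↓reduceIte]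
      · simp only [eraseSt, Fin.isValue, Finset.mem_insert, Finset.mem_singleton, h1, or_false, ne_eq, not_false_eq_true, update_of_ne]
    rw [this]
  refine ⟨u0 + u1 + u2, (hu0.add hu1).add hu2, ?_, ?_, ?_⟩
  · intro x hx
    rw [dif_add, dif_add, Pi.add_apply, Pi.add_apply, hu0' x hx, hu1z x (hx.mono (by decide)),
      hu2z0 x hx]
    simp
  · intro x hx
    rw [dif_add, dif_add, Pi.add_apply, Pi.add_apply, hu1' x hx, hu2z1 x hx]
    simp [b1']
  · intro x hx
    rw [dif_add, Pi.add_apply, hu2' x hx]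
    simp [b2']

/-- exactness in degree zero: a `0`-cocycle is constant -/
theorem exact_zero {s : Γ → W} {vtx : Γ → V} {adj : V → V → Prop} (hW : IsRACG s vtx adj)
    (col : V → Fin 3)
    (u : State V → W → A) (hu : InvCoch s vtx col adj ∅ u)
    (h : ∀ c : Fin 3, ∀ x, Valid col adj {c} x → dif c u x = 0) :
    ∃ a : A, ∀ x, Valid col adj ∅ x → ∀ w, u x w = a := by
  classical
  have hstep : ∀ c : Fin 3, ∀ x, Valid col adj ∅ x → u x = u (update x c none) := by
    intro c x hx
    exact dif_zero_erase (E := {c}) (E' := ∅) c rfl (h c) x hx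
  have hall : ∀ x, Valid col adj ∅ x → u x = u (fun _ => none) := by
    intro x hx
    rw [hstep 0 x hx, hstep 1 _ (hx.erase 0 (by simp)),
      hstep 2 _ ((hx.erase (E' := ∅) 0 (by simp)).erase 1 (by simp))]
    congr 1
    funext c
    fin_cases c <;> simp [update]
  have hinv : ∀ g w, u (fun _ => none) (w * s g) = u (fun _ => none) w := by
    intro g w
    let x : State V := update (fun _ => none) (col (vtx g)) (some (vtx g))
    have hx : Valid col adj ∅ x := by
      refine ⟨?_, ?_, by simp⟩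
      · intro c v hv
        by_cases hc : c = col (vtx g)
        · subst hc; simp only [x, update_self, Option.some.injEq] at hv; rw [← hv]
        · simp [x, update_of_ne hc] at hv
      · intro c c' v v' hv hv' hne
        by_cases hc : c = col (vtx g)
        · have hc' : c' ≠ col (vtx g) := fun hh => hne (hc.trans hh.symm)
          simp [x, update_of_ne hc'] at hv'
        · simp [x, update_of_ne hc] at hv
    rw [← hall x hx]
    exact hu x hx g ⟨col (vtx g), by simp, by simp [x]⟩ w
  refine ⟨u (fun _ => none) 1, fun x hx w => ?_⟩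
  rw [hall x hx]
  have hw : w ∈ Subgroup.closure (Set.range s) := by rw [hW.gen]; trivial
  suffices ∀ v, u (fun _ => none) (v * w) = u (fun _ => none) v by simpa using this 1
  induction hw using Subgroup.closure_induction with
  | mem q hq => obtain ⟨g, rfl⟩ := hq; intro v; exact hinv g v
  | one => intro v; simp
  | mul q r _ _ hq hr => intro v; rw [← mul_assoc, hr, hq]
  | inv q _ hq =>
    intro v
    have := hq (v * q⁻¹)
    rw [inv_mul_cancel_right] at this
    exact this.symm

end

end Vale.P173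
end
end

section

section

/-!
# P173: the cells of the cube complex
-/

open CategoryTheory CategoryTheory.Limits Vale.P173 Function

namespace Vale.Agent.P173

variable {I3 : Fin 3 → Type}

theorem isRACG_WW (I3 : Fin 3 → Type) :
    IsRACG (W := WW I3) (Γ := GenW I3) (V := Vx) Racg.s Sigma.fst Adj where
  invol := Racg.s_mul_s
  comm x y h := Racg.s_comm h
  gen := Racg.closure_range_s
  lift H _ g h1 h2 := ⟨Racg.lift g h1 h2, Racg.lift_s g h1 h2⟩

theorem Wτ_mono {τ τ' : Set Vx} (h : τ ⊆ τ') : (Wτ τ : Subgroup (WW I3)) ≤ Wτ τ' := by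
  apply Subgroup.closure_mono
  rintro _ ⟨g, hg, rfl⟩
  exact ⟨g, h hg, rfl⟩

variable (I3) in
/-- the cells with set `E` of open colours -/
def Cell (E : Finset (Fin 3)) : Type :=
  Σ x : {x : State Vx // Valid col Adj E x}, WW I3 ⧸ (Wτ (Walls E x.1) : Subgroup (WW I3))

instance {E : Finset (Fin 3)} : MulAction (WW I3) (Cell I3 E) :=
  inferInstanceAs (MulAction (WW I3) (Σ x : {x : State Vx // Valid col Adj E x},
    WW I3 ⧸ (Wτ (Walls E x.1) : Subgroup (WW I3))))

/-- the cell of the state `x` and the coset of `w` -/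
def cmk {E : Finset (Fin 3)} (x : State Vx) (h : Valid col Adj E x) (w : WW I3) : Cell I3 E :=
  ⟨⟨x, h⟩, (w : WW I3 ⧸ (Wτ (Walls E x) : Subgroup (WW I3)))⟩

theorem cell_ind {E : Finset (Fin 3)} {p : Cell I3 E → Prop}
    (h : ∀ x hx w, p (cmk x hx w)) (c : Cell I3 E) : p c := by
  obtain ⟨⟨x, hx⟩, q⟩ := c
  obtain ⟨w, rfl⟩ := QuotientGroup.mk_surjective q
  exact h x hx w

theorem cmk_congr {E : Finset (Fin 3)} {x y : State Vx} (h : x = y) (hx : Valid col Adj E x)
    (hy : Valid col Adj E y) (w : WW I3) : cmk x hx w = cmk y hy w := by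
  subst h; rfl

theorem smul_cmk {E : Finset (Fin 3)} (g : WW I3) (x : State Vx) (h : Valid col Adj E x)
    (w : WW I3) : g • cmk x h w = cmk x h (g * w) := rfl

theorem smul_cmk' {E : Finset (Fin 3)} (g : GG I3) (x : State Vx) (h : Valid col Adj E x)
    (w : WW I3) : g • cmk x h w = cmk x h ((g : WW I3) * w) := rfl

theorem cell_free {E : Finset (Fin 3)} (g : GG I3) (c : Cell I3 E) (h : g • c = c) : g = 1 := by
  revert h
  refine cell_ind (p := fun c => g • c = c → g = 1) ?_ c
  intro x hx w h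
  rw [smul_cmk'] at h
  have h1 : (((g : WW I3) * w : WW I3) : WW I3 ⧸ (Wτ (Walls E x) : Subgroup (WW I3))) = (w : WW I3 ⧸ _) := by
    have := (Sigma.mk.inj_iff.1 h).2
    exact eq_of_heq this
  rw [QuotientGroup.eq] at h1
  have h2 : ((g : WW I3) * w)⁻¹ * w = 1 := by
    refine piHom_injOn_clique ?_ h1 ?_
    · rintro v ⟨c1, _, hv⟩ v' ⟨c2, _, hv'⟩
      by_cases hc : c1 = c2
      · subst hc
        rw [hv] at hv'
        exact Or.inl (Option.some.inj hv')
      · exact Or.inr (hx.hadj _ _ _ _ hv hv' hc)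
    · have hg : piHom (g : WW I3) = 1 := mem_GG.1 g.2
      rw [map_mul, map_inv, map_mul, hg, one_mul, inv_mul_cancel]
  rw [mul_inv_rev, mul_assoc, inv_mul_eq_one] at h2
  have h3 : (g : WW I3) = 1 := by
    have h4 : (g : WW I3)⁻¹ * w = w := h2.symm
    have h5 : (g : WW I3)⁻¹ = 1 := by simpa only [inv_eq_one, OneMemClass.coe_eq_one, mul_eq_right] using h4
    simpa using h5
  exact Subtype.ext h3

/-- the face `open → wall` -/
def top {E E' : Finset (Fin 3)} (hE : E' ⊆ E) (c : Cell I3 E) : Cell I3 E' :=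
  ⟨⟨c.1.1, c.1.2.mono hE⟩, Subgroup.quotientMapOfLE (Wτ_mono (walls_mono E E' c.1.1 hE)) c.2⟩

theorem top_cmk {E E' : Finset (Fin 3)} (hE : E' ⊆ E) (x : State Vx) (h : Valid col Adj E x)
    (w : WW I3) : top hE (cmk x h w) = cmk x (h.mono hE) w := rfl

theorem walls_sub_erase (E E' : Finset (Fin 3)) (x : State Vx) (c : Fin 3) (hc : c ∈ E)
    (h1 : ∀ k ∈ E', k ∈ E ∧ k ≠ c) : Walls E x ⊆ Walls E' (update x c none) := by
  rintro v ⟨c', hc', hv⟩
  have hne : c' ≠ c := fun h => hc' (h ▸ hc)
  exact ⟨c', fun h => hc' (h1 _ h).1, by rw [update_of_ne hne]; exact hv⟩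

/-- the face `open → none` -/
def bot {E E' : Finset (Fin 3)} (c : Fin 3) (hc : c ∈ E) (h1 : ∀ k ∈ E', k ∈ E ∧ k ≠ c)
    (q : Cell I3 E) : Cell I3 E' :=
  ⟨⟨update q.1.1 c none, q.1.2.erase c h1⟩,
    Subgroup.quotientMapOfLE (Wτ_mono (walls_sub_erase E E' q.1.1 c hc h1)) q.2⟩

theorem bot_cmk {E E' : Finset (Fin 3)} (c : Fin 3) (hc : c ∈ E) (h1 : ∀ k ∈ E', k ∈ E ∧ k ≠ c)
    (x : State Vx) (h : Valid col Adj E x) (w : WW I3) :
    bot c hc h1 (cmk x h w) = cmk (update x c none) (h.erase c h1) w := rfl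

section

variable {A : Type} [AddCommGroup A]

open Classical in
/-- the cochain on states of a function on cells -/
noncomputable def toFn {E : Finset (Fin 3)} (F : Cell I3 E → A) : State Vx → WW I3 → A :=
  fun x w => if h : Valid col Adj E x then F (cmk x h w) else 0

theorem toFn_of {E : Finset (Fin 3)} (F : Cell I3 E → A) (x : State Vx)
    (h : Valid col Adj E x) (w : WW I3) : toFn F x w = F (cmk x h w) := by
  simp only [toFn]; rw [dif_pos h]

theorem toFn_inv {E : Finset (Fin 3)} (F : Cell I3 E → A) :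
    InvCoch Racg.s Sigma.fst col Adj E (toFn F) := by
  intro x hx g hg w
  rw [toFn_of F x hx, toFn_of F x hx]
  congr 1
  simp only [cmk]
  congr 1
  rw [QuotientGroup.eq]
  have : (w * Racg.s g)⁻¹ * w = (Racg.s g)⁻¹ := by group
  rw [this]
  exact inv_mem (Subgroup.subset_closure ⟨g, hg, rfl⟩)

/-- the function on cells of an invariant cochain -/
noncomputable def ofFn {E : Finset (Fin 3)} (f : State Vx → WW I3 → A)
    (hf : InvCoch Racg.s Sigma.fst col Adj E f) (c : Cell I3 E) : A :=
  Quotient.liftOn' c.2 (f c.1.1) (by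
    intro w w' h
    rw [QuotientGroup.leftRel_apply] at h
    have key : ∀ g ∈ (Wτ (Walls E c.1.1) : Subgroup (WW I3)), ∀ v, f c.1.1 (v * g) = f c.1.1 v := by
      intro g hg
      unfold Wτ at hg
      induction hg using Subgroup.closure_induction with
      | mem q hq =>
        obtain ⟨g, hg, rfl⟩ := hq
        intro v
        exact hf _ c.1.2 g hg v
      | one => intro v; simp
      | mul q r _ _ hq hr => intro v; rw [← mul_assoc, hr, hq]
      | inv q _ hq =>
        intro v
        have := hq (v * q⁻¹)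
        rw [inv_mul_cancel_right] at this
        exact this.symm
    have := key _ h w
    rw [mul_inv_cancel_left] at this
    exact this.symm)

theorem ofFn_cmk {E : Finset (Fin 3)} (f : State Vx → WW I3 → A)
    (hf : InvCoch Racg.s Sigma.fst col Adj E f) (x : State Vx) (h : Valid col Adj E x)
    (w : WW I3) : ofFn f hf (cmk x h w) = f x w := rfl

end

end Vale.Agent.P173
end
end

section

section

/-!
# P173: the chain complex of the cube complex is exact
-/

open CategoryTheory CategoryTheory.Limits Vale.P173 Function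

namespace Vale.Agent.P173

variable {I3 : Fin 3 → Type}

/-- difference of two basis elements -/
noncomputable def dlt {Y : Type} (a b : Y) : Y →₀ ℤ := Finsupp.single a 1 - Finsupp.single b 1

theorem lc_dlt_gen {k : Type} [CommRing k] {Y A : Type} [AddCommGroup A] [Module k A] (F : Y → A)
    (a b : Y) :
    Finsupp.linearCombination k F (Finsupp.single a 1 - Finsupp.single b 1) = F a - F b := by
  rw [map_sub, Finsupp.linearCombination_single, Finsupp.linearCombination_single, one_smul,
    one_smul]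

theorem lc_single_gen {k : Type} [CommRing k] {Y A : Type} [AddCommGroup A] [Module k A]
    (F : Y → A) (a : Y) :
    Finsupp.linearCombination k F (Finsupp.single a 1) = F a := by
  rw [Finsupp.linearCombination_single, one_smul]

theorem lc_dlt {Y A : Type} [AddCommGroup A] [Module ℤ A] (F : Y → A) (a b : Y) :
    Finsupp.linearCombination ℤ F (dlt a b) = F a - F b :=
  lc_dlt_gen (k := ℤ) F a b

theorem dlt_smul {Y : Type} {G : Type} [Group G] [MulAction G Y] (g : G) (a b : Y) :
    permRho ℤ G Y g (dlt a b) = dlt (g • a) (g • b) := by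
  simp only [dlt, map_sub, permRho_single]

variable (I3) in
/-- 3-cells -/
abbrev X3 : Type := Cell I3 {0, 1, 2}

variable (I3) in
/-- 2-cells -/
inductive X2 : Type
  | a (q : Cell I3 {1, 2})
  | b (q : Cell I3 {0, 2})
  | c (q : Cell I3 {0, 1})

variable (I3) in
/-- 1-cells -/
inductive X1 : Type
  | a (q : Cell I3 {2})
  | b (q : Cell I3 {1})
  | c (q : Cell I3 {0})

variable (I3) in
/-- 0-cells -/
abbrev X0 : Type := Cell I3 ∅

instance : MulAction (WW I3) (X2 I3) where
  smul g q := match q with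
    | .a q => .a (g • q)
    | .b q => .b (g • q)
    | .c q => .c (g • q)
  one_smul q := by
    rcases q with q | q | q
    · exact congrArg X2.a (one_smul _ q)
    · exact congrArg X2.b (one_smul _ q)
    · exact congrArg X2.c (one_smul _ q)
  mul_smul g h q := by
    rcases q with q | q | q
    · exact congrArg X2.a (mul_smul g h q)
    · exact congrArg X2.b (mul_smul g h q)
    · exact congrArg X2.c (mul_smul g h q)

instance : MulAction (WW I3) (X1 I3) where
  smul g q := match q with
    | .a q => .a (g • q)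
    | .b q => .b (g • q)
    | .c q => .c (g • q)
  one_smul q := by
    rcases q with q | q | q
    · exact congrArg X1.a (one_smul _ q)
    · exact congrArg X1.b (one_smul _ q)
    · exact congrArg X1.c (one_smul _ q)
  mul_smul g h q := by
    rcases q with q | q | q
    · exact congrArg X1.a (mul_smul g h q)
    · exact congrArg X1.b (mul_smul g h q)
    · exact congrArg X1.c (mul_smul g h q)

theorem smul_X2a (g : GG I3) (q : Cell I3 {1, 2}) : g • X2.a q = X2.a (g • q) := rfl
theorem smul_X2b (g : GG I3) (q : Cell I3 {0, 2}) : g • X2.b q = X2.b (g • q) := rfl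
theorem smul_X2c (g : GG I3) (q : Cell I3 {0, 1}) : g • X2.c q = X2.c (g • q) := rfl
theorem smul_X1a (g : GG I3) (q : Cell I3 {2}) : g • X1.a q = X1.a (g • q) := rfl
theorem smul_X1b (g : GG I3) (q : Cell I3 {1}) : g • X1.b q = X1.b (g • q) := rfl
theorem smul_X1c (g : GG I3) (q : Cell I3 {0}) : g • X1.c q = X1.c (g • q) := rfl

/-- boundary of 3-cells -/
noncomputable def d3f (q : X3 I3) : X2 I3 →₀ ℤ :=
  dlt (X2.a (top (by decide) q)) (X2.a (bot 0 (by decide) (by decide) q)) -
  dlt (X2.b (top (by decide) q)) (X2.b (bot 1 (by decide) (by decide) q)) +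
  dlt (X2.c (top (by decide) q)) (X2.c (bot 2 (by decide) (by decide) q))

/-- boundary of 2-cells -/
noncomputable def d2f : X2 I3 → (X1 I3 →₀ ℤ)
  | .a q =>
    dlt (X1.a (top (by decide) q)) (X1.a (bot 1 (by decide) (by decide) q)) -
    dlt (X1.b (top (by decide) q)) (X1.b (bot 2 (by decide) (by decide) q))
  | .b q =>
    dlt (X1.a (top (by decide) q)) (X1.a (bot 0 (by decide) (by decide) q)) -
    dlt (X1.c (top (by decide) q)) (X1.c (bot 2 (by decide) (by decide) q))
  | .c q =>
    dlt (X1.b (top (by decide) q)) (X1.b (bot 0 (by decide) (by decide) q)) -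
    dlt (X1.c (top (by decide) q)) (X1.c (bot 1 (by decide) (by decide) q))

/-- boundary of 1-cells -/
noncomputable def d1f : X1 I3 → (X0 I3 →₀ ℤ)
  | .a q => dlt (top (by decide) q) (bot 2 (by decide) (by decide) q)
  | .b q => dlt (top (by decide) q) (bot 1 (by decide) (by decide) q)
  | .c q => dlt (top (by decide) q) (bot 0 (by decide) (by decide) q)

/-- the augmentation -/
def d0f : X0 I3 → ℤ := fun _ => 1

/-! ### equivariance -/

theorem cell_exists {E : Finset (Fin 3)} (c : Cell I3 E) : ∃ x hx w, c = cmk x hx w :=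
  cell_ind (p := fun c => ∃ x hx w, c = cmk x hx w) (fun x hx w => ⟨x, hx, w, rfl⟩) c


theorem top_smul {E E' : Finset (Fin 3)} (hE : E' ⊆ E) (g : GG I3) (c : Cell I3 E) :
    top hE (g • c) = g • top hE c :=
  by
  obtain ⟨x, hx, w, rfl⟩ := cell_exists c
  rw [smul_cmk', top_cmk, top_cmk, smul_cmk']

theorem bot_smul {E E' : Finset (Fin 3)} (c : Fin 3) (hc : c ∈ E)
    (h1 : ∀ k ∈ E', k ∈ E ∧ k ≠ c) (g : GG I3) (q : Cell I3 E) :
    bot (E' := E') c hc h1 (g • q) = g • bot c hc h1 q :=
  by
  obtain ⟨x, hx, w, rfl⟩ := cell_exists q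
  rw [smul_cmk', bot_cmk, bot_cmk, smul_cmk']

theorem d3f_smul (g : GG I3) (q : X3 I3) : d3f (g • q) = permRho ℤ (GG I3) (X2 I3) g (d3f q) := by
  simp only [d3f, map_add, map_sub, dlt_smul, top_smul, bot_smul, smul_X2a, smul_X2b, smul_X2c]

theorem d2f_smul (g : GG I3) (q : X2 I3) : d2f (g • q) = permRho ℤ (GG I3) (X1 I3) g (d2f q) := by
  rcases q with q | q | q <;>
  simp only [d2f, map_sub, dlt_smul, top_smul, bot_smul, smul_X2a, smul_X2b, smul_X2c, smul_X1a,
    smul_X1b, smul_X1c]

theorem d1f_smul (g : GG I3) (q : X1 I3) : d1f (g • q) = permRho ℤ (GG I3) (X0 I3) g (d1f q) := by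
  rcases q with q | q | q <;>
  simp only [d1f, dlt_smul, top_smul, bot_smul, smul_X1a, smul_X1b, smul_X1c]

/-! ### exactness -/

theorem exact_of_coch {X Y Z : Type} (f : X → (Y →₀ ℤ)) (g : Y → (Z →₀ ℤ))
    (H : ∀ (A : Type) [AddCommGroup A] [Module ℤ A] (F : Y → A),
      (∀ x, Finsupp.linearCombination ℤ F (f x) = 0) →
      ∃ K : Z → A, ∀ y, F y = Finsupp.linearCombination ℤ K (g y)) (z : Y →₀ ℤ)
    (hz : Finsupp.linearCombination ℤ g z = 0) :
    ∃ y : X →₀ ℤ, Finsupp.linearCombination ℤ f y = z := by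
  let R := LinearMap.range (Finsupp.linearCombination ℤ f)
  have hFq : ∀ y : Y →₀ ℤ, Finsupp.linearCombination ℤ
      (fun y : Y => (R.mkQ (Finsupp.single y (1 : ℤ)))) y = R.mkQ y := by
    intro y
    induction y using Finsupp.induction_linear with
    | zero => simp
    | add f h hf hh => rw [map_add, map_add, hf, hh]
    | single x r =>
      rw [Finsupp.linearCombination_single, ← map_smul]
      simp
  obtain ⟨K, hK⟩ := H ((Y →₀ ℤ) ⧸ R) (fun y => R.mkQ (Finsupp.single y (1 : ℤ))) (by
    intro x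
    rw [hFq]
    rw [Submodule.mkQ_apply, Submodule.Quotient.mk_eq_zero]
    exact ⟨Finsupp.single x 1, by simp⟩)
  have h1 : R.mkQ z = Finsupp.linearCombination ℤ K (Finsupp.linearCombination ℤ g z) := by
    rw [← hFq]
    have h2 : Finsupp.linearCombination ℤ (fun y : Y => (R.mkQ (Finsupp.single y (1 : ℤ)))) =
        (Finsupp.linearCombination ℤ K).comp (Finsupp.linearCombination ℤ g) := by
      apply Finsupp.lhom_ext
      intro y r
      rw [LinearMap.comp_apply, Finsupp.linearCombination_single, Finsupp.linearCombination_single,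
        hK, map_smul]
    rw [h2, LinearMap.comp_apply]
  rw [hz, map_zero, Submodule.mkQ_apply, Submodule.Quotient.mk_eq_zero] at h1
  exact h1

theorem exact_X2 (z : X2 I3 →₀ ℤ) (hz : Finsupp.linearCombination ℤ d2f z = 0) :
    ∃ y : X3 I3 →₀ ℤ, Finsupp.linearCombination ℤ d3f y = z := by
  refine exact_of_coch d3f d2f ?_ z hz
  intro A _ _ F hF
  obtain ⟨b2, b1, b0, h2, h1, h0, e12, e02, e01⟩ := exact_two (isRACG_WW I3)
    (fun v w h => h.symm) col (fun v w h => h.col_ne)
    (toFn (fun q => F (.a q))) (toFn (fun q => F (.b q))) (toFn (fun q => F (.c q))) (toFn_inv _) (toFn_inv _) (toFn_inv _) (by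
      intro x hx
      funext w
      have h := hF (cmk x hx w)
      simp only [d3f, map_add, map_sub, lc_dlt, top_cmk, bot_cmk] at h
      simp only [dif, Pi.add_apply, Pi.sub_apply, Pi.zero_apply]
      rw [toFn_of _ x (hx.mono (by decide)), toFn_of _ x (hx.mono (by decide)),
        toFn_of _ x (hx.mono (by decide)), toFn_of _ _ (hx.erase 0 (by decide)),
        toFn_of _ _ (hx.erase 1 (by decide)), toFn_of _ _ (hx.erase 2 (by decide))]
      exact h)
  refine ⟨fun q => match q with
    | .a q => ofFn b2 h2 q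
    | .b q => ofFn b1 h1 q
    | .c q => ofFn b0 h0 q, ?_⟩
  rintro (q | q | q)
  · obtain ⟨x, hx, w, rfl⟩ := cell_exists q
    have h := congrFun (e12 x hx) w
    rw [toFn_of _ x hx] at h
    simp only [d2f, map_sub, lc_dlt, top_cmk, bot_cmk, ofFn_cmk]
    exact h
  · obtain ⟨x, hx, w, rfl⟩ := cell_exists q
    have h := congrFun (e02 x hx) w
    rw [toFn_of _ x hx] at h
    simp only [d2f, map_sub, lc_dlt, top_cmk, bot_cmk, ofFn_cmk]
    exact h
  · obtain ⟨x, hx, w, rfl⟩ := cell_exists q
    have h := congrFun (e01 x hx) w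
    rw [toFn_of _ x hx] at h
    simp only [d2f, map_sub, lc_dlt, top_cmk, bot_cmk, ofFn_cmk]
    exact h

theorem exact_X1 (z : X1 I3 →₀ ℤ) (hz : Finsupp.linearCombination ℤ d1f z = 0) :
    ∃ y : X2 I3 →₀ ℤ, Finsupp.linearCombination ℤ d2f y = z := by
  refine exact_of_coch d2f d1f ?_ z hz
  intro A _ _ F hF
  obtain ⟨u, hu, e0, e1, e2⟩ := exact_one (isRACG_WW I3)
    (fun v w h => h.symm) col (fun v w h => h.col_ne)
    (toFn (fun q => F (.a q))) (toFn (fun q => F (.b q))) (toFn (fun q => F (.c q))) (toFn_inv _) (toFn_inv _) (toFn_inv _)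
    (by
      intro x hx
      funext w
      have h := hF (.a (cmk x hx w))
      simp only [d2f, map_sub, lc_dlt, top_cmk, bot_cmk] at h
      simp only [dif]
      rw [toFn_of _ x (hx.mono (by decide)), toFn_of _ x (hx.mono (by decide)),
        toFn_of _ _ (hx.erase 1 (by decide)), toFn_of _ _ (hx.erase 2 (by decide))]
      exact sub_eq_zero.1 h)
    (by
      intro x hx
      funext w
      have h := hF (.b (cmk x hx w))
      simp only [d2f, top_cmk, bot_cmk, map_sub, lc_dlt] at h
      simp only [dif]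
      rw [toFn_of _ x (hx.mono (by decide)), toFn_of _ x (hx.mono (by decide)),
        toFn_of _ _ (hx.erase 0 (by decide)), toFn_of _ _ (hx.erase 2 (by decide))]
      exact sub_eq_zero.1 h)
    (by
      intro x hx
      funext w
      have h := hF (.c (cmk x hx w))
      simp only [d2f, map_sub, lc_dlt, top_cmk, bot_cmk] at h
      simp only [dif]
      rw [toFn_of _ x (hx.mono (by decide)), toFn_of _ x (hx.mono (by decide)),
        toFn_of _ _ (hx.erase 0 (by decide)), toFn_of _ _ (hx.erase 1 (by decide))]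
      exact sub_eq_zero.1 h)
  refine ⟨ofFn u hu, ?_⟩
  rintro (q | q | q)
  · obtain ⟨x, hx, w, rfl⟩ := cell_exists q
    have h := congrFun (e2 x hx) w
    rw [toFn_of _ x hx] at h
    simp only [d1f, lc_dlt, top_cmk, bot_cmk, ofFn_cmk]
    exact h
  · obtain ⟨x, hx, w, rfl⟩ := cell_exists q
    have h := congrFun (e1 x hx) w
    rw [toFn_of _ x hx] at h
    simp only [d1f, lc_dlt, top_cmk, bot_cmk, ofFn_cmk]
    exact h
  · obtain ⟨x, hx, w, rfl⟩ := cell_exists q
    have h := congrFun (e0 x hx) w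
    rw [toFn_of _ x hx] at h
    simp only [d1f, lc_dlt, top_cmk, bot_cmk, ofFn_cmk]
    exact h

theorem exact_X0 (z : X0 I3 →₀ ℤ) (hz : Finsupp.linearCombination ℤ d0f z = 0) :
    ∃ y : X1 I3 →₀ ℤ, Finsupp.linearCombination ℤ d1f y = z := by
  refine exact_of_coch d1f (fun _ => (Finsupp.single () 1 : Unit →₀ ℤ)) ?_ z ?_
  · intro A _ _ F hF
    obtain ⟨a, ha⟩ := exact_zero (isRACG_WW I3) col (toFn F) (toFn_inv F) (by
      intro c x hx
      funext w
      simp only [dif, Pi.zero_apply]
      have hc : c = 0 ∨ c = 1 ∨ c = 2 := by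
        clear hx; revert c; decide
      rcases hc with rfl | rfl | rfl
      · have h := hF (.c (cmk x hx w))
        simp only [d1f, lc_dlt, top_cmk, bot_cmk] at h
        rw [toFn_of _ x (hx.mono (by decide)), toFn_of _ _ (hx.erase 0 (by decide))]
        exact h
      · have h := hF (.b (cmk x hx w))
        simp only [d1f, lc_dlt, top_cmk, bot_cmk] at h
        rw [toFn_of _ x (hx.mono (by decide)), toFn_of _ _ (hx.erase 1 (by decide))]
        exact h
      · have h := hF (.a (cmk x hx w))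
        simp only [d1f, lc_dlt, top_cmk, bot_cmk] at h
        rw [toFn_of _ x (hx.mono (by decide)), toFn_of _ _ (hx.erase 2 (by decide))]
        exact h)
    refine ⟨fun _ => a, fun q => ?_⟩
    obtain ⟨x, hx, w, rfl⟩ := cell_exists q
    have h := ha x hx w
    rw [toFn_of _ x hx] at h
    rw [h]; exact (lc_single_gen (k := ℤ) (fun _ : Unit => a) ()).symm
  · have h1 : Finsupp.linearCombination ℤ
        (fun _ : X0 I3 => (Finsupp.single () 1 : Unit →₀ ℤ)) z =
        Finsupp.single () (Finsupp.linearCombination ℤ d0f z) := by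
      clear hz
      induction z using Finsupp.induction_linear with
      | zero => simp
      | add f h hf hh => rw [map_add, map_add, hf, hh, Finsupp.single_add]
      | single x r =>
        rw [Finsupp.linearCombination_single, Finsupp.linearCombination_single]
        simp [d0f]
    rw [h1, hz, Finsupp.single_zero]

/-! ### complex -/

theorem d2f_d3f (q : X3 I3) : Finsupp.linearCombination ℤ d2f (d3f q) = 0 := by
  obtain ⟨x, hx, w, rfl⟩ := cell_exists q
  have v1 : Valid col Adj {2} (update (update x 1 none) 0 none) :=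
    (hx.erase (E' := {0, 2}) 1 (by decide)).erase 0 (by decide)
  have v2 : Valid col Adj {1} (update (update x 2 none) 0 none) :=
    (hx.erase (E' := {0, 1}) 2 (by decide)).erase 0 (by decide)
  have v3 : Valid col Adj {0} (update (update x 2 none) 1 none) :=
    (hx.erase (E' := {0, 1}) 2 (by decide)).erase 1 (by decide)
  simp only [d3f, map_add, map_sub, lc_dlt, d2f, top_cmk, bot_cmk]
  have e1 : update (update x 0 none) 1 none = update (update x 1 none) 0 none :=
    update_comm (by decide) _ _ _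
  have e2 : update (update x 0 none) 2 none = update (update x 2 none) 0 none :=
    update_comm (by decide) _ _ _
  have e3 : update (update x 1 none) 2 none = update (update x 2 none) 1 none :=
    update_comm (by decide) _ _ _
  rw [cmk_congr e1 _ v1, cmk_congr e2 _ v2, cmk_congr e3 _ v3]
  simp only [dlt]
  abel

theorem d1f_d2f (q : X2 I3) : Finsupp.linearCombination ℤ d1f (d2f q) = 0 := by
  rcases q with q | q | q
  · obtain ⟨x, hx, w, rfl⟩ := cell_exists q
    have v3 : Valid col Adj ∅ (update (update x 2 none) 1 none) :=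
      (hx.erase (E' := {1}) 2 (by decide)).erase 1 (by decide)
    have e3 : update (update x 1 none) 2 none = update (update x 2 none) 1 none :=
      update_comm (by decide) _ _ _
    simp only [map_sub, lc_dlt, d2f, d1f, top_cmk, bot_cmk]
    rw [cmk_congr e3 _ v3]
    simp only [dlt]
    abel
  · obtain ⟨x, hx, w, rfl⟩ := cell_exists q
    have v3 : Valid col Adj ∅ (update (update x 2 none) 0 none) :=
      (hx.erase (E' := {0}) 2 (by decide)).erase 0 (by decide)
    have e3 : update (update x 0 none) 2 none = update (update x 2 none) 0 none :=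
      update_comm (by decide) _ _ _
    simp only [d2f, top_cmk, bot_cmk, map_sub, lc_dlt, d1f]
    rw [cmk_congr e3 _ v3]
    simp only [dlt]
    abel
  · obtain ⟨x, hx, w, rfl⟩ := cell_exists q
    have v3 : Valid col Adj ∅ (update (update x 1 none) 0 none) :=
      (hx.erase (E' := {0}) 1 (by decide)).erase 0 (by decide)
    have e3 : update (update x 0 none) 1 none = update (update x 1 none) 0 none :=
      update_comm (by decide) _ _ _
    simp only [d2f, top_cmk, bot_cmk, map_sub, lc_dlt, d1f]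
    rw [cmk_congr e3 _ v3]
    simp only [dlt]
    abel

theorem d0f_d1f (q : X1 I3) : Finsupp.linearCombination ℤ d0f (d1f q) = 0 := by
  rcases q with q | q | q <;> simp [d1f, lc_dlt, d0f]

end Vale.Agent.P173
end
end

section

section

/-!
# P173: `cd G ≤ 2`
-/

open CategoryTheory CategoryTheory.Limits Vale.P173 Function

namespace Vale.Agent.P173

variable {I3 : Fin 3 → Type}

/-- names of triangles of `L` -/
abbrev TT : Type := Fin 3 × Fin 3 × Gen × Tri

/-- the state of a triangle -/
def st3 (τ : TT) : State Vx := fun c => match c with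
  | 0 => some (.v0 τ.1)
  | 1 => some (.v1 τ.2.1 τ.2.2.1)
  | 2 => some (.v2 τ.2.2.2)

open Classical in
/-- the 3-cells over `w` -/
noncomputable def phiF (w : WW I3) (τ : TT) : X3 I3 →₀ ℤ :=
  if h : Valid col Adj {0, 1, 2} (st3 τ) then Finsupp.single (cmk (st3 τ) h w) 1 else 0

/-- linear extension -/
noncomputable def phi (w : WW I3) : (TT →₀ ℤ) →ₗ[ℤ] (X3 I3 →₀ ℤ) :=
  Finsupp.linearCombination ℤ (phiF w)

theorem phi_smul (g : GG I3) (w : WW I3) (a : TT →₀ ℤ) :
    phi ((g : WW I3) * w) a = permRho ℤ (GG I3) (X3 I3) g (phi w a) := by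
  unfold phi
  induction a using Finsupp.induction_linear with
  | zero => simp only [map_zero]
  | add f h hf hh => rw [map_add, map_add, map_add, hf, hh]
  | single τ r =>
    rw [Finsupp.linearCombination_single, Finsupp.linearCombination_single, map_smul]
    congr 1
    unfold phiF
    split_ifs with h
    · rw [permRho_single, smul_cmk']
    · rw [map_zero]

theorem exists_state {x : State Vx} (hx : Valid col Adj {0, 1, 2} x) :
    ∃ τ : TT, x = st3 τ ∧ τ.1 ≠ τ.2.1 ∧ τ.2.2.1 = face τ.2.1 τ.2.2.2 := by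
  have h0 := hx.hopen 0 (by decide)
  have h1 := hx.hopen 1 (by decide)
  have h2 := hx.hopen 2 (by decide)
  obtain ⟨v, hv⟩ := Option.ne_none_iff_exists'.1 h0
  obtain ⟨v', hv'⟩ := Option.ne_none_iff_exists'.1 h1
  obtain ⟨v'', hv''⟩ := Option.ne_none_iff_exists'.1 h2
  have c0 := hx.hcol _ _ hv
  have c1 := hx.hcol _ _ hv'
  have c2 := hx.hcol _ _ hv''
  have a01 := hx.hadj _ _ _ _ hv hv' (by decide)
  have a12 := hx.hadj _ _ _ _ hv' hv'' (by decide)
  cases v with
  | v1 p g => simp [col] at c0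
  | v2 t => simp [col] at c0
  | v0 i =>
  cases v' with
  | v0 p => simp [col] at c1
  | v2 t => simp [col] at c1
  | v1 p g =>
  cases v'' with
  | v0 p => simp [col] at c2
  | v1 p g => simp [col] at c2
  | v2 t =>
  refine ⟨(i, p, g, t), ?_, a01, a12⟩
  funext c
  have hc : c = 0 ∨ c = 1 ∨ c = 2 := by
    clear * -; revert c; decide
  rcases hc with rfl | rfl | rfl
  · rw [hv]; rfl
  · rw [hv']; rfl
  · rw [hv'']; rfl

/-- The projective dimension of the trivial module is at most two. -/
theorem hasProjectiveDimensionLE_two (I3 : Fin 3 → Type) :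
    HasProjectiveDimensionLE (Rep.trivial ℤ (GG I3) ℤ) 2 := by
  classical
  obtain ⟨b01, b12, b02, hb⟩ := L2 (A := TT →₀ ℤ)
    (fun i p g t => Finsupp.single (i, p, g, t) (1 : ℤ))
  -- the cochains defining the retraction
  let B12 : Option Vx → Option Vx → (TT →₀ ℤ) := fun x y => match x, y with
    | some (.v1 p g), some (.v2 t) => b12 p g t
    | _, _ => 0
  let B02 : Option Vx → Option Vx → (TT →₀ ℤ) := fun x y => match x, y with
    | some (.v0 i), some (.v2 t) => b02 i t
    | _, _ => 0
  let B01 : Option Vx → Option Vx → (TT →₀ ℤ) := fun x y => match x, y with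
    | some (.v0 i), some (.v1 p g) => b01 i p g
    | _, _ => 0
  let r12 : State Vx → WW I3 → (X3 I3 →₀ ℤ) := fun x w =>
    if x 0 = none then - phi w (B12 (x 1) (x 2)) else 0
  let r02 : State Vx → WW I3 → (X3 I3 →₀ ℤ) := fun x w =>
    if x 1 = none then - phi w (B02 (x 0) (x 2)) else 0
  let r01 : State Vx → WW I3 → (X3 I3 →₀ ℤ) := fun x w =>
    if x 2 = none then - phi w (B01 (x 0) (x 1)) else 0
  have i12 : InvCoch (W := WW I3) Racg.s Sigma.fst col Adj {1, 2} r12 := by
    rintro x hx g ⟨c, hc, hv⟩ w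
    have hc0 : c = 0 := by clear * - hc; revert c; decide
    subst hc0
    have hn : x 0 ≠ none := by rw [hv]; simp
    simp only [r12, if_neg hn]
  have i02 : InvCoch (W := WW I3) Racg.s Sigma.fst col Adj {0, 2} r02 := by
    rintro x hx g ⟨c, hc, hv⟩ w
    have hc0 : c = 1 := by clear * - hc; revert c; decide
    subst hc0
    have hn : x 1 ≠ none := by rw [hv]; simp
    simp only [r02, if_neg hn]
  have i01 : InvCoch (W := WW I3) Racg.s Sigma.fst col Adj {0, 1} r01 := by
    rintro x hx g ⟨c, hc, hv⟩ w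
    have hc0 : c = 2 := by clear * - hc; revert c; decide
    subst hc0
    have hn : x 2 ≠ none := by rw [hv]; simp
    simp only [r01, if_neg hn]
  let rf : X2 I3 → (X3 I3 →₀ ℤ) := fun q => match q with
    | .a q => ofFn r12 i12 q
    | .b q => ofFn r02 i02 q
    | .c q => ofFn r01 i01 q
  have hrf : ∀ (g : GG I3) (q : X2 I3), rf (g • q) = permRho ℤ (GG I3) (X3 I3) g (rf q) := by
    intro g q
    rcases q with q | q | q
    · obtain ⟨x, hx, w, rfl⟩ := cell_exists q
      rw [smul_X2a, smul_cmk']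
      simp only [rf, ofFn_cmk, r12]
      split_ifs with h
      · rw [phi_smul, map_neg]
      · rw [map_zero]
    · obtain ⟨x, hx, w, rfl⟩ := cell_exists q
      rw [smul_X2b, smul_cmk']
      simp only [rf, ofFn_cmk, r02]
      split_ifs with h
      · rw [phi_smul, map_neg]
      · rw [map_zero]
    · obtain ⟨x, hx, w, rfl⟩ := cell_exists q
      rw [smul_X2c, smul_cmk']
      simp only [rf, ofFn_cmk, r01]
      split_ifs with h
      · rw [phi_smul, map_neg]
      · rw [map_zero]
  have hret : ∀ q : X3 I3, Finsupp.linearCombination ℤ rf (d3f q) = Finsupp.single q 1 := by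
    intro q
    obtain ⟨x, hx, w, rfl⟩ := cell_exists q
    obtain ⟨⟨i, p, g, t⟩, rfl, hip, hpt⟩ := exists_state hx
    simp only [d3f, map_add, map_sub, lc_dlt, top_cmk, bot_cmk, rf, ofFn_cmk, r12, r02, r01]
    have hbb := congrArg (phi w) (hb i p g t hip hpt)
    rw [map_sub, map_add] at hbb
    have hphi : phi w (Finsupp.single (i, p, g, t) (1 : ℤ)) =
        Finsupp.single (cmk (st3 (i, p, g, t)) hx w) 1 := by
      unfold phi
      rw [Finsupp.linearCombination_single, one_smul]
      unfold phiF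
      rw [dif_pos hx]
    rw [hphi] at hbb
    rw [← hbb]
    simp only [st3, reduceCtorEq, ↓reduceIte, update, Fin.isValue, ↓reduceDIte, one_ne_zero, Fin.reduceEq, sub_neg_eq_add, zero_add, zero_ne_one, B12, B02, B01]
    abel
  -- the representations
  have free3 : ∀ (g : GG I3) (q : X3 I3), g • q = q → g = 1 := cell_free
  have free0 : ∀ (g : GG I3) (q : X0 I3), g • q = q → g = 1 := cell_free
  have free2 : ∀ (g : GG I3) (q : X2 I3), g • q = q → g = 1 := by
    intro g q h
    rcases q with q | q | q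
    · rw [smul_X2a] at h; exact cell_free g q (X2.a.inj h)
    · rw [smul_X2b] at h; exact cell_free g q (X2.b.inj h)
    · rw [smul_X2c] at h; exact cell_free g q (X2.c.inj h)
  have free1 : ∀ (g : GG I3) (q : X1 I3), g • q = q → g = 1 := by
    intro g q h
    rcases q with q | q | q
    · rw [smul_X1a] at h; exact cell_free g q (X1.a.inj h)
    · rw [smul_X1b] at h; exact cell_free g q (X1.b.inj h)
    · rw [smul_X1c] at h; exact cell_free g q (X1.c.inj h)
  have P2 : Projective (permRep ℤ (GG I3) (X2 I3)) := permRep_projective free2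
  have P1 : Projective (permRep ℤ (GG I3) (X1 I3)) := permRep_projective free1
  have P0 : Projective (permRep ℤ (GG I3) (X0 I3)) := permRep_projective free0
  let D3 : permRep ℤ (GG I3) (X3 I3) ⟶ permRep ℤ (GG I3) (X2 I3) :=
    permLift (permRep ℤ (GG I3) (X2 I3)) d3f d3f_smul
  let D2 : permRep ℤ (GG I3) (X2 I3) ⟶ permRep ℤ (GG I3) (X1 I3) :=
    permLift (permRep ℤ (GG I3) (X1 I3)) d2f d2f_smul
  let D1 : permRep ℤ (GG I3) (X1 I3) ⟶ permRep ℤ (GG I3) (X0 I3) :=
    permLift (permRep ℤ (GG I3) (X0 I3)) d1f d1f_smul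
  let D0 : permRep ℤ (GG I3) (X0 I3) ⟶ Rep.trivial ℤ (GG I3) ℤ :=
    permLift (Rep.trivial ℤ (GG I3) ℤ) d0f (fun _ _ => rfl)
  let Rr : permRep ℤ (GG I3) (X2 I3) ⟶ permRep ℤ (GG I3) (X3 I3) :=
    permLift (permRep ℤ (GG I3) (X3 I3)) rf hrf
  have h32 : D3 ≫ D2 = 0 := by
    apply perm_hom_ext
    intro q
    rw [Rep.hom_comp, Representation.IntertwiningMap.comp_apply]
    change D2.hom (D3.hom (Finsupp.single q (1 : ℤ))) = 0
    rw [permLift_single]
    exact d2f_d3f q
  have h21 : D2 ≫ D1 = 0 := by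
    apply perm_hom_ext
    intro q
    rw [Rep.hom_comp, Representation.IntertwiningMap.comp_apply]
    change D1.hom (D2.hom (Finsupp.single q (1 : ℤ))) = 0
    rw [permLift_single]
    exact d1f_d2f q
  have h10 : D1 ≫ D0 = 0 := by
    apply perm_hom_ext
    intro q
    rw [Rep.hom_comp, Representation.IntertwiningMap.comp_apply]
    change D0.hom (D1.hom (Finsupp.single q (1 : ℤ))) = 0
    rw [permLift_single]
    exact d0f_d1f q
  have hr : D3 ≫ Rr = 𝟙 _ := by
    apply perm_hom_ext
    intro q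
    rw [Rep.hom_comp, Representation.IntertwiningMap.comp_apply]
    change Rr.hom (D3.hom (Finsupp.single q (1 : ℤ))) = Finsupp.single q 1
    rw [permLift_single]
    exact hret q
  have hepi : Epi D0 := by
    rw [Rep.epi_iff_surjective]
    intro n
    have hx : Valid col Adj ∅ (fun _ => none : State Vx) := ⟨by simp, by simp, by simp⟩
    refine ⟨Finsupp.single (cmk (fun _ => none) hx 1) n, ?_⟩
    change Finsupp.linearCombination ℤ d0f _ = n
    rw [Finsupp.linearCombination_single]
    simp [d0f]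
  exact hasProjectiveDimensionLE_two_of_split D3 D2 D1 D0 h32 h21 h10
    (rep_exact_of _ _ h32 (fun z hz => exact_X2 z hz))
    (rep_exact_of _ _ h21 (fun z hz => exact_X1 z hz))
    (rep_exact_of _ _ h10 (fun z hz => exact_X0 z hz)) Rr hr

end Vale.Agent.P173
end
end

section

section

/-! Asphericity implies the vanishing of rational cohomology `H²` of the Cayley complex. -/

namespace Vale.Agent.P173

universe u w

variable {Γ : Type} [Group Γ]

/-- value of a cochain on a chain -/
noncomputable def evalChain {E : Type u} {A : Type w} [AddCommGroup A] (b : E → A) : (E →₀ ℤ) →+ A :=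
  Finsupp.liftAddHom fun e => (smulAddHom ℤ A).flip (b e)

theorem evalChain_single {E : Type u} {A : Type w} [AddCommGroup A] (b : E → A) (e : E) (n : ℤ) :
    evalChain b (Finsupp.single e n) = n • b e := by
  simp only [evalChain, Finsupp.liftAddHom_apply, AddMonoidHom.flip_apply, map_zero, AddMonoidHom.zero_apply, Finsupp.sum_single_index, smulAddHom_apply]

theorem Pres.Aspherical.exists_cochain {P : Pres.{u} Γ} (h : P.Aspherical)
    (A : Type w) [AddCommGroup A] [Module ℚ A] (c : P.R → Γ → A) :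
    ∃ b : P.X → Γ → A, ∀ r g,
      evalChain (fun p : P.X × Γ => b p.1 p.2) (pathChain P.φ (P.rel r) g) = c r g := by
  classical
  set v : P.R × Γ → (P.X × Γ →₀ ℤ) := fun q => pathChain P.φ (P.rel q.1) q.2 with hv
  have hli : LinearIndependent ℤ v := h
  let ι : (P.X × Γ →₀ ℤ) →ₗ[ℤ] (P.X × Γ →₀ ℚ) :=
    Finsupp.mapRange.linearMap (Algebra.linearMap ℤ ℚ)
  have hι : Function.Injective ι := by
    intro a b hab
    ext p
    have := DFunLike.congr_fun hab p
    simpa [ι] using this
  have h1 : LinearIndependent ℤ (ι ∘ v) := hli.map' ι (LinearMap.ker_eq_bot.2 hι)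
  have h2 : LinearIndependent ℚ (ι ∘ v) := (LinearIndependent.iff_fractionRing ℤ ℚ).1 h1
  let f : Submodule.span ℚ (Set.range (ι ∘ v)) →ₗ[ℚ] A :=
    (Finsupp.linearCombination ℚ fun q : P.R × Γ => c q.1 q.2) ∘ₗ h2.repr
  obtain ⟨g, hg⟩ := LinearMap.exists_extend f
  refine ⟨fun x k => g (Finsupp.single (x, k) 1), fun r k => ?_⟩
  have key : ∀ z : P.X × Γ →₀ ℤ,
      evalChain (fun p : P.X × Γ => g (Finsupp.single (p.1, p.2) 1)) z = g (ι z) := by
    intro z
    have : evalChain (fun p : P.X × Γ => g (Finsupp.single (p.1, p.2) 1)) =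
        (g.toAddMonoidHom).comp ι.toAddMonoidHom := by
      refine Finsupp.addHom_ext fun p n => ?_
      rw [evalChain_single]
      simp only [ι, AddMonoidHom.coe_comp, LinearMap.toAddMonoidHom_coe, Function.comp_apply,
        Finsupp.mapRange.linearMap_apply, Finsupp.mapRange_single, Algebra.linearMap_apply,
        algebraMap_int_eq, eq_intCast]
      rw [← map_zsmul g]
      congr 1
      simp
    exact DFunLike.congr_fun this z
  rw [key]
  have h3 : ι (pathChain P.φ (P.rel r) k) = (ι ∘ v) (r, k) := rfl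
  have h4 : (ι ∘ v) (r, k) ∈ Submodule.span ℚ (Set.range (ι ∘ v)) :=
    Submodule.subset_span ⟨_, rfl⟩
  have h5 : g ((ι ∘ v) (r, k)) = f ⟨_, h4⟩ := by
    rw [← hg]; rfl
  rw [h3, h5]
  have h6 : h2.repr ⟨_, h4⟩ = Finsupp.single (r, k) 1 := h2.repr_eq_single (r, k) ⟨_, h4⟩ rfl
  have h7 : f ⟨_, h4⟩ = Finsupp.linearCombination ℚ (fun q : P.R × Γ => c q.1 q.2)
    (h2.repr ⟨_, h4⟩) := rfl
  rw [h7, h6]
  simp

/-- Left crossed homomorphisms are computed by path chains. -/
theorem evalChain_pathChain {X : Type u} {A : Type w} [AddCommGroup A] (φ : X → Γ)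
    (bL : X → Γ → A) (S : FreeGroup X → Γ → A)
    (hmul : ∀ a b h, S (a * b) h = S a (FreeGroup.lift φ b * h) + S b h)
    (hof : ∀ x h, S (FreeGroup.of x) h = bL x h) (l : List (X × Bool)) (k : Γ) :
    evalChain (fun p : X × Γ => bL p.1 ((φ p.1)⁻¹ * p.2⁻¹)) (pathChain φ l k) =
      S (FreeGroup.mk l) ((FreeGroup.lift φ (FreeGroup.mk l))⁻¹ * k⁻¹) := by
  have hone : ∀ h, S 1 h = 0 := by
    intro h
    have := hmul 1 1 h
    simpa only [mul_one, map_one, one_mul, left_eq_add] using this
  have hinv : ∀ a h, S a⁻¹ h = - S a ((FreeGroup.lift φ a)⁻¹ * h) := by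
    intro a h
    have := hmul a a⁻¹ h
    rw [mul_inv_cancel, hone, map_inv] at this
    exact eq_neg_of_add_eq_zero_right this.symm
  induction l generalizing k with
  | nil =>
    rw [← FreeGroup.one_eq_mk, hone]
    simp only [pathChain, map_zero]
  | cons a l ih =>
    obtain ⟨x, t⟩ := a
    cases t with
    | true =>
      have e : FreeGroup.mk ((x, true) :: l) = FreeGroup.of x * FreeGroup.mk l := rfl
      rw [pathChain, map_add, evalChain_single, ih, e, hmul, hof, map_mul, FreeGroup.lift_apply_of]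
      simp only [one_smul, FreeGroup.lift_mk, mul_inv_rev, mul_assoc, mul_inv_cancel_left]
    | false =>
      have e : FreeGroup.mk ((x, false) :: l) = (FreeGroup.of x)⁻¹ * FreeGroup.mk l := rfl
      rw [pathChain, map_add, map_neg, evalChain_single, ih, e, hmul, hinv, hof, map_mul, map_inv,
        FreeGroup.lift_apply_of]
      simp only [mul_inv_rev, inv_inv, inv_mul_cancel_left, one_smul, FreeGroup.lift_mk, mul_assoc, mul_inv_cancel_left]

/-- Asphericity in the left convention. -/
theorem Pres.Aspherical.star_left {P : Pres.{u} Γ} (hP : P.Aspherical)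
    (A : Type w) [AddCommGroup A] [Module ℚ A] (c : P.R → Γ → A) :
    ∃ b : P.X → Γ → A, ∀ S : FreeGroup P.X → Γ → A,
      (∀ a b h, S (a * b) h = S a (FreeGroup.lift P.φ b * h) + S b h) →
      (∀ x h, S (FreeGroup.of x) h = b x h) →
      ∀ r h, S (FreeGroup.mk (P.rel r)) h = c r h := by
  obtain ⟨b, hb⟩ := hP.exists_cochain A fun r k => c r k⁻¹
  refine ⟨fun x g => b x ((P.φ x * g)⁻¹), fun S hmul hof r h => ?_⟩
  have h1 := evalChain_pathChain P.φ _ S hmul hof (P.rel r) h⁻¹
  have h2 : FreeGroup.lift P.φ (FreeGroup.mk (P.rel r)) = 1 := by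
    have : FreeGroup.mk (P.rel r) ∈ (FreeGroup.lift P.φ).ker := by
      rw [P.ker]; exact Subgroup.subset_normalClosure ⟨r, rfl⟩
    exact this
  rw [h2, inv_one, one_mul, inv_inv] at h1
  rw [← h1]
  have h3 := hb r h⁻¹
  simp only [inv_inv] at h3
  rw [← h3]
  congr 1
  congr 1
  funext p
  simp

end Vale.Agent.P173
end
end

section

section

/-! No presentation of `G` is aspherical. -/

namespace Vale.Agent.P173

universe u

open CategoryTheory Cardinal

/-- the index sets: iterated power sets of `ℕ` -/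
def bigI : Fin 3 → Type
  | 0 => Set ℕ
  | 1 => Set (Set ℕ)
  | 2 => Set (Set (Set ℕ))

theorem aleph0_lt_bigI_zero : ℵ₀ < #(bigI 0) := by
  change ℵ₀ < #(Set ℕ)
  rw [mk_set, mk_nat]; exact cantor _

theorem bigI_zero_lt_one : #(bigI 0) < #(bigI 1) := by
  change #(Set ℕ) < #(Set (Set ℕ))
  rw [mk_set (α := Set ℕ)]; exact cantor _

theorem bigI_one_lt_two : #(bigI 1) < #(bigI 2) := by
  change #(Set (Set ℕ)) < #(Set (Set (Set ℕ)))
  rw [mk_set (α := Set (Set ℕ))]; exact cantor _

theorem bigI_nonempty (c : Fin 3) : Nonempty (bigI c) := by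
  fin_cases c
  · exact ⟨(∅ : Set ℕ)⟩
  · exact ⟨(∅ : Set (Set ℕ))⟩
  · exact ⟨(∅ : Set (Set (Set ℕ)))⟩

/-- Rational cohomology `H²` of the Cayley complex of any presentation of `G` is nonzero. -/
theorem not_star (P : Pres.{u} (GG bigI)) :
    ¬ ∀ (B : Type) [AddCommGroup B] [Module ℚ B] (c : P.R → GG bigI → B),
      ∃ b : P.X → GG bigI → B, ∀ S : FreeGroup P.X → GG bigI → B,
        (∀ a b h, S (a * b) h = S a (FreeGroup.lift P.φ b * h) + S b h) →
        (∀ x h, S (FreeGroup.of x) h = b x h) →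
        ∀ r h, S (FreeGroup.mk (P.rel r)) h = c r h := by
  intro star
  obtain ⟨C, hφ, hrel, hE⟩ := exists_pieces aleph0_lt_bigI_zero bigI_zero_lt_one bigI_one_lt_two
    P.φ (fun r => FreeGroup.mk (P.rel r)) P.surj
    (fun r => by
      have : FreeGroup.mk (P.rel r) ∈ (FreeGroup.lift P.φ).ker := by
        rw [P.ker]; exact Subgroup.subset_normalClosure ⟨r, rfl⟩
      exact this)
    (fun w hw => by rw [← P.ker]; exact hw)
  refine Hol.no_pieces_star C hE fun B _ _ c => ?_
  obtain ⟨b, hb⟩ := star B c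
  refine ⟨b, fun r h => ?_⟩
  rw [hφ, hrel]
  exact hb (Hol.S P.φ b) (fun a b' h => Hol.S_mul _ _ _ _ _) (fun x h => Hol.S_of _ _ _ _) r h

theorem not_aspherical (P : Pres.{u} (GG bigI)) : ¬ P.Aspherical := fun h =>
  not_star P fun B _ _ c => h.star_left B c

end Vale.Agent.P173
end
end

section

/-! Main theorem: cohomological dimension two and no aspherical presentation. -/

namespace Vale.Agent.P173

universe u

open CategoryTheory

theorem pd_eq_two {C : Type*} [Category C] [Abelian C] (X : C) (h1 : HasProjectiveDimensionLE X 2)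
    (h2 : ¬ HasProjectiveDimensionLT X 2) : projectiveDimension X = 2 := by
  apply le_antisymm
  · exact (projectiveDimension_le_iff X 2).2 h1
  · exact (projectiveDimension_ge_iff X 2).2 h2

/-- The cohomological dimension of `G` is two. -/
theorem cd_eq_two : projectiveDimension (Rep.trivial ℤ (GG bigI) ℤ) = 2 :=
  pd_eq_two _ (hasProjectiveDimensionLE_two bigI)
    (GG_not_hasProjectiveDimensionLT_two (bigI_nonempty 0) (bigI_nonempty 2))

theorem exists_cd_two_not_aspherical : ∃ (Γ : Type) (_ : Group Γ),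
    projectiveDimension (Rep.trivial ℤ Γ ℤ) = 2 ∧ ∀ P : Pres.{u} Γ, ¬ P.Aspherical :=
  ⟨GG bigI, inferInstance, cd_eq_two, not_aspherical⟩

end Vale.Agent.P173
end

section

section

/-! # P173, topology bridge: common definitions

`Cx Z` is a convenient form of a CW structure of dimension at most two on `Z`, with 2-cells in
polar coordinates `(r, t)`, `r` the radius and `t` the angle. `EE T` is a contractible space with
a free action of `T`. -/

open Set Topology unitInterval

namespace Vale.Agent.P173.Topo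

universe u v w

/-! ## Cell complexes of dimension at most two -/

/-- A cell complex of dimension at most two with total space `Z`. The 2-cells are given in polar
coordinates: `face f (r, t)` is the point with radius `r` and angle `2 π t`. -/
structure Cx (Z : Type u) [TopologicalSpace Z] where
  V : Type u
  Ed : Type u
  Fa : Type u
  vert : V → Z
  edge : Ed → I → Z
  face : Fa → I × I → Z
  src : Ed → V
  tgt : Ed → V
  edge_cont : ∀ e, Continuous (edge e)
  face_cont : ∀ f, Continuous (face f)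
  edge_zero : ∀ e, edge e 0 = vert (src e)
  edge_one : ∀ e, edge e 1 = vert (tgt e)
  /-- the center of the disc -/
  face_zero : ∀ f t t', face f (0, t) = face f (0, t')
  /-- the angles `0` and `2 π` agree -/
  face_wrap : ∀ f r, face f (r, 0) = face f (r, 1)
  vert_inj : Function.Injective vert
  edge_vert : ∀ e s v, edge e s = vert v → s = 0 ∨ s = 1
  edge_inj : ∀ e s e' s', edge e s = edge e' s' → s ≠ 0 → s ≠ 1 → e = e' ∧ s = s'
  face_vert : ∀ f r t v, face f (r, t) = vert v → r = 1
  face_edge : ∀ f r t e s, face f (r, t) = edge e s → r = 1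
  face_inj : ∀ f r t f' r' t', face f (r, t) = face f' (r', t') → r ≠ 1 →
    f = f' ∧ r = r' ∧ (r = 0 ∨ t = t' ∨ (t = 0 ∧ t' = 1) ∨ (t = 1 ∧ t' = 0))
  /-- the boundary of a 2-cell lies in finitely many closed 1-cells and vertices -/
  face_bdry : ∀ f, ∃ S : Finset Ed, ∀ t, face f (1, t) ∈ range vert ∪ ⋃ e ∈ S, range (edge e)
  cover : ∀ x, (x ∈ range vert ∪ ⋃ e, range (edge e)) ∨ ∃ f r t, r ≠ 1 ∧ face f (r, t) = x
  closed1 : ∀ A, A ⊆ range vert ∪ ⋃ e, range (edge e) →
    (∀ e, IsClosed (edge e ⁻¹' A)) → IsClosed A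
  closed2 : ∀ A, (∀ e, IsClosed (edge e ⁻¹' A)) → (∀ f, IsClosed (face f ⁻¹' A)) → IsClosed A

namespace Cx

variable {Z : Type u} [TopologicalSpace Z] (c : Cx Z)

/-- the 1-skeleton -/
def Z1 : Set Z := range c.vert ∪ ⋃ e, range (c.edge e)

/-- `c.IsPath v v' x`: the word `x` is the word of an edge path from the vertex `v` to `v'`,
read from left to right. -/
inductive IsPath : c.V → c.V → FreeGroup c.Ed → Prop
  | nil (v : c.V) : IsPath v v 1
  | cons (e : c.Ed) (v : c.V) (x : FreeGroup c.Ed) :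
      IsPath (c.tgt e) v x → IsPath (c.src e) v (FreeGroup.of e * x)
  | cons' (e : c.Ed) (v : c.V) (x : FreeGroup c.Ed) :
      IsPath (c.src e) v x → IsPath (c.tgt e) v ((FreeGroup.of e)⁻¹ * x)

/-- Positions in the 1-skeleton: a vertex or a point with parameter `s` on a closed edge. -/
inductive Pos
  | ver (v : c.V)
  | arc (e : c.Ed) (s : I)

/-- the point of a position -/
def Pos.at {c : Cx Z} : c.Pos → Z
  | .ver v => c.vert v
  | .arc e s => c.edge e s

/-- the vertex of a position (for a point on an edge: the source of the edge) -/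
def Pos.vtx {c : Cx Z} : c.Pos → c.V
  | .ver v => v
  | .arc e _ => c.src e

end Cx

/-! ## The contractible space of `T`-valued functions -/

/-- The space of all functions from `[0, 1)` to `T`. -/
def EE (T : Type v) : Type v := Ico (0 : ℝ) 1 → T

namespace EE

variable {T : Type v}

/-- Distance: the (outer) measure of the set where the functions differ. -/
noncomputable instance : PseudoMetricSpace (EE T) where
  dist f g := (MeasureTheory.volume (Subtype.val '' {x | f x ≠ g x})).toReal
  dist_self f := by simp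
  dist_comm f g := by simp only [ne_comm]
  dist_triangle f g h := by
    have hb : ∀ a b : EE T, MeasureTheory.volume
        ((Subtype.val : Ico (0 : ℝ) 1 → ℝ) '' {x | a x ≠ b x}) ≠ ⊤ := by
      intro a b
      refine ne_top_of_le_ne_top (b := MeasureTheory.volume (Ico (0 : ℝ) 1)) (by simp)
        (MeasureTheory.measure_mono ?_)
      rintro _ ⟨x, -, rfl⟩
      exact x.2
    rw [← ENNReal.toReal_add (hb _ _) (hb _ _)]
    refine ENNReal.toReal_mono (ENNReal.add_ne_top.2 ⟨hb _ _, hb _ _⟩) ?_
    refine le_trans (MeasureTheory.measure_mono ?_) (MeasureTheory.measure_union_le _ _)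
    rw [← image_union]
    refine image_mono ?_
    intro x hx
    by_contra hcon
    simp only [mem_union, mem_ofPred_eq, not_or, not_not] at hcon
    exact hx (hcon.1.trans hcon.2)

section Group

variable [Group T]

instance : MulAction T (EE T) where
  smul t f := fun x => t * f x
  one_smul f := by funext x; exact one_mul _
  mul_smul a b f := by funext x; exact mul_assoc _ _ _

theorem smul_apply (t : T) (f : EE T) (x : Ico (0 : ℝ) 1) : (t • f) x = t * f x := rfl

/-- the constant function `1` -/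
def one (T : Type v) [Group T] : EE T := fun _ => 1

/-- the standard path from `one` to `t • one` -/
noncomputable def pth (t : T) (s : I) : EE T := fun x => if (x : ℝ) < (s : ℝ) then t else 1

/-- the standard contraction: `con 0 f = f` and `con 1 f = one T`. -/
noncomputable def con (s : I) (f : EE T) : EE T := fun x => if (x : ℝ) < (s : ℝ) then 1 else f x

/-- functoriality -/
def map {T' : Type w} [Group T'] (θ : T →* T') (f : EE T) : EE T' := fun x => θ (f x)

end Group

end EE

section Quot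

variable (T : Type v) [Group T] (M : Type w) [MulAction T M]

/-- The quotient of `EE T × M` by the diagonal action of `T`. -/
abbrev QQ : Type (max v w) := MulAction.orbitRel.Quotient T (EE T × M)

/-- the projection -/
def qmk {T : Type v} [Group T] {M : Type w} [MulAction T M] (p : EE T × M) : QQ T M :=
  Quotient.mk _ p

end Quot

/-! ## Systems over a labelled 1-skeleton -/

section Sys

variable {Z : Type u} [TopologicalSpace Z]

/-- A system over the 1-skeleton with labels `lam` in `T` and values in a `T`-space `M`. -/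
structure Sys (c : Cx Z) {T : Type v} [Group T] (lam : c.Ed → T) (M : Type w)
    [TopologicalSpace M] [MulAction T M] where
  mv : c.V → M
  me : c.Ed → I → M
  cont : ∀ e, Continuous (me e)
  zero : ∀ e, me e 0 = mv (c.src e)
  one : ∀ e, me e 1 = lam e • mv (c.tgt e)

/-- the value of the system at a position -/
def Sys.at {c : Cx Z} {T : Type v} [Group T] {lam : c.Ed → T} {M : Type w}
    [TopologicalSpace M] [MulAction T M] (S : Sys c lam M) : c.Pos → M
  | .ver v => S.mv v
  | .arc e s => S.me e s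

/-- the value of the standard lift to `EE T` at a position -/
noncomputable def Cx.Pos.ee {c : Cx Z} {T : Type v} [Group T] (lam : c.Ed → T) : c.Pos → EE T
  | .ver _ => EE.one T
  | .arc e s => EE.pth (lam e) s

end Sys

/-! ## Coverings -/

section Cover

variable {Z : Type u} [TopologicalSpace Z] {E : Type v} [TopologicalSpace E]

/-- Lifts of the 1-skeleton to a covering `p : E → Z` with group `G`. -/
structure Lifts (c : Cx Z) (p : E → Z) (G : Type w) [Group G] [MulAction G E] where
  vt : c.V → E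
  et : c.Ed → I → E
  φ : c.Ed → G
  p_vt : ∀ v, p (vt v) = c.vert v
  cont : ∀ e, Continuous (et e)
  p_et : ∀ e s, p (et e s) = c.edge e s
  zero : ∀ e, et e 0 = vt (c.src e)
  one : ∀ e, et e 1 = φ e • vt (c.tgt e)

/-- the lift of a position -/
def Lifts.at {c : Cx Z} {p : E → Z} {G : Type w} [Group G] [MulAction G E] (L : Lifts c p G) :
    c.Pos → E
  | .ver v => L.vt v
  | .arc e s => L.et e s

end Cover

/-! ## Chains of words -/

/-- The cellular 1-chain of the path in the Cayley graph starting at `g` and reading `x`. -/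
noncomputable def chain {G : Type} [Group G] {X : Type u} (φ : X → G) (x : FreeGroup X) (g : G) :
    X × G →₀ ℤ :=
  haveI := Classical.decEq X
  pathChain φ x.toWord g

/-- evaluation of an integral cochain on a chain -/
noncomputable def ev {X : Type u} (b : X → ℤ) (z : X →₀ ℤ) : ℤ := z.sum fun x n => n * b x

end Vale.Agent.P173.Topo
end
end

section

section

/-! # P173, topology bridge: polar coordinates on the square disc (for M2b) -/

open Set Topology unitInterval

namespace Vale.Agent.P173.Topo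

/-- the denominator -/
noncomputable def polM (t : ℝ) : ℝ :=
  max |Real.cos (2 * Real.pi * t)| |Real.sin (2 * Real.pi * t)|

/-- The boundary of the unit disc of the sup norm, with angle `2 π t`. -/
noncomputable def theta : I → (Fin 2 → ℝ) := fun t =>
  (max |Real.cos (2 * Real.pi * (t : ℝ))| |Real.sin (2 * Real.pi * (t : ℝ))|)⁻¹ •
    ![Real.cos (2 * Real.pi * (t : ℝ)), Real.sin (2 * Real.pi * (t : ℝ))]

theorem norm_fin_two (v : Fin 2 → ℝ) : ‖v‖ = max |v 0| |v 1| := by
  apply le_antisymm
  · rw [pi_norm_le_iff_of_nonneg (le_max_of_le_left (abs_nonneg _))]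
    intro i
    fin_cases i
    · exact le_max_left _ _
    · exact le_max_right _ _
  · exact max_le (norm_le_pi_norm v 0) (norm_le_pi_norm v 1)

theorem polM_pos (t : ℝ) : 0 < polM t := by
  have h := Real.sin_sq_add_cos_sq (2 * Real.pi * t)
  rw [polM, lt_max_iff]
  by_contra hcon
  push Not at hcon
  have h1 : Real.cos (2 * Real.pi * t) = 0 := abs_nonpos_iff.1 hcon.1
  have h2 : Real.sin (2 * Real.pi * t) = 0 := abs_nonpos_iff.1 hcon.2
  rw [h1, h2] at h
  norm_num at h

theorem theta_eq (t : I) : theta t = (polM t)⁻¹ •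
    ![Real.cos (2 * Real.pi * (t : ℝ)), Real.sin (2 * Real.pi * (t : ℝ))] := rfl

theorem continuous_theta : Continuous theta := by
  have h1 : Continuous (fun t : I => polM t) := by
    unfold polM
    (clear * -; fun_prop)
  have h2 : Continuous (fun t : I => (polM t)⁻¹) := h1.inv₀ fun t => (polM_pos t).ne'
  have h3 : Continuous (fun t : I => (![Real.cos (2 * Real.pi * (t : ℝ)),
      Real.sin (2 * Real.pi * (t : ℝ))] : Fin 2 → ℝ)) := by
    rw [continuous_pi_iff]
    intro i
    fin_cases i
    · simp only [Fin.zero_eta, Matrix.cons_val_zero]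
      fun_prop
    · simp only [Fin.mk_one, Matrix.cons_val_one]
      fun_prop
  exact h2.smul h3

theorem norm_theta (t : I) : ‖theta t‖ = 1 := by
  rw [theta_eq, norm_smul, norm_fin_two, Real.norm_of_nonneg (inv_nonneg.2 (polM_pos _).le)]
  exact inv_mul_cancel₀ (polM_pos _).ne'

theorem theta_zero_one : theta 0 = theta 1 := by
  simp only [theta_eq, Nat.succ_eq_add_one, Nat.reduceAdd, polM, Icc.coe_zero, mul_zero, Real.cos_zero, abs_one, Real.sin_zero, abs_zero, zero_le_one, sup_of_le_left, inv_one, one_smul, Icc.coe_one, mul_one, Real.cos_two_pi, Real.sin_two_pi]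

theorem theta_inj {t t2 : I} (h : theta t = theta t2) :
    t = t2 ∨ (t = 0 ∧ t2 = 1) ∨ (t = 1 ∧ t2 = 0) := by
  have hp := polM_pos t
  have hp2 := polM_pos t2
  rw [theta_eq, theta_eq] at h
  have h0 := congrFun h 0
  have h1 := congrFun h 1
  simp only [Pi.smul_apply, Matrix.cons_val_zero, Matrix.cons_val_one, smul_eq_mul] at h0 h1
  set c := Real.cos (2 * Real.pi * (t : ℝ)) with hc
  set s := Real.sin (2 * Real.pi * (t : ℝ)) with hs
  set c2 := Real.cos (2 * Real.pi * (t2 : ℝ)) with hc2
  set s2 := Real.sin (2 * Real.pi * (t2 : ℝ)) with hs2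
  have e1 : s ^ 2 + c ^ 2 = 1 := Real.sin_sq_add_cos_sq _
  have e2 : s2 ^ 2 + c2 ^ 2 = 1 := Real.sin_sq_add_cos_sq _
  have e3 : ((polM t)⁻¹) ^ 2 = ((polM t2)⁻¹) ^ 2 := by
    have : ((polM t)⁻¹) ^ 2 * (s ^ 2 + c ^ 2) = ((polM t2)⁻¹) ^ 2 * (s2 ^ 2 + c2 ^ 2) := by
      have a0 : ((polM t)⁻¹ * c) ^ 2 = ((polM t2)⁻¹ * c2) ^ 2 := by rw [h0]
      have a1 : ((polM t)⁻¹ * s) ^ 2 = ((polM t2)⁻¹ * s2) ^ 2 := by rw [h1]
      rw [mul_pow, mul_pow] at a0 a1
      rw [mul_add, mul_add, a0, a1]
    rwa [e1, e2, mul_one, mul_one] at this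
  have e4 : (polM t)⁻¹ = (polM t2)⁻¹ := by
    have := (sq_eq_sq₀ (inv_nonneg.2 hp.le) (inv_nonneg.2 hp2.le)).1 e3
    exact this
  have hne : (polM t2)⁻¹ ≠ 0 := (inv_pos.2 hp2).ne'
  rw [e4] at h0 h1
  have f0 : c = c2 := mul_left_cancel₀ hne h0
  have f1 : s = s2 := mul_left_cancel₀ hne h1
  have g := Real.Angle.cos_sin_inj f0 f1
  obtain ⟨k, hk⟩ := Real.Angle.angle_eq_iff_two_pi_dvd_sub.1 g
  have hpi := Real.pi_pos
  have hk' : (t : ℝ) - t2 = k := by
    have : 2 * Real.pi * ((t : ℝ) - t2) = 2 * Real.pi * k := by linarith only [hk]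
    exact mul_left_cancel₀ (by positivity) this
  have b1 := t.2.1
  have b2 := t.2.2
  have b3 := t2.2.1
  have b4 := t2.2.2
  have k1 : (k : ℝ) ≤ 1 := by rw [← hk']; linarith only [b2, b3]
  have k2 : (-1 : ℝ) ≤ k := by rw [← hk']; linarith only [b1, b4]
  have k1' : k ≤ 1 := by exact_mod_cast k1
  have k2' : -1 ≤ k := by exact_mod_cast k2
  obtain rfl | rfl | rfl : k = -1 ∨ k = 0 ∨ k = 1 := by omega
  · right; left
    push_cast at hk'
    exact ⟨Subtype.ext (by change (t : ℝ) = 0; linarith only [b1, b4, hk']),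
      Subtype.ext (by change (t2 : ℝ) = 1; linarith only [b1, hk', b4])⟩
  · left
    push_cast at hk'
    exact Subtype.ext (by linarith only [hk'])
  · right; right
    push_cast at hk'
    exact ⟨Subtype.ext (by change (t : ℝ) = 1; linarith only [b3, hk', b2]),
      Subtype.ext (by change (t2 : ℝ) = 0; linarith only [b3, b2, hk'])⟩

theorem exists_angle (x y : ℝ) (h : 0 < Real.sqrt (x ^ 2 + y ^ 2)) :
    ∃ t : I, Real.cos (2 * Real.pi * (t : ℝ)) = x / Real.sqrt (x ^ 2 + y ^ 2) ∧
      Real.sin (2 * Real.pi * (t : ℝ)) = y / Real.sqrt (x ^ 2 + y ^ 2) := by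
  have hn : ‖(⟨x, y⟩ : ℂ)‖ = Real.sqrt (x ^ 2 + y ^ 2) := Complex.norm_eq_sqrt_sq_add_sq _
  have hne : (⟨x, y⟩ : ℂ) ≠ 0 := by
    intro h0
    rw [h0, norm_zero] at hn
    rw [← hn] at h
    exact lt_irrefl _ h
  have hpi := Real.pi_pos
  have hc : Real.cos (Complex.arg ⟨x, y⟩) = x / Real.sqrt (x ^ 2 + y ^ 2) := by
    rw [Complex.cos_arg hne, hn]
  have hs : Real.sin (Complex.arg ⟨x, y⟩) = y / Real.sqrt (x ^ 2 + y ^ 2) := by
    rw [Complex.sin_arg, hn]
  have h1 := Complex.neg_pi_lt_arg ⟨x, y⟩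
  have h2 := Complex.arg_le_pi ⟨x, y⟩
  rcases le_or_gt 0 (Complex.arg ⟨x, y⟩) with h0 | h0
  · refine ⟨⟨Complex.arg ⟨x, y⟩ / (2 * Real.pi), ?_, ?_⟩, ?_, ?_⟩
    · (clear * - h0; positivity)
    · rw [div_le_one (by positivity)]; linarith only [hpi, h2]
    · rw [← hc]; congr 1; (clear * - h0 hpi h2; field_simp)
    · rw [← hs]; congr 1; (clear * - h0 hpi h2; field_simp)
  · refine ⟨⟨(Complex.arg ⟨x, y⟩ + 2 * Real.pi) / (2 * Real.pi), ?_, ?_⟩, ?_, ?_⟩
    · apply div_nonneg <;> linarith only [h1, h0]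
    · rw [div_le_one (by positivity)]; linarith only [h0]
    · rw [← hc, ← Real.cos_add_two_pi (Complex.arg ⟨x, y⟩)]; congr 1; (clear * - h1 h0; field_simp)
    · rw [← hs, ← Real.sin_add_two_pi (Complex.arg ⟨x, y⟩)]; congr 1; (clear * - h1 h0; field_simp)

theorem exists_polar (z : Fin 2 → ℝ) (hz : ‖z‖ ≤ 1) :
    ∃ r t : I, (r : ℝ) = ‖z‖ ∧ z = (r : ℝ) • theta t := by
  by_cases h0 : z = 0
  · refine ⟨0, 0, ?_, ?_⟩
    · rw [h0, norm_zero]; rfl
    · rw [h0]; simp only [Icc.coe_zero, zero_smul]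
  have hnz : 0 < ‖z‖ := norm_pos_iff.2 h0
  have hq : 0 < Real.sqrt (z 0 ^ 2 + z 1 ^ 2) := by
    apply Real.sqrt_pos.2
    by_contra hcon
    push Not at hcon
    have h1 : z 0 = 0 := by nlinarith only [hcon]
    have h2 : z 1 = 0 := by nlinarith only [hcon]
    apply h0
    funext i
    fin_cases i
    · exact h1
    · exact h2
  obtain ⟨t, hc, hs⟩ := exists_angle (z 0) (z 1) hq
  refine ⟨⟨‖z‖, norm_nonneg _, hz⟩, t, rfl, ?_⟩
  have hM : polM t = ‖z‖ / Real.sqrt (z 0 ^ 2 + z 1 ^ 2) := by
    rw [polM, hc, hs, norm_fin_two, abs_div, abs_div, abs_of_pos hq, max_div_div_right hq.le]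
  rw [theta_eq, hM, hc, hs]
  funext i
  have hne := hnz.ne'
  have hqe := hq.ne'
  fin_cases i
  · simp only [Fin.zero_eta, Pi.smul_apply, Matrix.cons_val_zero, smul_eq_mul]
    field_simp
  · simp only [Fin.mk_one, Pi.smul_apply, Matrix.cons_val_one, Matrix.cons_val_fin_one,
      smul_eq_mul]
    (clear * - hne hqe; field_simp)

end Vale.Agent.P173.Topo
end
end

section

section

/-! # P173, topology bridge, module M2b: Mathlib CW complexes of dimension at most two -/

open Set Topology unitInterval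

namespace Vale.Agent.P173.Topo

universe u v w

section M2b

variable {Z : Type u} [TopologicalSpace Z] [CWComplex (univ : Set Z)]

/-- the vertices -/
noncomputable def cwVert (v : RelCWComplex.cell (univ : Set Z) 0) : Z :=
  RelCWComplex.map 0 v ![]

/-- the edges -/
noncomputable def cwEdge (e : RelCWComplex.cell (univ : Set Z) 1) (s : I) : Z :=
  RelCWComplex.map 1 e (fun _ => 2 * (s : ℝ) - 1)

/-- the faces -/
noncomputable def cwFace (f : RelCWComplex.cell (univ : Set Z) 2) (q : I × I) : Z :=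
  RelCWComplex.map 2 f ((q.1 : ℝ) • theta q.2)

theorem norm_seg (s : I) : ‖(fun _ : Fin 1 => 2 * (s : ℝ) - 1)‖ = |2 * (s : ℝ) - 1| := by
  rw [pi_norm_const, Real.norm_eq_abs]

theorem norm_seg_le (s : I) : ‖(fun _ : Fin 1 => 2 * (s : ℝ) - 1)‖ ≤ 1 := by
  rw [norm_seg, abs_le]
  constructor <;> linarith [s.2.1, s.2.2]

theorem norm_seg_lt {s : I} (h0 : s ≠ 0) (h1 : s ≠ 1) :
    ‖(fun _ : Fin 1 => 2 * (s : ℝ) - 1)‖ < 1 := by
  rw [norm_seg, abs_lt]
  have h0' : 0 < (s : ℝ) := unitInterval.pos_iff_ne_zero.2 h0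
  have h1' : (s : ℝ) < 1 := unitInterval.lt_one_iff_ne_one.2 h1
  constructor <;> linarith

theorem norm_pol (q : I × I) : ‖(q.1 : ℝ) • theta q.2‖ = q.1 := by
  rw [norm_smul, norm_theta, mul_one, Real.norm_of_nonneg q.1.2.1]

theorem continuous_cwEdge (e : RelCWComplex.cell (univ : Set Z) 1) : Continuous (cwEdge e) := by
  refine (RelCWComplex.continuousOn 1 e).comp_continuous (by fun_prop) fun s => ?_
  rw [Metric.mem_closedBall, dist_zero_right]
  exact norm_seg_le s

theorem continuous_cwFace (f : RelCWComplex.cell (univ : Set Z) 2) : Continuous (cwFace f) := by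
  refine (RelCWComplex.continuousOn 2 f).comp_continuous ?_ fun q => ?_
  · exact (continuous_subtype_val.comp continuous_fst).smul
      (continuous_theta.comp continuous_snd)
  · rw [Metric.mem_closedBall, dist_zero_right, norm_pol]
    exact q.1.2.2

theorem vert_mem (v : RelCWComplex.cell (univ : Set Z) 0) :
    cwVert v ∈ RelCWComplex.openCell 0 v := by
  rw [CWComplex.openCell_zero_eq_singleton]
  rfl

theorem mem_openCell_zero {v : RelCWComplex.cell (univ : Set Z) 0} {x : Z}
    (h : x ∈ RelCWComplex.openCell 0 v) : x = cwVert v := by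
  rw [CWComplex.openCell_zero_eq_singleton] at h
  exact h

theorem edge_mem {e : RelCWComplex.cell (univ : Set Z) 1} {s : I} (h0 : s ≠ 0) (h1 : s ≠ 1) :
    cwEdge e s ∈ RelCWComplex.openCell 1 e := by
  refine ⟨_, ?_, rfl⟩
  rw [Metric.mem_ball, dist_zero_right]
  exact norm_seg_lt h0 h1

theorem face_mem {f : RelCWComplex.cell (univ : Set Z) 2} {q : I × I} (h : q.1 ≠ 1) :
    cwFace f q ∈ RelCWComplex.openCell 2 f := by
  refine ⟨_, ?_, rfl⟩
  rw [Metric.mem_ball, dist_zero_right, norm_pol]
  exact unitInterval.lt_one_iff_ne_one.2 h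

theorem closedCell_one (e : RelCWComplex.cell (univ : Set Z) 1) :
    RelCWComplex.closedCell 1 e = range (cwEdge e) := by
  ext x
  constructor
  · rintro ⟨z, hz, rfl⟩
    rw [Metric.mem_closedBall, dist_zero_right] at hz
    have h1 : |z 0| ≤ 1 := (norm_le_pi_norm z 0).trans hz
    rw [abs_le] at h1
    refine ⟨⟨(z 0 + 1) / 2, by linarith, by linarith⟩, ?_⟩
    unfold cwEdge
    congr 1
    funext i
    rw [Subsingleton.elim i 0]
    simp only
    ring
  · rintro ⟨s, rfl⟩
    refine ⟨_, ?_, rfl⟩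
    rw [Metric.mem_closedBall, dist_zero_right]
    exact norm_seg_le s

theorem closedCell_two (f : RelCWComplex.cell (univ : Set Z) 2) :
    RelCWComplex.closedCell 2 f = range (cwFace f) := by
  ext x
  constructor
  · rintro ⟨z, hz, rfl⟩
    rw [Metric.mem_closedBall, dist_zero_right] at hz
    obtain ⟨r, t, -, h⟩ := exists_polar z hz
    exact ⟨(r, t), by rw [h]; rfl⟩
  · rintro ⟨q, rfl⟩
    refine ⟨_, ?_, rfl⟩
    rw [Metric.mem_closedBall, dist_zero_right, norm_pol]
    exact q.1.2.2

theorem frontier_one {e : RelCWComplex.cell (univ : Set Z) 1} {x : Z}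
    (h : x ∈ RelCWComplex.cellFrontier 1 e) : ∃ v, x = cwVert v := by
  obtain ⟨J, hI⟩ := CWComplex.cellFrontier_subset_finite_openCell 1 e
  have := hI h
  simp only [mem_iUnion, exists_prop] at this
  obtain ⟨m, hm, v, -, hx⟩ := this
  obtain rfl : m = 0 := by omega
  exact ⟨v, mem_openCell_zero hx⟩

theorem edge_end {e : RelCWComplex.cell (univ : Set Z) 1} {s : I} (h : s = 0 ∨ s = 1) :
    ∃ v, cwEdge e s = cwVert v := by
  refine frontier_one (e := e) ⟨_, ?_, rfl⟩
  rw [mem_sphere_zero_iff_norm, norm_seg]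
  rcases h with rfl | rfl
  · norm_num
  · norm_num

/-- every point on an edge is a vertex or in the open edge -/
theorem edge_cases (e : RelCWComplex.cell (univ : Set Z) 1) (s : I) :
    (∃ v, cwEdge e s = cwVert v) ∨ (s ≠ 0 ∧ s ≠ 1 ∧ cwEdge e s ∈ RelCWComplex.openCell 1 e) := by
  by_cases h0 : s = 0
  · exact Or.inl (edge_end (Or.inl h0))
  · by_cases h1 : s = 1
    · exact Or.inl (edge_end (Or.inr h1))
    · exact Or.inr ⟨h0, h1, edge_mem h0 h1⟩

theorem open_ne {n m : ℕ} {i : RelCWComplex.cell (univ : Set Z) n}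
    {j : RelCWComplex.cell (univ : Set Z) m} {x : Z} (h : x ∈ RelCWComplex.openCell n i)
    (h' : x ∈ RelCWComplex.openCell m j) :
    (⟨n, i⟩ : Σ n, RelCWComplex.cell (univ : Set Z) n) = ⟨m, j⟩ := by
  by_contra hne
  exact disjoint_left.1 (CWComplex.disjoint_openCell_of_ne hne) h h'

theorem edge_ne_vert {e : RelCWComplex.cell (univ : Set Z) 1} {s : I}
    {v : RelCWComplex.cell (univ : Set Z) 0} (h : cwEdge e s = cwVert v) : s = 0 ∨ s = 1 := by
  by_contra hcon
  push Not at hcon
  have h1 := edge_mem (e := e) hcon.1 hcon.2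
  rw [h] at h1
  have := open_ne h1 (vert_mem v)
  simp at this

theorem face_not_mem {f : RelCWComplex.cell (univ : Set Z) 2} {q : I × I} (hq : q.1 ≠ 1)
    {m : ℕ} (hm : m < 2) {j : RelCWComplex.cell (univ : Set Z) m}
    (h : cwFace f q ∈ RelCWComplex.openCell m j) : False := by
  have := open_ne (face_mem (f := f) hq) h
  have h2 := congrArg Sigma.fst this
  simp only at h2
  omega

theorem face_one_mem' {f : RelCWComplex.cell (univ : Set Z) 2} {q : I × I} (hq : q.1 = 1) :
    cwFace f q ∈ RelCWComplex.cellFrontier 2 f := by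
  refine ⟨_, ?_, rfl⟩
  rw [mem_sphere_zero_iff_norm, norm_pol, hq]
  rfl

theorem map_inj {n : ℕ} (i : RelCWComplex.cell (univ : Set Z) n) {a b : Fin n → ℝ}
    (ha : ‖a‖ < 1) (hb : ‖b‖ < 1) (h : RelCWComplex.map n i a = RelCWComplex.map n i b) : a = b := by
  refine (RelCWComplex.map n i).injOn ?_ ?_ h
  · rw [RelCWComplex.source_eq, Metric.mem_ball, dist_zero_right]; exact ha
  · rw [RelCWComplex.source_eq, Metric.mem_ball, dist_zero_right]; exact hb

theorem closed_edge [T2Space Z] {A : Set Z} (e : RelCWComplex.cell (univ : Set Z) 1)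
    (h : IsClosed (cwEdge e ⁻¹' A)) : IsClosed (A ∩ RelCWComplex.closedCell 1 e) := by
  rw [closedCell_one, ← image_preimage_eq_inter_range]
  exact (h.isCompact.image (continuous_cwEdge e)).isClosed

theorem closed_face [T2Space Z] {A : Set Z} (f : RelCWComplex.cell (univ : Set Z) 2)
    (h : IsClosed (cwFace f ⁻¹' A)) : IsClosed (A ∩ RelCWComplex.closedCell 2 f) := by
  rw [closedCell_two, ← image_preimage_eq_inter_range]
  exact (h.isCompact.image (continuous_cwFace f)).isClosed

theorem disjoint_face {A : Set Z}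
    (hA : A ⊆ range (cwVert (Z := Z)) ∪ ⋃ e, range (cwEdge (Z := Z) e))
    (f : RelCWComplex.cell (univ : Set Z) 2) : Disjoint A (RelCWComplex.openCell 2 f) := by
  rw [disjoint_left]
  intro x hx hf
  rcases hA hx with ⟨v, rfl⟩ | h
  · have := open_ne hf (vert_mem v)
    simp at this
  · rw [mem_iUnion] at h
    obtain ⟨e, s, rfl⟩ := h
    rcases edge_cases e s with ⟨v, hv⟩ | ⟨-, -, h⟩
    · rw [hv] at hf
      have := open_ne hf (vert_mem v)
      simp at this
    · have := open_ne hf h
      simp at this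

theorem exists_Cx {Z : Type u} [TopologicalSpace Z] [T2Space Z] [CWComplex (univ : Set Z)]
    (hdim : ∀ n > 2, IsEmpty (RelCWComplex.cell (univ : Set Z) n)) : Nonempty (Cx Z) := by
  choose src hsrc using fun e : RelCWComplex.cell (univ : Set Z) 1 =>
    edge_end (e := e) (s := 0) (Or.inl rfl)
  choose tgt htgt using fun e : RelCWComplex.cell (univ : Set Z) 1 =>
    edge_end (e := e) (s := 1) (Or.inr rfl)
  refine ⟨{
    V := RelCWComplex.cell (univ : Set Z) 0
    Ed := RelCWComplex.cell (univ : Set Z) 1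
    Fa := RelCWComplex.cell (univ : Set Z) 2
    vert := cwVert
    edge := cwEdge
    face := cwFace
    src := src
    tgt := tgt
    edge_cont := continuous_cwEdge
    face_cont := continuous_cwFace
    edge_zero := hsrc
    edge_one := htgt
    face_zero := ?_
    face_wrap := ?_
    vert_inj := CWComplex.injective_map_zero (univ : Set Z)
    edge_vert := fun e s v h => edge_ne_vert h
    edge_inj := ?_
    face_vert := ?_
    face_edge := ?_
    face_inj := ?_
    face_bdry := ?_
    cover := ?_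
    closed1 := ?_
    closed2 := ?_ }⟩
  · intro f t t'
    simp only [cwFace, Icc.coe_zero, zero_smul]
  · intro f r
    simp only [cwFace, theta_zero_one]
  · intro e s e' s' h h0 h1
    have hm := edge_mem (e := e) h0 h1
    rcases edge_cases e' s' with ⟨v, hv⟩ | ⟨h0', h1', hm'⟩
    · rw [h, hv] at hm
      have := open_ne hm (vert_mem v)
      simp at this
    · rw [← h] at hm'
      have := open_ne hm hm'
      simp only [Sigma.mk.injEq, heq_eq_eq, true_and] at this
      subst this
      refine ⟨rfl, ?_⟩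
      have h2 : 2 * (s : ℝ) - 1 = 2 * (s' : ℝ) - 1 :=
        congrFun (map_inj e (norm_seg_lt h0 h1) (norm_seg_lt h0' h1') h) 0
      exact Subtype.ext (by linarith only [h2])
  · intro f r t v h
    by_contra hr
    refine face_not_mem (f := f) (q := (r, t)) hr (m := 0) (by norm_num) (j := v) ?_
    rw [h]
    exact vert_mem v
  · intro f r t e s h
    by_contra hr
    rcases edge_cases e s with ⟨v, hv⟩ | ⟨-, -, hm⟩
    · refine face_not_mem (f := f) (q := (r, t)) hr (m := 0) (by norm_num) (j := v) ?_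
      rw [h, hv]
      exact vert_mem v
    · refine face_not_mem (f := f) (q := (r, t)) hr (m := 1) (by norm_num) (j := e) ?_
      rw [h]
      exact hm
  · intro f r t f' r' t' h hr
    by_cases hr' : r' = 1
    · exfalso
      have h1 := face_one_mem' (f := f') (q := (r', t')) hr'
      obtain ⟨J, hI⟩ := CWComplex.cellFrontier_subset_finite_openCell 2 f'
      have h2 := hI h1
      simp only [mem_iUnion, exists_prop] at h2
      obtain ⟨m, hm, j, -, hx⟩ := h2
      exact face_not_mem (f := f) (q := (r, t)) hr hm (j := j) (by rw [h]; exact hx)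
    · have hm := face_mem (f := f) (q := (r, t)) hr
      have hm' := face_mem (f := f') (q := (r', t')) hr'
      rw [← h] at hm'
      have := open_ne hm hm'
      simp only [Sigma.mk.injEq, heq_eq_eq, true_and] at this
      subst this
      have h2 := map_inj f (a := (r : ℝ) • theta t) (b := (r' : ℝ) • theta t')
        (by rw [norm_pol (r, t)]; exact unitInterval.lt_one_iff_ne_one.2 hr)
        (by rw [norm_pol (r', t')]; exact unitInterval.lt_one_iff_ne_one.2 hr') h
      have h3 : (r : ℝ) = r' := by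
        rw [← norm_pol (r, t), ← norm_pol (r', t')]
        exact congrArg _ h2
      have h4 : r = r' := Subtype.ext h3
      subst h4
      refine ⟨rfl, rfl, ?_⟩
      by_cases h0 : r = 0
      · exact Or.inl h0
      · right
        have h5 : (r : ℝ) ≠ 0 := fun h => h0 (Subtype.ext h)
        exact theta_inj (smul_right_injective _ h5 h2)
  · intro f
    obtain ⟨J, hI⟩ := CWComplex.cellFrontier_subset_finite_closedCell 2 f
    refine ⟨J 1, fun t => ?_⟩
    have h2 := hI (face_one_mem' (f := f) (q := (1, t)) rfl)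
    simp only [mem_iUnion, exists_prop] at h2
    obtain ⟨m, hm, j, hj, hx⟩ := h2
    have hm' : m = 0 ∨ m = 1 := by omega
    rcases hm' with rfl | rfl
    · left
      rw [CWComplex.closedCell_zero_eq_singleton] at hx
      exact ⟨j, hx.symm⟩
    · right
      rw [closedCell_one] at hx
      simp only [mem_iUnion, exists_prop]
      exact ⟨j, hj, hx⟩
  · intro x
    have hx : x ∈ ⋃ (n : ℕ) (j : RelCWComplex.cell (univ : Set Z) n), RelCWComplex.openCell n j := by
      rw [CWComplex.iUnion_openCell_eq_complex]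
      exact mem_univ x
    simp only [mem_iUnion] at hx
    obtain ⟨n, j, hx⟩ := hx
    have hn : n = 0 ∨ n = 1 ∨ n = 2 ∨ n > 2 := by omega
    rcases hn with rfl | rfl | rfl | hn
    · exact Or.inl (Or.inl ⟨j, (mem_openCell_zero hx).symm⟩)
    · left
      right
      have := CWComplex.openCell_subset_closedCell 1 j hx
      rw [closedCell_one] at this
      exact mem_iUnion.2 ⟨j, this⟩
    · right
      obtain ⟨z, hz, rfl⟩ := hx
      rw [Metric.mem_ball, dist_zero_right] at hz
      obtain ⟨r, t, hr, h⟩ := exists_polar z hz.le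
      refine ⟨j, r, t, ?_, ?_⟩
      · intro h1
        rw [h1] at hr
        rw [← hr] at hz
        exact lt_irrefl _ hz
      · rw [h]
        rfl
    · exact ((hdim n hn).false j).elim
  · intro A hA h
    refine CWComplex.isClosed_of_disjoint_openCell_or_isClosed_inter_closedCell
      (subset_univ A) fun n hn j => ?_
    have hn : n = 1 ∨ n = 2 ∨ n > 2 := by omega
    rcases hn with rfl | rfl | hn
    · exact Or.inr (closed_edge j (h j))
    · exact Or.inl (disjoint_face hA j)
    · exact ((hdim n hn).false j).elim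
  · intro A h h'
    refine CWComplex.isClosed_of_disjoint_openCell_or_isClosed_inter_closedCell
      (subset_univ A) fun n hn j => ?_
    have hn : n = 1 ∨ n = 2 ∨ n > 2 := by omega
    rcases hn with rfl | rfl | hn
    · exact Or.inr (closed_edge j (h j))
    · exact Or.inr (closed_face j (h' j))
    · exact ((hdim n hn).false j).elim

end M2b

end Vale.Agent.P173.Topo
end
end

section

section

/-! # P173, topology bridge, module M3: lifting through coverings and the deck group -/

open Set Topology unitInterval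

namespace Vale.Agent.P173.Topo

universe u v w

section M3

/-- unique path lifting (existence) -/
theorem exists_path_lift {Y : Type v} {B : Type w}
    [TopologicalSpace Y] [TopologicalSpace B] {q : Y → B}
    (hq : IsCoveringMap q) (g : I → B) (hg : Continuous g) (y₀ : Y) (h : q y₀ = g 0) :
    ∃ g' : I → Y, Continuous g' ∧ (∀ t, q (g' t) = g t) ∧ g' 0 = y₀ := by
  obtain ⟨Γ, h1, h2⟩ := hq.exists_path_lifts ⟨g, hg⟩ y₀ h.symm
  exact ⟨Γ, Γ.continuous, fun t => congr_fun h1 t, h2⟩

/-- unique lifting (uniqueness) -/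
theorem lift_unique {E : Type u} {Y : Type v} {B : Type w} [TopologicalSpace E]
    [TopologicalSpace Y] [TopologicalSpace B] [PreconnectedSpace E] {q : Y → B}
    (hq : IsCoveringMap q) {g g' : E → Y} (hg : Continuous g) (hg' : Continuous g')
    (h : ∀ x, q (g x) = q (g' x)) (e₀ : E) (h₀ : g e₀ = g' e₀) : g = g' :=
  hq.eq_of_comp_eq hg hg' (funext h) e₀ h₀

/-- path lifting with prescribed end point -/
theorem exists_path_lift_one {Y : Type v} {B : Type w}
    [TopologicalSpace Y] [TopologicalSpace B] {q : Y → B}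
    (hq : IsCoveringMap q) (g : I → B) (hg : Continuous g) (y₀ : Y) (h : q y₀ = g 1) :
    ∃ g' : I → Y, Continuous g' ∧ (∀ t, q (g' t) = g t) ∧ g' 1 = y₀ := by
  obtain ⟨g', h1, h2, h3⟩ := exists_path_lift hq (fun t => g (unitInterval.symm t))
    (hg.comp unitInterval.continuous_symm) y₀ (by simpa using h)
  refine ⟨fun t => g' (unitInterval.symm t), h1.comp unitInterval.continuous_symm, fun t => ?_, ?_⟩
  · simpa using h2 (unitInterval.symm t)
  · simpa using h3

/-- homotopy lifting with starting map a constant -/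
theorem exists_homotopy_lift {A : Type u} {Y : Type v} {B : Type w} [TopologicalSpace A]
    [TopologicalSpace Y] [TopologicalSpace B] {q : Y → B}
    (hq : IsCoveringMap q) (g : I × A → B) (hg : Continuous g) (y₁ : Y)
    (h : ∀ a, g (0, a) = q y₁) :
    ∃ g' : I × A → Y, Continuous g' ∧ (∀ t, q (g' t) = g t) ∧ ∀ a, g' (0, a) = y₁ :=
  ⟨hq.liftHomotopy ⟨g, hg⟩ (ContinuousMap.const A y₁) h, (hq.liftHomotopy _ _ h).continuous,
    fun t => congr_fun (hq.liftHomotopy_lifts ⟨g, hg⟩ (ContinuousMap.const A y₁) h) t,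
    fun a => hq.liftHomotopy_zero ⟨g, hg⟩ (ContinuousMap.const A y₁) h a⟩

theorem exists_lift_of_contractible {E : Type u} {Y : Type v} {B : Type w} [TopologicalSpace E]
    [TopologicalSpace Y] [TopologicalSpace B] [ContractibleSpace E] {q : Y → B}
    (hq : IsCoveringMap q) (g : E → B) (hg : Continuous g) (e₀ : E) (y₀ : Y) (h : q y₀ = g e₀) :
    ∃ g' : E → Y, Continuous g' ∧ (∀ x, q (g' x) = g x) ∧ g' e₀ = y₀ := by
  obtain ⟨y, ⟨H0⟩⟩ := id_nullhomotopic E
  let H : ContinuousMap.Homotopy (ContinuousMap.const E y) (ContinuousMap.id E) := H0.symm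
  have hH0 : ∀ x, H (0, x) = y := fun x => H.apply_zero x
  have hH1 : ∀ x, H (1, x) = x := fun x => H.apply_one x
  have hc : Continuous fun t : I => g (H (t, e₀)) :=
    hg.comp (H.continuous.comp (Continuous.prodMk_left e₀))
  obtain ⟨Γ, hΓ, hΓ1, hΓ2⟩ := exists_path_lift_one hq (fun t => g (H (t, e₀))) hc y₀
    (by simpa [hH1] using h)
  obtain ⟨G, hG, hG1, hG2⟩ := exists_homotopy_lift hq (fun t : I × E => g (H t))
    (hg.comp H.continuous) (Γ 0) (fun a => by rw [hΓ1, hH0, hH0])
  refine ⟨fun x => G (1, x), hG.comp (Continuous.prodMk_right 1), fun x => ?_, ?_⟩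
  · rw [hG1, hH1]
  · have := lift_unique hq (g := fun t => G (t, e₀)) (g' := Γ)
      (hG.comp (Continuous.prodMk_left e₀)) hΓ (fun t => by rw [hG1, hΓ1]) 0 (hG2 e₀)
    exact (congr_fun this 1).trans hΓ2

/-- lifting of polar discs -/
theorem exists_polar_lift {Y : Type v} {B : Type w}
    [TopologicalSpace Y] [TopologicalSpace B] {q : Y → B}
    (hq : IsCoveringMap q) (g : I × I → B) (hg : Continuous g)
    (h0 : ∀ t t', g (0, t) = g (0, t')) (hw : ∀ r, g (r, 0) = g (r, 1))
    (y₀ : Y) (h : q y₀ = g (1, 0)) :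
    ∃ g' : I × I → Y, Continuous g' ∧ (∀ t, q (g' t) = g t) ∧ g' (1, 0) = y₀ ∧
      (∀ t t', g' (0, t) = g' (0, t')) ∧ (∀ r, g' (r, 0) = g' (r, 1)) := by
  obtain ⟨Γ, hΓ, hΓ1, hΓ2⟩ := exists_path_lift_one hq (fun r => g (r, 0))
    (hg.comp (Continuous.prodMk_left 0)) y₀ h
  obtain ⟨G, hG, hG1, hG2⟩ := exists_homotopy_lift hq g hg (Γ 0) (fun a => by rw [hΓ1, h0 a 0])
  refine ⟨G, hG, hG1, ?_, fun t t' => by rw [hG2, hG2], fun r => ?_⟩
  · have := lift_unique hq (g := fun r => G (r, 0)) (g' := Γ)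
      (hG.comp (Continuous.prodMk_left 0)) hΓ (fun t => by rw [hG1, hΓ1]) 0 (hG2 0)
    exact (congr_fun this 1).trans hΓ2
  · have := lift_unique hq (g := fun r => G (r, 0)) (g' := fun r => G (r, 1))
      (hG.comp (Continuous.prodMk_left 0)) (hG.comp (Continuous.prodMk_left 1))
      (fun r => by rw [hG1, hG1, hw]) 0 (by rw [hG2, hG2])
    exact congr_fun this r

theorem t2Space_of_covering {E : Type u} {Z : Type v} [TopologicalSpace E] [TopologicalSpace Z]
    [T2Space Z] {p : E → Z} (hp : IsCoveringMap p) : T2Space E := by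
  refine ⟨fun x y hxy => ?_⟩
  by_cases h : p x = p y
  · exact hp.isSeparatedMap x y h hxy
  · obtain ⟨u, v, hu, hv, hxu, hyv, huv⟩ := t2_separation h
    exact ⟨p ⁻¹' u, p ⁻¹' v, hu.preimage hp.continuous, hv.preimage hp.continuous, hxu, hyv,
      huv.preimage p⟩

/-- The deck group of a map. -/
def Deck {E : Type v} {Z : Type u} [TopologicalSpace E] (p : E → Z) : Subgroup (E ≃ₜ E) where
  carrier := {h | ∀ x, p (h x) = p x}
  one_mem' := fun _ => rfl
  mul_mem' := by
    intro a b ha hb x
    change p (a (b x)) = p x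
    rw [ha, hb]
  inv_mem' := by
    intro a ha x
    change p (a.symm x) = p x
    rw [← ha (a.symm x), Homeomorph.apply_symm_apply]

/-- the action of the deck group -/
instance deckAction {E : Type v} {Z : Type u} [TopologicalSpace E] (p : E → Z) :
    MulAction (Deck p) E where
  smul h x := h.1 x
  one_smul _ := rfl
  mul_smul _ _ _ := rfl

theorem deck_smul {E : Type v} {Z : Type u} [TopologicalSpace E] (p : E → Z) (h : Deck p) (x : E) :
    h • x = h.1 x := rfl

theorem exists_deck {E : Type v} {Z : Type u} [TopologicalSpace E] [TopologicalSpace Z]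
    [ContractibleSpace E] {p : E → Z} (hp : IsCoveringMap p) {e₁ e₂ : E} (h : p e₁ = p e₂) :
    ∃ d : Deck p, d • e₂ = e₁ := by
  obtain ⟨a, ha, ha1, ha2⟩ := exists_lift_of_contractible hp p hp.continuous e₂ e₁ h
  obtain ⟨b, hb, hb1, hb2⟩ := exists_lift_of_contractible hp p hp.continuous e₁ e₂ h.symm
  have hba : (fun x => b (a x)) = id :=
    lift_unique hp (hb.comp ha) continuous_id (fun x => by rw [hb1, ha1]; rfl) e₂
      (by simp [ha2, hb2])
  have hab : (fun x => a (b x)) = id :=
    lift_unique hp (ha.comp hb) continuous_id (fun x => by rw [ha1, hb1]; rfl) e₁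
      (by simp [ha2, hb2])
  exact ⟨⟨⟨⟨a, b, congr_fun hba, congr_fun hab⟩, ha, hb⟩, ha1⟩, ha2⟩

theorem isQuotientCoveringMap_deck {E : Type v} {Z : Type u} [TopologicalSpace E]
    [TopologicalSpace Z] [ContractibleSpace E] [PathConnectedSpace Z] {p : E → Z}
    (hp : IsCoveringMap p) : IsQuotientCoveringMap p (Deck p) := by
  rw [isQuotientCoveringMap_iff_isCoveringMap_and]
  have hfree : ∀ (d d' : Deck p) (x : E), d • x = d' • x → d = d' := by
    intro d d' x hx
    have := lift_unique hp (g := d.1) (g' := d'.1) d.1.continuous d'.1.continuous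
      (fun y => by rw [d.2 y, d'.2 y]) x hx
    exact Subtype.ext (Homeomorph.ext (congr_fun this))
  refine ⟨hp, ?_, ⟨fun d => d.1.continuous⟩, ⟨fun d d' x hx => hfree d d' x hx⟩, ?_⟩
  · intro z
    obtain ⟨e₀⟩ : Nonempty E := inferInstance
    obtain ⟨γ⟩ := PathConnectedSpace.joined (p e₀) z
    obtain ⟨g', -, h2, -⟩ := exists_path_lift hp γ γ.continuous e₀ (by simp)
    exact ⟨g' 1, by rw [h2]; simp⟩
  · intro e₁ e₂
    constructor
    · intro h
      obtain ⟨d, hd⟩ := exists_deck hp h
      exact ⟨d, hd⟩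
    · rintro ⟨d, hd⟩
      rw [← hd]
      exact d.2 e₂

theorem exists_action {E : Type v} {Z : Type u} [TopologicalSpace E] [TopologicalSpace Z]
    [ContractibleSpace E] [PathConnectedSpace Z] {p : E → Z} (hp : IsCoveringMap p)
    (z : Z) {Γ : Type} [Group Γ] (e : FundamentalGroup Z z ≃* Γ) :
    ∃ _ : MulAction Γ E, IsQuotientCoveringMap p Γ := by
  have hq := isQuotientCoveringMap_deck hp
  obtain ⟨x, hx⟩ := hq.surjective z
  let φ : Γ ≃* Deck p :=
    e.symm.trans ((hq.fundamentalGroupEquiv (x := z) ⟨x, hx⟩).trans (MulEquiv.inv' (Deck p)).symm)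
  let A : MulAction Γ E := MulAction.compHom E φ.toMonoidHom
  refine ⟨A, ?_⟩
  have hA : ∀ (g : Γ) (y : E), g • y = φ g • y := fun g y => rfl
  rw [isQuotientCoveringMap_iff_isCoveringMap_and] at hq ⊢
  obtain ⟨h1, h2, h3, h4, h5⟩ := hq
  refine ⟨h1, h2, ⟨fun g => ?_⟩, ⟨fun g g' y h => ?_⟩, fun {e₁ e₂} => ?_⟩
  · simp only [hA]
    exact h3.continuous_const_smul (φ g)
  · simp only [hA] at h
    exact φ.injective (h4.right_cancel' _ _ _ h)
  · rw [h5]
    constructor
    · rintro ⟨d, hd⟩
      refine ⟨φ.symm d, ?_⟩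
      simp only [hA, MulEquiv.apply_symm_apply]
      exact hd
    · rintro ⟨g, hg⟩
      exact ⟨φ g, hg⟩

end M3

end Vale.Agent.P173.Topo
end
end

section

section

/-! # P173, topology bridge: gluing lemmas for cell complexes of dimension at most two -/

open Set Topology unitInterval

namespace Vale.Agent.P173.Topo

universe u v w

section Glue

variable {Z : Type u} [TopologicalSpace Z] (c : Cx Z)

theorem Cx.exists_pos {x : Z} (hx : x ∈ c.Z1) : ∃ q : c.Pos, q.at = x := by
  rcases hx with ⟨v, rfl⟩ | hx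
  · exact ⟨.ver v, rfl⟩
  · obtain ⟨e, s, rfl⟩ := mem_iUnion.1 hx
    exact ⟨.arc e s, rfl⟩

theorem Cx.vert_mem (v : c.V) : c.vert v ∈ c.Z1 := Or.inl ⟨v, rfl⟩

theorem Cx.edge_mem (e : c.Ed) (s : I) : c.edge e s ∈ c.Z1 := Or.inr (mem_iUnion.2 ⟨e, s, rfl⟩)

theorem Cx.pos_mem (q : c.Pos) : q.at ∈ c.Z1 := by
  cases q with
  | ver v => exact c.vert_mem v
  | arc e s => exact c.edge_mem e s

theorem Cx.face_one_mem (f : c.Fa) (t : I) : c.face f (1, t) ∈ c.Z1 := by
  obtain ⟨S, hS⟩ := c.face_bdry f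
  rcases hS t with h | h
  · exact Or.inl h
  · obtain ⟨e, he⟩ := mem_iUnion.1 h
    obtain ⟨_, he⟩ := mem_iUnion.1 he
    exact Or.inr (mem_iUnion.2 ⟨e, he⟩)

theorem Cx.face_notMem (f : c.Fa) {r : I} (t : I) (hr : r ≠ 1) : c.face f (r, t) ∉ c.Z1 := by
  rintro (⟨v, hv⟩ | h)
  · exact hr (c.face_vert f r t v hv.symm)
  · obtain ⟨e, s, hs⟩ := mem_iUnion.1 h
    exact hr (c.face_edge f r t e s hs.symm)

theorem Cx.isClosed_of_subset {A : Set Z} (hA : A ⊆ c.Z1) (h : ∀ e, IsClosed (c.edge e ⁻¹' A)) :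
    IsClosed A := c.closed1 A hA h

theorem Cx.glue1 {Y : Type w} [TopologicalSpace Y] [Nonempty Y] (av : c.V → Y) (ae : c.Ed → I → Y)
    (hae : ∀ e, Continuous (ae e)) (h0 : ∀ e, ae e 0 = av (c.src e))
    (h1 : ∀ e, ae e 1 = av (c.tgt e)) :
    ∃ g : Z → Y, ContinuousOn g c.Z1 ∧ (∀ v, g (c.vert v) = av v) ∧
      ∀ e s, g (c.edge e s) = ae e s := by
  classical
  let g : Z → Y := fun x =>
    if h : ∃ v, c.vert v = x then av h.choose
    else if h : ∃ q : c.Ed × I, c.edge q.1 q.2 = x then ae h.choose.1 h.choose.2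
    else Classical.arbitrary Y
  have hgv : ∀ v, g (c.vert v) = av v := by
    intro v
    have h : ∃ v', c.vert v' = c.vert v := ⟨v, rfl⟩
    show (if h : ∃ v', c.vert v' = c.vert v then _ else _) = _
    rw [dif_pos h]
    exact congrArg av (c.vert_inj h.choose_spec)
  have hge : ∀ e s, g (c.edge e s) = ae e s := by
    intro e s
    by_cases hs0 : s = 0
    · rw [hs0, c.edge_zero, hgv, h0]
    by_cases hs1 : s = 1
    · rw [hs1, c.edge_one, hgv, h1]
    have hnv : ¬ ∃ v, c.vert v = c.edge e s := by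
      rintro ⟨v, hv⟩
      rcases c.edge_vert e s v hv.symm with h | h
      · exact hs0 h
      · exact hs1 h
    have h : ∃ q : c.Ed × I, c.edge q.1 q.2 = c.edge e s := ⟨(e, s), rfl⟩
    show (if h : ∃ v', c.vert v' = c.edge e s then _ else _) = _
    rw [dif_neg hnv, dif_pos h]
    obtain ⟨h2, h3⟩ := c.edge_inj e s _ _ h.choose_spec.symm hs0 hs1
    rw [← h2, ← h3]
  refine ⟨g, ?_, hgv, hge⟩
  rw [continuousOn_iff_isClosed]
  intro t ht
  refine ⟨g ⁻¹' t ∩ c.Z1, c.closed1 _ inter_subset_right fun e => ?_, by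
    rw [inter_assoc, inter_self]⟩
  have : c.edge e ⁻¹' (g ⁻¹' t ∩ c.Z1) = ae e ⁻¹' t := by
    ext s
    simp only [mem_preimage, mem_inter_iff, hge]
    exact ⟨fun h => h.1, fun h => ⟨h, c.edge_mem e s⟩⟩
  rw [this]
  exact ht.preimage (hae e)

theorem Cx.glue2 {Y : Type w} [TopologicalSpace Y] (g₁ : Z → Y) (hg₁ : ContinuousOn g₁ c.Z1)
    (af : c.Fa → I × I → Y) (haf : ∀ f, Continuous (af f))
    (h0 : ∀ f t t', af f (0, t) = af f (0, t')) (hw : ∀ f r, af f (r, 0) = af f (r, 1))
    (h1 : ∀ f t, af f (1, t) = g₁ (c.face f (1, t))) :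
    ∃ g : Z → Y, Continuous g ∧ EqOn g g₁ c.Z1 ∧ ∀ f q, g (c.face f q) = af f q := by
  classical
  let g : Z → Y := fun x =>
    if x ∈ c.Z1 then g₁ x
    else if h : ∃ q : c.Fa × (I × I), c.face q.1 q.2 = x then af h.choose.1 h.choose.2
    else g₁ x
  have hg1 : EqOn g g₁ c.Z1 := by
    intro x hx
    show (if x ∈ c.Z1 then _ else _) = _
    rw [if_pos hx]
  have hgf : ∀ f q, g (c.face f q) = af f q := by
    rintro f ⟨r, t⟩
    by_cases hr : r = 1
    · subst hr
      rw [hg1 (c.face_one_mem f t), h1]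
    have hn := c.face_notMem f t hr
    have h : ∃ q : c.Fa × (I × I), c.face q.1 q.2 = c.face f (r, t) := ⟨(f, (r, t)), rfl⟩
    show (if c.face f (r, t) ∈ c.Z1 then _ else _) = _
    rw [if_neg hn, dif_pos h]
    obtain ⟨h2, h3, h4⟩ := c.face_inj f r t h.choose.1 h.choose.2.1 h.choose.2.2
      h.choose_spec.symm hr
    generalize h.choose = z at h2 h3 h4
    obtain ⟨f', r', t'⟩ := z
    simp only at h2 h3 h4
    subst h2 h3
    rcases h4 with rfl | rfl | ⟨rfl, rfl⟩ | ⟨rfl, rfl⟩
    · exact h0 _ _ _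
    · rfl
    · exact (hw _ _).symm
    · exact hw _ _
  refine ⟨g, ?_, hg1, hgf⟩
  rw [continuous_iff_isClosed]
  intro t ht
  refine c.closed2 _ (fun e => ?_) fun f => ?_
  · have : c.edge e ⁻¹' (g ⁻¹' t) = (fun s => g₁ (c.edge e s)) ⁻¹' t := by
      ext s
      simp only [mem_preimage]
      rw [hg1 (c.edge_mem e s)]
    rw [this]
    exact ht.preimage (hg₁.comp_continuous (c.edge_cont e) fun s => c.edge_mem e s)
  · have : c.face f ⁻¹' (g ⁻¹' t) = af f ⁻¹' t := by
      ext q
      simp only [mem_preimage, hgf]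
    rw [this]
    exact ht.preimage (haf f)

/-- the open 2-cells are open -/
theorem Cx.isOpen_face (f : c.Fa) : IsOpen (c.face f '' {q | q.1 ≠ 1}) := by
  rw [← isClosed_compl_iff]
  refine c.closed2 _ (fun e => ?_) fun f' => ?_
  · have : c.edge e ⁻¹' (c.face f '' {q | q.1 ≠ 1})ᶜ = univ := by
      rw [eq_univ_iff_forall]
      rintro s ⟨⟨r, t⟩, hq, hs⟩
      exact c.face_notMem f t hq (hs ▸ c.edge_mem e s)
    rw [this]
    exact isClosed_univ
  · by_cases hf : f' = f
    · subst hf
      have : c.face f' ⁻¹' (c.face f' '' {q | q.1 ≠ 1})ᶜ = {q | q.1 = 1} := by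
        ext ⟨r, t⟩
        simp only [mem_preimage, mem_compl_iff, mem_ofPred_eq]
        constructor
        · intro h
          by_contra hr
          exact h ⟨(r, t), hr, rfl⟩
        · rintro hr ⟨⟨r', t'⟩, hq, hs⟩
          obtain ⟨_, h2, _⟩ := c.face_inj f' r' t' f' r t hs hq
          exact hq (h2.trans hr)
      rw [this]
      exact isClosed_eq continuous_fst continuous_const
    · have : c.face f' ⁻¹' (c.face f '' {q | q.1 ≠ 1})ᶜ = univ := by
        rw [eq_univ_iff_forall]
        rintro ⟨r, t⟩ ⟨⟨r', t'⟩, hq, hs⟩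
        exact hf (c.face_inj f r' t' f' r t hs hq).1.symm
      rw [this]
      exact isClosed_univ

end Glue

end Vale.Agent.P173.Topo
end
end

section

section

/-! # P173, topology bridge: edge paths connect all vertices -/

open Set Topology unitInterval

namespace Vale.Agent.P173.Topo

universe u v w

variable {Z : Type u} [TopologicalSpace Z] (c : Cx Z)

/-- paths of edges connect all vertices -/
theorem Cx.exists_isPath [ConnectedSpace Z] (v v' : c.V) : ∃ x, c.IsPath v v' x := by
  classical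
  let reach : c.V → Prop := fun u => ∃ x, c.IsPath u v' x
  have hre : ∀ e, reach (c.src e) ↔ reach (c.tgt e) := by
    intro e
    constructor
    · rintro ⟨x, hx⟩
      exact ⟨_, Cx.IsPath.cons' e v' x hx⟩
    · rintro ⟨x, hx⟩
      exact ⟨_, Cx.IsPath.cons e v' x hx⟩
  obtain ⟨g₁, hg₁, hv, -⟩ := c.glue1 (Y := Bool) (fun u => decide (reach u))
    (fun e _ => decide (reach (c.src e))) (fun _ => continuous_const) (fun _ => rfl)
    (fun e => by simp only [hre])
  obtain ⟨g, hg, hgg, -⟩ := c.glue2 g₁ hg₁ (fun f _ => g₁ (c.face f (1, 0)))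
    (fun _ => continuous_const) (fun _ _ _ => rfl) (fun _ _ => rfl)
    (by
      intro f t
      have h1 : Continuous fun t : I => g₁ (c.face f (1, t)) :=
        hg₁.comp_continuous ((c.face_cont f).comp (by fun_prop)) fun t => c.face_one_mem f t
      exact (isPreconnected_univ (α := I)).constant h1.continuousOn (mem_univ _) (mem_univ _))
  have h2 : g (c.vert v) = g (c.vert v') :=
    (isPreconnected_univ (α := Z)).constant hg.continuousOn (mem_univ _) (mem_univ _)
  rw [hgg (c.vert_mem v), hgg (c.vert_mem v'), hv, hv] at h2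
  have h3 : reach v' := ⟨1, Cx.IsPath.nil v'⟩
  have h4 : decide (reach v) = true := by rw [h2]; exact decide_eq_true h3
  exact of_decide_eq_true h4

end Vale.Agent.P173.Topo
end
end

section

section

/-! # P173, topology bridge: lifts of the 1-skeleton -/

open Set Topology unitInterval

namespace Vale.Agent.P173.Topo

universe u v w

section Lifts

variable {Z : Type u} [TopologicalSpace Z] (c : Cx Z)
variable {E : Type v} [TopologicalSpace E] {p : E → Z} {G : Type} [Group G] [MulAction G E]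

/-- Some lift of the 1-skeleton. -/
theorem exists_lifts_zero (hp : IsQuotientCoveringMap p G) : Nonempty (Lifts c p G) := by
  have hvt : ∀ v, ∃ x : E, p x = c.vert v := fun v => hp.toIsQuotientMap.surjective _
  choose vt hvt using hvt
  have het : ∀ e, ∃ g' : I → E, Continuous g' ∧ (∀ t, p (g' t) = c.edge e t) ∧
      g' 0 = vt (c.src e) := fun e =>
    exists_path_lift hp.isCoveringMap (c.edge e) (c.edge_cont e) (vt (c.src e))
      (by rw [hvt, c.edge_zero])
  choose et h1 h2 h3 using het
  have hφ : ∀ e, ∃ g : G, g • vt (c.tgt e) = et e 1 := by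
    intro e
    have : p (et e 1) = p (vt (c.tgt e)) := by rw [h2, hvt, c.edge_one]
    obtain ⟨g, hg⟩ := hp.apply_eq_iff_mem_orbit.1 this
    exact ⟨g, hg⟩
  choose φ hφ using hφ
  exact ⟨⟨vt, et, φ, hvt, h1, h2, h3, fun e => (hφ e).symm⟩⟩

/-- Change of the lifts of the vertices. -/
def Lifts.twist (hp : IsQuotientCoveringMap p G) (L : Lifts c p G) (a : c.V → G) :
    Lifts c p G where
  vt v := a v • L.vt v
  et e s := a (c.src e) • L.et e s
  φ e := a (c.src e) * L.φ e * (a (c.tgt e))⁻¹
  p_vt v := by rw [hp.map_smul, L.p_vt]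
  cont e := by
    have := hp.toContinuousConstSMul
    exact (continuous_const_smul (a (c.src e))).comp (L.cont e)
  p_et e s := by rw [hp.map_smul, L.p_et]
  zero e := by rw [L.zero]
  one e := by rw [L.one, smul_smul, smul_smul, inv_mul_cancel_right]

theorem Lifts.twist_lift (hp : IsQuotientCoveringMap p G) (L : Lifts c p G) (a : c.V → G)
    {v v' : c.V} {x : FreeGroup c.Ed} (h : c.IsPath v v' x) :
    FreeGroup.lift (L.twist c hp a).φ x = a v * FreeGroup.lift L.φ x * (a v')⁻¹ := by
  induction h with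
  | nil v => simp only [map_one, mul_one, mul_inv_cancel]
  | cons e v x _ ih =>
    rw [map_mul, map_mul, ih, FreeGroup.lift_apply_of, FreeGroup.lift_apply_of]
    show (a (c.src e) * L.φ e * (a (c.tgt e))⁻¹) * _ = _
    group
  | cons' e v x _ ih =>
    rw [map_mul, map_mul, ih, map_inv, map_inv, FreeGroup.lift_apply_of, FreeGroup.lift_apply_of]
    show (a (c.src e) * L.φ e * (a (c.tgt e))⁻¹)⁻¹ * _ = _
    group

theorem exists_lifts [ContractibleSpace E] [ConnectedSpace Z] (hp : IsQuotientCoveringMap p G)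
    (v₀ : c.V) :
    ∃ (L : Lifts c p G) (pw : c.V → FreeGroup c.Ed), pw v₀ = 1 ∧
      (∀ v, c.IsPath v₀ v (pw v)) ∧ ∀ v, FreeGroup.lift L.φ (pw v) = 1 := by
  classical
  obtain ⟨L⟩ := exists_lifts_zero c hp
  choose pw₀ hpw₀ using c.exists_isPath v₀
  let pw : c.V → FreeGroup c.Ed := fun v => if v = v₀ then 1 else pw₀ v
  have hpw : ∀ v, c.IsPath v₀ v (pw v) := by
    intro v
    by_cases h : v = v₀
    · subst h
      show c.IsPath v v (if v = v then 1 else _)
      rw [if_pos rfl]
      exact .nil v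
    · show c.IsPath v₀ v (if v = v₀ then 1 else _)
      rw [if_neg h]
      exact hpw₀ v
  have h0 : pw v₀ = 1 := if_pos rfl
  refine ⟨L.twist c hp fun v => FreeGroup.lift L.φ (pw v), pw, h0, hpw, fun v => ?_⟩
  rw [L.twist_lift c hp _ (hpw v), h0, map_one, one_mul, mul_inv_cancel]

end Lifts

end Vale.Agent.P173.Topo
end
end

section

section

/-! # P173, topology bridge, M1: the space `EE T` and diagonal quotients -/

open Set Topology unitInterval

namespace Vale.Agent.P173.Topo

universe u v w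

/-! ### M1 (TopoEE.lean) -/
section M1
namespace EE

section dist

variable {T : Type v}

theorem dist_def (f g : EE T) :
    dist f g = (MeasureTheory.volume
      ((Subtype.val : Ico (0 : ℝ) 1 → ℝ) '' {x | f x ≠ g x})).toReal := rfl

theorem vol_ne_top (s : Set (Ico (0 : ℝ) 1)) :
    MeasureTheory.volume ((Subtype.val : Ico (0 : ℝ) 1 → ℝ) '' s) ≠ ⊤ := by
  refine ne_top_of_le_ne_top (b := MeasureTheory.volume (Ico (0 : ℝ) 1)) (by simp only [Real.volume_Ico, sub_zero, ENNReal.ofReal_one, ne_eq, ENNReal.one_ne_top, not_false_eq_true])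
    (MeasureTheory.measure_mono ?_)
  rintro _ ⟨x, -, rfl⟩
  exact x.2

/-- The key estimate: two functions which agree up to an interval of length `|s - s'|` and the
difference of `f` and `g`. -/
theorem dist_le_of_subset {T' : Type w} (a b : EE T') (f g : EE T) (s s' : ℝ)
    (h : ∀ x : Ico (0 : ℝ) 1, a x ≠ b x → (x : ℝ) ∈ uIcc s s' ∨ f x ≠ g x) :
    dist a b ≤ |s - s'| + dist f g := by
  have h1 : ((Subtype.val : Ico (0 : ℝ) 1 → ℝ) '' {x | a x ≠ b x}) ⊆
      uIcc s s' ∪ ((Subtype.val : Ico (0 : ℝ) 1 → ℝ) '' {x | f x ≠ g x}) := by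
    rintro _ ⟨x, hx, rfl⟩
    rcases h x hx with h2 | h2
    · exact Or.inl h2
    · exact Or.inr ⟨x, h2, rfl⟩
  have h2 : MeasureTheory.volume ((Subtype.val : Ico (0 : ℝ) 1 → ℝ) '' {x | a x ≠ b x}) ≤
      MeasureTheory.volume (uIcc s s') +
      MeasureTheory.volume ((Subtype.val : Ico (0 : ℝ) 1 → ℝ) '' {x | f x ≠ g x}) :=
    (MeasureTheory.measure_mono h1).trans (MeasureTheory.measure_union_le _ _)
  rw [Real.volume_interval] at h2
  rw [dist_def, dist_def]
  have h3 := ENNReal.toReal_mono
    (ENNReal.add_ne_top.2 ⟨ENNReal.ofReal_ne_top, vol_ne_top _⟩) h2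
  rw [ENNReal.toReal_add ENNReal.ofReal_ne_top (vol_ne_top _),
    ENNReal.toReal_ofReal (abs_nonneg _)] at h3
  rw [abs_sub_comm s s']
  exact h3

end dist

variable {T : Type v} [Group T]

theorem dist_smul_smul (t : T) (f g : EE T) : dist (t • f) (t • g) = dist f g := by
  rw [dist_def, dist_def]
  congr 3
  ext x
  simp only [mem_ofPred_eq, smul_apply, ne_eq, mul_right_inj]

instance : ContinuousConstSMul T (EE T) where
  continuous_const_smul t := (Isometry.of_dist_eq (dist_smul_smul t)).continuous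

theorem dist_smul_self {t : T} (ht : t ≠ 1) (f : EE T) : dist (t • f) f = 1 := by
  rw [dist_def]
  have h : {x | (t • f) x ≠ f x} = univ := by
    ext x
    simp only [mem_ofPred_eq, smul_apply, mem_univ, iff_true]
    intro h
    exact ht (mul_eq_right.1 h)
  rw [h, image_univ, Subtype.range_coe]
  simp only [Real.volume_Ico, sub_zero, ENNReal.ofReal_one, ENNReal.toReal_one]

theorem dist_con_con (s s' : I) (f g : EE T) :
    dist (con s f) (con s' g) ≤ |(s : ℝ) - s'| + dist f g := by
  apply dist_le_of_subset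
  intro x hx
  by_cases h1 : (x : ℝ) < s
  · by_cases h2 : (x : ℝ) < s'
    · exact absurd (by simp only [con, if_pos h1, if_pos h2]) hx
    · left
      rw [mem_uIcc]
      exact Or.inr ⟨not_lt.1 h2, h1.le⟩
  · by_cases h2 : (x : ℝ) < s'
    · left
      rw [mem_uIcc]
      exact Or.inl ⟨not_lt.1 h1, h2.le⟩
    · right
      simpa only [con, if_neg h1, if_neg h2] using hx

theorem dist_pth_pth (t : T) (s s' : I) : dist (pth t s) (pth t s') ≤ |(s : ℝ) - s'| := by
  have h := dist_le_of_subset (pth t s) (pth t s') (one T) (one T) s s' ?_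
  · rwa [dist_self, add_zero] at h
  intro x hx
  by_cases h1 : (x : ℝ) < s
  · by_cases h2 : (x : ℝ) < s'
    · exact absurd (by simp only [pth, if_pos h1, if_pos h2]) hx
    · left
      rw [mem_uIcc]
      exact Or.inr ⟨not_lt.1 h2, h1.le⟩
  · by_cases h2 : (x : ℝ) < s'
    · left
      rw [mem_uIcc]
      exact Or.inl ⟨not_lt.1 h1, h2.le⟩
    · exact absurd (by simp only [pth, if_neg h1, if_neg h2]) hx

theorem dist_map_map {T' : Type w} [Group T'] (θ : T →* T') (f g : EE T) :
    dist (map θ f) (map θ g) ≤ dist f g := by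
  have h := dist_le_of_subset (map θ f) (map θ g) f g 0 0 ?_
  · rwa [sub_self, abs_zero, zero_add] at h
  intro x hx
  right
  intro h
  exact hx (congrArg θ h)

theorem pth_zero (t : T) : pth t 0 = one T := by
  funext x
  exact if_neg (not_lt.2 x.2.1)

theorem pth_one (t : T) : pth t 1 = t • one T := by
  funext x
  rw [smul_apply]
  exact (if_pos x.2.2).trans (mul_one t).symm

theorem continuous_pth (t : T) : Continuous (pth t) := by
  have h : LipschitzWith 1 (pth t) := by
    apply LipschitzWith.of_dist_le_mul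
    intro s s'
    rw [NNReal.coe_one, one_mul]
    exact dist_pth_pth t s s'
  exact h.continuous

theorem con_zero (f : EE T) : con 0 f = f := by
  funext x
  exact if_neg (not_lt.2 x.2.1)

theorem con_one (f : EE T) : con 1 f = one T := by
  funext x
  exact if_pos x.2.2

theorem continuous_con : Continuous fun p : I × EE T => con p.1 p.2 := by
  have h : LipschitzWith 2 (fun p : I × EE T => con p.1 p.2) := by
    apply LipschitzWith.of_dist_le_mul
    rintro ⟨s, f⟩ ⟨s', g⟩
    refine (dist_con_con s s' f g).trans ?_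
    rw [Prod.dist_eq]
    have h1 : |(s : ℝ) - s'| ≤ max (dist s s') (dist f g) := le_max_left _ _
    have h2 : dist f g ≤ max (dist s s') (dist f g) := le_max_right _ _
    have h3 : ((2 : NNReal) : ℝ) = 2 := rfl
    rw [h3]
    linarith
  exact h.continuous

theorem continuous_map {T' : Type w} [Group T'] (θ : T →* T') :
    Continuous (map θ : EE T → EE T') := by
  have h : LipschitzWith 1 (map θ : EE T → EE T') := by
    apply LipschitzWith.of_dist_le_mul
    intro f g
    rw [NNReal.coe_one, one_mul]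
    exact dist_map_map θ f g
  exact h.continuous

theorem map_smul {T' : Type w} [Group T'] (θ : T →* T') (t : T) (f : EE T) :
    map θ (t • f) = θ t • map θ f := by
  funext x
  exact _root_.map_mul θ t (f x)

theorem map_one {T' : Type w} [Group T'] (θ : T →* T') : map θ (one T) = one T' := by
  funext x
  exact _root_.map_one θ

theorem map_pth {T' : Type w} [Group T'] (θ : T →* T') (t : T) (s : I) :
    map θ (pth t s) = pth (θ t) s := by
  funext x
  simp only [map, pth]
  split_ifs
  · rfl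
  · exact _root_.map_one θ

theorem smul_right_injective (f : EE T) {a b : T} (h : a • f = b • f) : a = b := by
  have h1 := congrFun h ⟨0, by simp only [mem_Ico, Std.le_refl, zero_lt_one, and_self]⟩
  rw [smul_apply, smul_apply] at h1
  exact mul_right_cancel h1

/-- small balls are disjoint from their translates -/
theorem disjoint_ball (f : EE T) :
    ∃ U ∈ 𝓝 f, ∀ t : T, ((t • ·) '' U ∩ U).Nonempty → t = 1 := by
  refine ⟨Metric.ball f (1 / 2), Metric.ball_mem_nhds f (by norm_num), ?_⟩
  rintro t ⟨_, ⟨g, hg, rfl⟩, hg'⟩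
  by_contra ht
  have h1 := dist_smul_self ht g
  have h2 := dist_triangle (t • g) f g
  rw [Metric.mem_ball] at hg hg'
  rw [dist_comm f g] at h2
  simp only at hg'
  linarith

end EE

theorem isQuotientCoveringMap_of_disjoint {E : Type u} {M : Type w} {G : Type*} [Group G]
    [TopologicalSpace E] [TopologicalSpace M] [MulAction G E] [MulAction G M]
    [ContinuousConstSMul G E] [ContinuousConstSMul G M]
    (h : ∀ e : E, ∃ U ∈ 𝓝 e, ∀ g : G, ((g • ·) '' U ∩ U).Nonempty → g = 1) :
    IsQuotientCoveringMap (Quotient.mk (MulAction.orbitRel G (E × M))) G where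
  toIsQuotientMap := isQuotientMap_quotient_mk'
  continuous_const_smul := continuous_const_smul
  apply_eq_iff_mem_orbit := Quotient.eq''
  disjoint := by
    rintro ⟨e, x⟩
    obtain ⟨U, hU, hU'⟩ := h e
    refine ⟨U ×ˢ univ, prod_mem_nhds hU Filter.univ_mem, ?_⟩
    rintro g ⟨_, ⟨⟨e', x'⟩, he', rfl⟩, hg⟩
    exact hU' g ⟨g • e', ⟨e', he'.1, rfl⟩, hg.1⟩

theorem isQuotientCoveringMap_qmk (T : Type v) [Group T] (M : Type w) [TopologicalSpace M]
    [MulAction T M] [ContinuousConstSMul T M] :
    IsQuotientCoveringMap (qmk : EE T × M → QQ T M) T :=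
  isQuotientCoveringMap_of_disjoint EE.disjoint_ball

theorem qmk_eq_iff {T : Type v} [Group T] {M : Type w} [MulAction T M] {p q : EE T × M} :
    qmk p = qmk q ↔ ∃ a : T, p = a • q := by
  have h : qmk p = qmk q ↔ p ∈ MulAction.orbit T q := Quotient.eq''
  rw [h, MulAction.mem_orbit_iff]
  exact ⟨fun ⟨a, ha⟩ => ⟨a, ha.symm⟩, fun ⟨a, ha⟩ => ⟨a, ha.symm⟩⟩

/-- general version used for the group of a covering: the diagonal action on `E × M` -/
theorem isQuotientCoveringMap_prod {E : Type u} {B : Type v} {M : Type w} {G : Type*} [Group G]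
    [TopologicalSpace E] [TopologicalSpace B] [TopologicalSpace M] [MulAction G E] [MulAction G M]
    [ContinuousConstSMul G M] {p : E → B} (hp : IsQuotientCoveringMap p G) :
    IsQuotientCoveringMap (Quotient.mk (MulAction.orbitRel G (E × M))) G :=
  haveI := hp.toContinuousConstSMul
  isQuotientCoveringMap_of_disjoint hp.disjoint
end M1

end Vale.Agent.P173.Topo
end
end

section

section

/-! # P173, topology bridge: the word of a 2-cell -/

open Set Topology unitInterval

namespace Vale.Agent.P173.Topo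

universe u v w

section M4
variable {Z : Type u} [TopologicalSpace Z] (c : Cx Z)

/-- The map of the 1-skeleton to the quotient of `EE T × M` defined by a system. -/
theorem Cx.exists_psi {T : Type v} [Group T] {lam : c.Ed → T} {M : Type w} [TopologicalSpace M]
    [MulAction T M] [Nonempty M] (S : Sys c lam M) :
    ∃ g : Z → QQ T M, ContinuousOn g c.Z1 ∧ ∀ q : c.Pos, g q.at = qmk (q.ee lam, S.at q) := by
  have : Nonempty (QQ T M) := ⟨qmk (EE.one T, Classical.arbitrary M)⟩
  obtain ⟨g, hg, hv, he⟩ := c.glue1 (Y := QQ T M) (fun v => qmk (EE.one T, S.mv v))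
    (fun e s => qmk (EE.pth (lam e) s, S.me e s))
    (fun e => continuous_quotient_mk'.comp ((EE.continuous_pth _).prodMk (S.cont e)))
    (fun e => by rw [EE.pth_zero, S.zero])
    (fun e => by
      rw [EE.pth_one, S.one]
      exact qmk_eq_iff.2 ⟨lam e, rfl⟩)
  refine ⟨g, hg, fun q => ?_⟩
  cases q with
  | ver v => exact hv v
  | arc e s => exact he e s

/-- the trivial system -/
def Cx.sys0 : Sys c (FreeGroup.of : c.Ed → _) PUnit.{1} where
  mv _ := PUnit.unit
  me _ _ := PUnit.unit
  cont _ := continuous_const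
  zero _ := rfl
  one _ := rfl

/-- The universally labelled map of the 1-skeleton. -/
noncomputable def Cx.psi0 : Z → QQ (FreeGroup c.Ed) PUnit.{1} := (c.exists_psi c.sys0).choose

theorem Cx.psi0_cont : ContinuousOn c.psi0 c.Z1 := (c.exists_psi c.sys0).choose_spec.1

theorem Cx.psi0_at (q : c.Pos) : c.psi0 q.at = qmk (q.ee FreeGroup.of, PUnit.unit) :=
  (c.exists_psi c.sys0).choose_spec.2 q

/-- a position of the base point of the boundary of the face -/
noncomputable def Cx.pos (f : c.Fa) : c.Pos := (c.exists_pos (c.face_one_mem f 0)).choose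

theorem Cx.pos_at (f : c.Fa) : (c.pos f).at = c.face f (1, 0) :=
  (c.exists_pos (c.face_one_mem f 0)).choose_spec

theorem Cx.bdry_cont (f : c.Fa) : Continuous fun t : I => c.face f (1, t) :=
  (c.face_cont f).comp (by fun_prop)

theorem Cx.comp_bdry_cont {Y : Type w} [TopologicalSpace Y] {g : Z → Y}
    (hg : ContinuousOn g c.Z1) (f : c.Fa) : Continuous fun t : I => g (c.face f (1, t)) :=
  hg.comp_continuous (c.bdry_cont f) fun t => c.face_one_mem f t

theorem Cx.exists_holonomy {M : Type w} [TopologicalSpace M] [MulAction (FreeGroup c.Ed) M]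
    [ContinuousConstSMul (FreeGroup c.Ed) M] (S : Sys c (FreeGroup.of : c.Ed → _) M) (f : c.Fa) :
    ∃ (α : I → EE (FreeGroup c.Ed)) (β : I → M), Continuous α ∧ Continuous β ∧
      α 0 = (c.pos f).ee FreeGroup.of ∧ β 0 = S.at (c.pos f) ∧
      ∀ t, ∃ (q : c.Pos) (a : FreeGroup c.Ed), q.at = c.face f (1, t) ∧
        α t = a • q.ee FreeGroup.of ∧ β t = a • S.at q := by
  have : Nonempty M := ⟨S.at (c.pos f)⟩
  obtain ⟨g, hg, hq⟩ := c.exists_psi S
  obtain ⟨γ, hγ, hγ', hγ0⟩ := exists_path_lift
    (isQuotientCoveringMap_qmk (FreeGroup c.Ed) M).isCoveringMap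
    (fun t => g (c.face f (1, t))) (c.comp_bdry_cont hg f)
    ((c.pos f).ee FreeGroup.of, S.at (c.pos f)) (by rw [← c.pos_at f, hq])
  refine ⟨fun t => (γ t).1, fun t => (γ t).2, continuous_fst.comp hγ, continuous_snd.comp hγ,
    congrArg Prod.fst hγ0, congrArg Prod.snd hγ0, fun t => ?_⟩
  obtain ⟨q, hqa⟩ := c.exists_pos (c.face_one_mem f t)
  have h1 := hγ' t
  rw [← hqa, hq] at h1
  obtain ⟨a, ha⟩ := qmk_eq_iff.1 h1
  exact ⟨q, a, hqa, congrArg Prod.fst ha, congrArg Prod.snd ha⟩

/-- the lift of the boundary of a face to `EE` -/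
noncomputable def Cx.alpha (f : c.Fa) : I → EE (FreeGroup c.Ed) :=
  (c.exists_holonomy c.sys0 f).choose

theorem Cx.alpha_spec (f : c.Fa) :
    ∃ (β : I → PUnit.{1}), Continuous (c.alpha f) ∧ Continuous β ∧
      c.alpha f 0 = (c.pos f).ee FreeGroup.of ∧ β 0 = c.sys0.at (c.pos f) ∧
      ∀ t, ∃ (q : c.Pos) (a : FreeGroup c.Ed), q.at = c.face f (1, t) ∧
        c.alpha f t = a • q.ee FreeGroup.of ∧ β t = a • c.sys0.at q :=
  (c.exists_holonomy c.sys0 f).choose_spec

theorem Cx.alpha_cont (f : c.Fa) : Continuous (c.alpha f) := (c.alpha_spec f).choose_spec.1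

theorem Cx.alpha_zero (f : c.Fa) : c.alpha f 0 = (c.pos f).ee FreeGroup.of :=
  (c.alpha_spec f).choose_spec.2.2.1

theorem Cx.alpha_at (f : c.Fa) (t : I) : ∃ (q : c.Pos) (a : FreeGroup c.Ed),
    q.at = c.face f (1, t) ∧ c.alpha f t = a • q.ee FreeGroup.of := by
  obtain ⟨q, a, h1, h2, -⟩ := (c.alpha_spec f).choose_spec.2.2.2.2 t
  exact ⟨q, a, h1, h2⟩

theorem Cx.qmk_alpha (f : c.Fa) (t : I) :
    qmk (c.alpha f t, PUnit.unit) = c.psi0 (c.face f (1, t)) := by
  obtain ⟨q, a, h1, h2⟩ := c.alpha_at f t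
  rw [← h1, c.psi0_at, h2]
  exact qmk_eq_iff.2 ⟨a, rfl⟩

theorem Cx.exists_word (f : c.Fa) : ∃ x : FreeGroup c.Ed, c.alpha f 1 = x • c.alpha f 0 := by
  have h := c.qmk_alpha f 1
  rw [← c.face_wrap, ← c.qmk_alpha f 0] at h
  obtain ⟨x, hx⟩ := qmk_eq_iff.1 h
  exact ⟨x, congrArg Prod.fst hx⟩

/-- the word of a face -/
noncomputable def Cx.word (f : c.Fa) : FreeGroup c.Ed := (c.exists_word f).choose

theorem Cx.alpha_one (f : c.Fa) : c.alpha f 1 = c.word f • c.alpha f 0 :=
  (c.exists_word f).choose_spec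

theorem Cx.holonomy (f : c.Fa) {M : Type w} [TopologicalSpace M] [MulAction (FreeGroup c.Ed) M]
    [ContinuousConstSMul (FreeGroup c.Ed) M] (S : Sys c (FreeGroup.of : c.Ed → _) M) :
    ∃ β : I → M, Continuous β ∧ β 0 = S.at (c.pos f) ∧ β 1 = c.word f • β 0 ∧
      ∀ t, ∃ (q : c.Pos) (a : FreeGroup c.Ed), q.at = c.face f (1, t) ∧
        c.alpha f t = a • q.ee FreeGroup.of ∧ β t = a • S.at q := by
  have : Nonempty M := ⟨S.at (c.pos f)⟩
  obtain ⟨g, hg, hq⟩ := c.exists_psi S
  obtain ⟨γ, hγ, hγ', hγ0⟩ := exists_path_lift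
    (isQuotientCoveringMap_qmk (FreeGroup c.Ed) M).isCoveringMap
    (fun t => g (c.face f (1, t))) (c.comp_bdry_cont hg f)
    ((c.pos f).ee FreeGroup.of, S.at (c.pos f)) (by rw [← c.pos_at f, hq])
  have key : ∀ t, ∃ (q : c.Pos) (a : FreeGroup c.Ed), q.at = c.face f (1, t) ∧
      γ t = a • (q.ee FreeGroup.of, S.at q) := by
    intro t
    obtain ⟨q, hqa⟩ := c.exists_pos (c.face_one_mem f t)
    have h1 := hγ' t
    rw [← hqa, hq] at h1
    obtain ⟨a, ha⟩ := qmk_eq_iff.1 h1
    exact ⟨q, a, hqa, ha⟩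
  have hα : (fun t => ((γ t).1, PUnit.unit.{1})) = fun t => (c.alpha f t, PUnit.unit) := by
    refine lift_unique (isQuotientCoveringMap_qmk (FreeGroup c.Ed) PUnit.{1}).isCoveringMap
      ((continuous_fst.comp hγ).prodMk continuous_const)
      ((c.alpha_cont f).prodMk continuous_const) ?_ 0 ?_
    · intro t
      rw [c.qmk_alpha]
      obtain ⟨q, a, h1, h2⟩ := key t
      rw [← h1, c.psi0_at, h2]
      exact qmk_eq_iff.2 ⟨a, rfl⟩
    · rw [hγ0, c.alpha_zero]
  have hα' : ∀ t, (γ t).1 = c.alpha f t := fun t => congrArg Prod.fst (congrFun hα t)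
  refine ⟨fun t => (γ t).2, continuous_snd.comp hγ, congrArg Prod.snd hγ0, ?_, fun t => ?_⟩
  · have h1 : qmk (γ 1) = qmk (γ 0) := by rw [hγ', hγ', ← c.face_wrap]
    obtain ⟨a, ha⟩ := qmk_eq_iff.1 h1
    have h2 : (γ 1).1 = a • (γ 0).1 := congrArg Prod.fst ha
    rw [hα', hα', c.alpha_one] at h2
    rw [EE.smul_right_injective _ h2]
    exact congrArg Prod.snd ha
  · obtain ⟨q, a, h1, h2⟩ := key t
    exact ⟨q, a, h1, by rw [← hα', h2]; rfl, by simp only [h2]; rfl⟩

/-- A discrete `F`-set which detects edge paths. -/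
def PS : Type u := FreeGroup c.Ed → c.V → Prop

instance : TopologicalSpace (PS c) := ⊥

instance : DiscreteTopology (PS c) := ⟨rfl⟩

instance : MulAction (FreeGroup c.Ed) (PS c) where
  smul a m := fun x v => m (a⁻¹ * x) v
  one_smul m := by
    funext x v
    change m (1⁻¹ * x) v = m x v
    rw [inv_one, one_mul]
  mul_smul a b m := by
    funext x v
    change m ((a * b)⁻¹ * x) v = m (b⁻¹ * (a⁻¹ * x)) v
    rw [mul_inv_rev, mul_assoc]

instance : ContinuousConstSMul (FreeGroup c.Ed) (PS c) := ⟨fun _ => continuous_of_discreteTopology⟩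

theorem PS.smul_apply (a : FreeGroup c.Ed) (m : PS c) (x : FreeGroup c.Ed) (v : c.V) :
    (a • m) x v = m (a⁻¹ * x) v := rfl

/-- the system of edge paths -/
def Cx.sysP : Sys c (FreeGroup.of : c.Ed → _) (PS c) where
  mv v := fun x v' => c.IsPath v v' x
  me e _ := fun x v' => c.IsPath (c.src e) v' x
  cont _ := continuous_const
  zero _ := rfl
  one e := by
    funext x v
    change c.IsPath (c.src e) v x = c.IsPath (c.tgt e) v ((FreeGroup.of e)⁻¹ * x)
    apply propext
    constructor
    · intro h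
      exact Cx.IsPath.cons' e v x h
    · intro h
      have := Cx.IsPath.cons e v _ h
      rwa [mul_inv_cancel_left] at this

theorem Cx.isPath_word (f : c.Fa) :
    c.IsPath (c.pos f).vtx (c.pos f).vtx (c.word f) := by
  obtain ⟨β, hβ, h0, h1, -⟩ := c.holonomy f c.sysP
  have h2 : β 1 = β 0 := by
    have : IsPreconnected (univ : Set I) := isPreconnected_univ
    exact this.constant hβ.continuousOn (mem_univ _) (mem_univ _)
  rw [h2] at h1
  have h3 : ∀ (q : c.Pos) x v', c.sysP.at q x v' = c.IsPath q.vtx v' x := by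
    intro q x v'
    cases q <;> rfl
  rw [h0] at h1
  have h4 := congrFun (congrFun h1 (c.word f)) (c.pos f).vtx
  rw [PS.smul_apply, inv_mul_cancel, h3, h3] at h4
  rw [h4]
  exact Cx.IsPath.nil _

end M4

end Vale.Agent.P173.Topo
end
end

section

section

/-! # P173, topology bridge: lifts of the 2-cells -/

open Set Topology unitInterval

namespace Vale.Agent.P173.Topo

universe u v w

section M6
variable {Z : Type u} [TopologicalSpace Z] (c : Cx Z)
variable {E : Type v} [TopologicalSpace E] {p : E → Z} {G : Type} [Group G] [MulAction G E]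

theorem Lifts.p_at {c : Cx Z} (L : Lifts c p G) (q : c.Pos) : p (L.at q) = q.at := by
  cases q with
  | ver v => exact L.p_vt v
  | arc e s => exact L.p_et e s

/-- lifts of faces compatible with the lift of the 1-skeleton -/
theorem Lifts.exists_face' (hp : IsQuotientCoveringMap p G) (L : Lifts c p G) (f : c.Fa) :
    FreeGroup.lift L.φ (c.word f) = 1 ∧
    ∃ ft : I × I → E, Continuous ft ∧ (∀ q, p (ft q) = c.face f q) ∧
      (∀ t t', ft (0, t) = ft (0, t')) ∧ (∀ r, ft (r, 0) = ft (r, 1)) ∧
      ft (1, 0) = L.at (c.pos f) ∧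
      (∀ t, ∃ (q : c.Pos) (a : FreeGroup c.Ed), q.at = c.face f (1, t) ∧
        c.alpha f t = a • q.ee FreeGroup.of ∧
        ft (1, t) = FreeGroup.lift L.φ a • L.at q) := by
  let _ : MulAction (FreeGroup c.Ed) E := MulAction.compHom E (FreeGroup.lift L.φ)
  have hsmul : ∀ (a : FreeGroup c.Ed) (x : E), a • x = FreeGroup.lift L.φ a • x := fun _ _ => rfl
  have := hp.toContinuousConstSMul
  have : ContinuousConstSMul (FreeGroup c.Ed) E :=
    ⟨fun a => continuous_const_smul (FreeGroup.lift L.φ a)⟩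
  let S : Sys c (FreeGroup.of : c.Ed → _) E :=
    { mv := L.vt
      me := L.et
      cont := L.cont
      zero := L.zero
      one := fun e => by rw [hsmul, FreeGroup.lift_apply_of]; exact L.one e }
  have hS : ∀ q : c.Pos, S.at q = L.at q := by
    intro q
    cases q <;> rfl
  obtain ⟨β, hβ, hβ0, hβ1, hβt⟩ := c.holonomy f S
  have hpβ : ∀ t, p (β t) = c.face f (1, t) := by
    intro t
    obtain ⟨q, a, h1, -, h3⟩ := hβt t
    rw [h3, hsmul, hp.map_smul, hS, L.p_at, h1]
  obtain ⟨ft, hft, hpft, hft0, hftc, hftw⟩ := exists_polar_lift hp.isCoveringMap (c.face f)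
    (c.face_cont f) (c.face_zero f) (c.face_wrap f) (β 0) (hpβ 0)
  have hftβ : (fun t : I => ft (1, t)) = β := by
    refine lift_unique hp.isCoveringMap (hft.comp (by fun_prop)) hβ ?_ 0 hft0
    intro t
    rw [hpft, hpβ]
  have hftβ' : ∀ t, ft (1, t) = β t := fun t => congrFun hftβ t
  refine ⟨?_, ft, hft, hpft, hftc, hftw, by rw [hft0, hβ0, hS], fun t => ?_⟩
  · have h1 : β 0 = β 1 := by rw [← hftβ', ← hftβ', hftw]
    have := hp.isCancelSMul
    rw [hβ1, hsmul] at h1
    have h2 : (1 : G) • β 0 = FreeGroup.lift L.φ (c.word f) • β 0 := by rw [one_smul]; exact h1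
    exact (IsCancelSMul.right_cancel _ _ _ h2).symm
  · obtain ⟨q, a, h1, h2, h3⟩ := hβt t
    exact ⟨q, a, h1, h2, by rw [hftβ', h3, hsmul, hS]⟩

/-- lifts of faces compatible with the lift of the 1-skeleton -/
theorem Lifts.exists_face (hp : IsQuotientCoveringMap p G) (L : Lifts c p G) (f : c.Fa) :
    FreeGroup.lift L.φ (c.word f) = 1 ∧
    ∃ ft : I × I → E, Continuous ft ∧ (∀ q, p (ft q) = c.face f q) ∧
      (∀ t t', ft (0, t) = ft (0, t')) ∧ (∀ r, ft (r, 0) = ft (r, 1)) ∧
      (∀ t, ∃ (q : c.Pos) (a : FreeGroup c.Ed), q.at = c.face f (1, t) ∧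
        c.alpha f t = a • q.ee FreeGroup.of ∧
        ft (1, t) = FreeGroup.lift L.φ a • L.at q) := by
  obtain ⟨h, ft, h1, h2, h3, h4, -, h6⟩ := L.exists_face' c hp f
  exact ⟨h, ft, h1, h2, h3, h4, h6⟩

end M6

end Vale.Agent.P173.Topo
end
end

section

section

/-! # P173, topology bridge: the generators generate the group -/

open Set Topology unitInterval

namespace Vale.Agent.P173.Topo

universe u v w

variable {Z : Type u} [TopologicalSpace Z] (c : Cx Z)
variable {E : Type v} [TopologicalSpace E] {p : E → Z} {G : Type} [Group G] [MulAction G E]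

theorem Lifts.surj [ContractibleSpace E] (hp : IsQuotientCoveringMap p G)
    (L : Lifts c p G) (v₀ : c.V) : Function.Surjective (FreeGroup.lift L.φ) := by
  have := hp.toContinuousConstSMul
  set H : Subgroup G := (FreeGroup.lift L.φ).range with hH
  let _ : TopologicalSpace (G ⧸ H) := ⊥
  have : DiscreteTopology (G ⧸ H) := ⟨rfl⟩
  have : ContinuousConstSMul G (G ⧸ H) := ⟨fun _ => continuous_of_discreteTopology⟩
  have hcov := isQuotientCoveringMap_prod (M := G ⧸ H) hp
  let mk : E × (G ⧸ H) → Quotient (MulAction.orbitRel G (E × (G ⧸ H))) :=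
    Quotient.mk (MulAction.orbitRel G (E × (G ⧸ H)))
  have hmkc : Continuous mk := continuous_quotient_mk'
  have hmk : ∀ (g : G) (x : E) (y : G ⧸ H), mk (g • x, g • y) = mk (x, y) := fun g x y =>
    Quotient.sound ⟨g, rfl⟩
  let b₀ : G ⧸ H := QuotientGroup.mk 1
  have hb₀ : ∀ a : FreeGroup c.Ed, FreeGroup.lift L.φ a • b₀ = b₀ := by
    intro a
    change (QuotientGroup.mk (FreeGroup.lift L.φ a * 1) : G ⧸ H) = QuotientGroup.mk 1
    rw [mul_one]
    refine (QuotientGroup.eq.2 ?_).symm
    rw [inv_one, one_mul]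
    exact ⟨a, rfl⟩
  have hmk' : ∀ (a : FreeGroup c.Ed) (x : E), mk (FreeGroup.lift L.φ a • x, b₀) = mk (x, b₀) := by
    intro a x
    rw [← hmk (FreeGroup.lift L.φ a) x b₀, hb₀]
  -- the section over the 1-skeleton
  have : Nonempty (Quotient (MulAction.orbitRel G (E × (G ⧸ H)))) := ⟨mk (L.vt v₀, b₀)⟩
  obtain ⟨g₁, hg₁, hg₁v, hg₁e⟩ := c.glue1 (fun v => mk (L.vt v, b₀)) (fun e s => mk (L.et e s, b₀))
    (fun e => hmkc.comp ((L.cont e).prodMk continuous_const))
    (fun e => by simp only [L.zero])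
    (fun e => by
      simp only [L.one]
      have := hmk' (FreeGroup.of e) (L.vt (c.tgt e))
      rwa [FreeGroup.lift_apply_of] at this)
  have hg₁q : ∀ q : c.Pos, g₁ q.at = mk (L.at q, b₀) := by
    intro q
    cases q with
    | ver v => exact hg₁v v
    | arc e s => exact hg₁e e s
  choose hw1 ft hft hpft hft0 hftw hpos using fun f => L.exists_face c hp f
  obtain ⟨g, hg, hgg, hgf⟩ := c.glue2 g₁ hg₁ (fun f q => mk (ft f q, b₀))
    (fun f => hmkc.comp ((hft f).prodMk continuous_const))
    (fun f t t' => by simp only [hft0 f t t']) (fun f r => by simp only [hftw f r])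
    (fun f t => by
      obtain ⟨q, a, h1, -, h3⟩ := hpos f t
      rw [← h1, hg₁q]
      simp only [h3]
      exact hmk' a _)
  -- the projection to the base
  have hpq : ∀ y y' : E × (G ⧸ H), mk y = mk y' → p y.1 = p y'.1 := by
    intro y y' h
    obtain ⟨a, ha⟩ := Quotient.exact h
    have : a • y'.1 = y.1 := congrArg Prod.fst ha
    rw [← this, hp.map_smul]
  have hgp : ∀ (x : Z) (y : E × (G ⧸ H)), mk y = g x → p y.1 = x := by
    intro x y h
    rcases c.cover x with hx | ⟨f, r, t, -, hx⟩
    · obtain ⟨q, rfl⟩ := c.exists_pos hx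
      rw [hgg (c.pos_mem q), hg₁q] at h
      rw [hpq _ _ h, L.p_at]
    · rw [← hx, hgf] at h
      rw [hpq _ _ h, ← hx]
      exact hpft f (r, t)
  -- lift to the covering space
  obtain ⟨l, hl, hlg, hl0⟩ := exists_lift_of_contractible hcov.isCoveringMap (fun x => g (p x))
    (hg.comp hp.continuous) (L.vt v₀) (L.vt v₀, b₀) (by
      rw [L.p_vt, hgg (c.vert_mem v₀), hg₁v])
  have hl1 : (fun x => (l x).1) = fun x => x := by
    refine lift_unique hp.isCoveringMap (continuous_fst.comp hl) continuous_id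
      (fun x => hgp _ _ (hlg x)) (L.vt v₀) (by rw [hl0])
  have hl2 : ∀ x, (l x).2 = b₀ := by
    intro x
    have h1 := (isPreconnected_univ (α := E)).constant (continuous_snd.comp hl).continuousOn
      (mem_univ x) (mem_univ (L.vt v₀))
    simp only [Function.comp_apply] at h1
    rw [h1, hl0]
  have hl3 : ∀ x, l x = (x, b₀) := fun x => Prod.ext (congrFun hl1 x) (hl2 x)
  intro a
  have h1 : mk (a • L.vt v₀, b₀) = mk (L.vt v₀, b₀) := by
    rw [← hl3, ← hl3]
    exact (hlg _).trans ((congrArg g (hp.map_smul a)).trans (hlg _).symm)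
  obtain ⟨a', ha'⟩ := Quotient.exact h1
  have h2 : a' • L.vt v₀ = a • L.vt v₀ := congrArg Prod.fst ha'
  have h3 : a' • b₀ = b₀ := congrArg Prod.snd ha'
  have := hp.isCancelSMul
  have h4 : a' = a := IsCancelSMul.right_cancel _ _ _ h2
  rw [h4] at h3
  change (QuotientGroup.mk (a * 1) : G ⧸ H) = QuotientGroup.mk 1 at h3
  have h5 := QuotientGroup.eq.1 h3.symm
  rw [inv_one, one_mul, mul_one] at h5
  exact h5

end Vale.Agent.P173.Topo
end
end

section

section

/-! # P173, topology bridge: the relators generate the kernel -/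

open Set Topology unitInterval

namespace Vale.Agent.P173.Topo

universe u v w

section Ker
variable {Z : Type u} [TopologicalSpace Z] (c : Cx Z)
variable {E : Type v} [TopologicalSpace E] {p : E → Z} {G : Type} [Group G] [MulAction G E]

/-- the trivial system with arbitrary labels -/
def Cx.sys1 {T : Type w} [Group T] (lam : c.Ed → T) : Sys c lam PUnit.{1} where
  mv _ := PUnit.unit
  me _ _ := PUnit.unit
  cont _ := continuous_const
  zero _ := rfl
  one _ := rfl

theorem map_ee {T : Type w} [Group T] (θ : FreeGroup c.Ed →* T) (q : c.Pos) :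
    EE.map θ (q.ee FreeGroup.of) = q.ee (fun e => θ (FreeGroup.of e)) := by
  cases q with
  | ver v => exact EE.map_one θ
  | arc e s => exact EE.map_pth θ _ s

/-- Flat labels define a map on the whole complex. -/
theorem Cx.exists_flat {T : Type w} [Group T] (θ : FreeGroup c.Ed →* T)
    (hθ : ∀ f, θ (c.word f) = 1) :
    ∃ g : Z → QQ T PUnit.{1}, Continuous g ∧
      ∀ q : c.Pos, g q.at = qmk (q.ee (fun e => θ (FreeGroup.of e)), PUnit.unit) := by
  obtain ⟨g₁, hg₁, hq⟩ := c.exists_psi (c.sys1 (fun e => θ (FreeGroup.of e)))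
  obtain ⟨g, hg, hgg, -⟩ := c.glue2 g₁ hg₁
    (fun f q => qmk (EE.con (σ q.1) (EE.map θ (c.alpha f q.2)), PUnit.unit))
    (by
      intro f
      refine continuous_quotient_mk'.comp (Continuous.prodMk ?_ continuous_const)
      exact EE.continuous_con.comp ((continuous_symm.comp continuous_fst).prodMk
        ((EE.continuous_map θ).comp ((c.alpha_cont f).comp continuous_snd))))
    (by
      intro f t t'
      simp only [symm_zero, EE.con_one])
    (by
      intro f r
      simp only [c.alpha_one, EE.map_smul, hθ, one_smul])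
    (by
      intro f t
      obtain ⟨q, a, h1, h2⟩ := c.alpha_at f t
      rw [← h1, hq, h2]
      simp only [symm_one, EE.con_zero]
      rw [EE.map_smul, map_ee]
      exact qmk_eq_iff.2 ⟨θ a, rfl⟩)
  exact ⟨g, hg, fun q => by rw [hgg (c.pos_mem q), hq]⟩

theorem Lifts.ker_le [ContractibleSpace E] (hp : IsQuotientCoveringMap p G)
    (L : Lifts c p G) (v₀ : c.V) (pw : c.V → FreeGroup c.Ed)
    (h1 : ∀ v, c.IsPath v₀ v (pw v)) (h2 : ∀ v, FreeGroup.lift L.φ (pw v) = 1) :
    (FreeGroup.lift L.φ).ker ≤ Subgroup.normalClosure (range c.word ∪ range pw) := by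
  set N := Subgroup.normalClosure (range c.word ∪ range pw) with hN
  let θ : FreeGroup c.Ed →* FreeGroup c.Ed ⧸ N := QuotientGroup.mk' N
  have hθN : ∀ x, θ x = 1 ↔ x ∈ N := fun x => QuotientGroup.eq_one_iff x
  obtain ⟨Φ, hΦ, hΦq⟩ := c.exists_flat θ fun f =>
    (hθN _).2 (Subgroup.subset_normalClosure (Or.inl ⟨f, rfl⟩))
  have hcov := (isQuotientCoveringMap_qmk (FreeGroup c.Ed ⧸ N) PUnit.{1}).isCoveringMap
  have hpc : Continuous p := hp.continuous
  have := hp.toContinuousConstSMul
  obtain ⟨Ψ, hΨ, hΨp, -⟩ := exists_lift_of_contractible hcov (fun x => Φ (p x)) (hΦ.comp hpc)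
    (L.vt v₀) (EE.one _, PUnit.unit) (by
      rw [L.p_vt]
      exact (hΦq (.ver v₀)).symm)
  have hs : ∀ (g : G) (v : c.V), ∃ s : FreeGroup c.Ed ⧸ N, Ψ (g • L.vt v) = s • (EE.one _, PUnit.unit) := by
    intro g v
    have := hΨp (g • L.vt v)
    rw [hp.map_smul, L.p_vt] at this
    exact qmk_eq_iff.1 (this.trans (hΦq (.ver v)))
  choose s hs using hs
  have hedge : ∀ (g : G) (e : c.Ed), s (g * L.φ e) (c.tgt e) = s g (c.src e) * θ (FreeGroup.of e) := by
    intro g e
    have key : (fun t : I => Ψ (g • L.et e t)) =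
        fun t : I => s g (c.src e) • ((EE.pth (θ (FreeGroup.of e)) t, PUnit.unit) : EE _ × PUnit.{1}) := by
      refine lift_unique hcov (hΨ.comp ((continuous_const_smul g).comp (L.cont e)))
        ((continuous_const_smul _).comp ((EE.continuous_pth _).prodMk continuous_const)) ?_ 0 ?_
      · intro t
        rw [hΨp, hp.map_smul, L.p_et]
        have h3 := hΦq (.arc e t)
        refine h3.trans (qmk_eq_iff.2 ⟨(s g (c.src e))⁻¹, ?_⟩)
        rw [inv_smul_smul]
        rfl
      · rw [L.zero, hs, EE.pth_zero]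
    have h3 := congrFun key 1
    beta_reduce at h3
    rw [L.one, ← mul_smul, hs, EE.pth_one] at h3
    have h4 : s (g * L.φ e) (c.tgt e) • EE.one _ =
        (s g (c.src e) * θ (FreeGroup.of e)) • EE.one (FreeGroup c.Ed ⧸ N) := by
      rw [mul_smul]
      exact congrArg Prod.fst h3
    exact EE.smul_right_injective _ h4
  have hpath : ∀ v v' x, c.IsPath v v' x → ∀ g : G,
      s (g * FreeGroup.lift L.φ x) v' = s g v * θ x := by
    intro v v' x hx
    induction hx with
    | nil v => intro g; simp only [map_one, mul_one]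
    | cons e v x hx ih =>
      intro g
      rw [map_mul, map_mul, FreeGroup.lift_apply_of, ← mul_assoc, ih, hedge, mul_assoc]
    | cons' e v x hx ih =>
      intro g
      have h3 := hedge (g * (L.φ e)⁻¹) e
      rw [inv_mul_cancel_right] at h3
      rw [map_mul, map_mul, map_inv, map_inv, FreeGroup.lift_apply_of, ← mul_assoc, ih, h3]
      group
  have hv : ∀ g v, s g v = s g v₀ := by
    intro g v
    have h3 := hpath _ _ _ (h1 v) g
    rwa [h2, mul_one, (hθN _).2 (Subgroup.subset_normalClosure (Or.inr ⟨v, rfl⟩)), mul_one] at h3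
  have hall : ∀ x : FreeGroup c.Ed, ∀ g : G, s (g * FreeGroup.lift L.φ x) v₀ = s g v₀ * θ x := by
    intro x
    induction x using FreeGroup.induction_on with
    | C1 => intro g; simp
    | of e =>
      intro g
      rw [FreeGroup.lift_apply_of, ← hv _ (c.tgt e), hedge, hv]
    | inv_of e ih =>
      intro g
      have h3 := ih (g * (L.φ e)⁻¹)
      rw [FreeGroup.lift_apply_of, inv_mul_cancel_right] at h3
      rw [map_inv, map_inv, FreeGroup.lift_apply_of, h3]
      group
    | mul x y ihx ihy =>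
      intro g
      rw [map_mul, map_mul, ← mul_assoc, ihy, ihx, mul_assoc]
  intro x hx
  have h3 := hall x 1
  rw [(MonoidHom.mem_ker).1 hx, mul_one] at h3
  exact (hθN _).1 (left_eq_mul.1 h3)

end Ker

end Vale.Agent.P173.Topo
end
end

section

section

/-! # P173, topology bridge: proper discontinuity of the action on a covering -/

open Set Topology unitInterval

namespace Vale.Agent.P173.Topo

universe u v w

variable {Z : Type u} [TopologicalSpace Z]
variable {E : Type v} [TopologicalSpace E] {p : E → Z} {G : Type} [Group G] [MulAction G E]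

/-- every point of the covering has an open neighbourhood on which `p` is injective -/
theorem exists_injOn_nhd (hp : IsQuotientCoveringMap p G) (x : E) :
    ∃ W : Set E, IsOpen W ∧ x ∈ W ∧ InjOn p W := by
  obtain ⟨U, hU, hUd⟩ := hp.disjoint x
  refine ⟨interior U, isOpen_interior, mem_interior_iff_mem_nhds.2 hU, ?_⟩
  intro y hy z hz hyz
  obtain ⟨g, hg⟩ := hp.apply_eq_iff_mem_orbit.1 hyz
  have hg1 : g = 1 := hUd g ⟨y, ⟨z, interior_subset hz, hg⟩, interior_subset hy⟩
  subst hg1
  simpa using hg.symm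

theorem smul_cancel (hp : IsQuotientCoveringMap p G) {g h : G} {x : E} (e : g • x = h • x) :
    g = h := by
  have := hp.isCancelSMul
  exact IsCancelSMul.right_cancel _ _ _ e

/-- proper discontinuity -/
theorem finite_smul_inter [T2Space Z] (hp : IsQuotientCoveringMap p G) (C₁ C₂ : Set E)
    (h1 : IsCompact C₁) (h2 : IsCompact C₂) : {g : G | ((g • ·) '' C₁ ∩ C₂).Nonempty}.Finite := by
  have := hp.toContinuousConstSMul
  have hcl : IsClosed {z : E × E | p z.1 = p z.2} :=
    isClosed_eq (hp.continuous.comp continuous_fst) (hp.continuous.comp continuous_snd)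
  have hP : IsCompact (C₁ ×ˢ C₂ ∩ {z : E × E | p z.1 = p z.2}) := (h1.prod h2).inter_right hcl
  have key : {g : G | ∃ z ∈ (C₁ ×ˢ C₂ ∩ {z : E × E | p z.1 = p z.2}), z.2 = g • z.1}.Finite := by
    refine hP.induction_on (p := fun A => {g : G | ∃ z ∈ A, z.2 = g • z.1}.Finite)
      (by simp only [mem_empty_iff_false, false_and, exists_false, ofPred_false, finite_empty]) (fun s t hst ht => ht.subset fun g ⟨z, hz, hg⟩ => ⟨z, hst hz, hg⟩)
      (fun s t hs ht => (hs.union ht).subset ?_) ?_
    · rintro g ⟨z, hz | hz, hg⟩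
      · exact Or.inl ⟨z, hz, hg⟩
      · exact Or.inr ⟨z, hz, hg⟩
    · rintro ⟨x, y⟩ ⟨-, hxy⟩
      obtain ⟨g₀, hg₀⟩ := hp.apply_eq_iff_mem_orbit.1 (Eq.symm hxy)
      obtain ⟨W, hW, hyW, hinj⟩ := exists_injOn_nhd hp y
      refine ⟨{z | z.2 ∈ W ∧ g₀ • z.1 ∈ W}, ?_, ?_⟩
      · refine mem_nhdsWithin_of_mem_nhds (IsOpen.mem_nhds ?_ ⟨hyW, ?_⟩)
        · exact (hW.preimage continuous_snd).inter
            (hW.preimage ((continuous_const_smul g₀).comp continuous_fst))
        · have h3 : g₀ • x = y := hg₀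
          change g₀ • x ∈ W
          rw [h3]
          exact hyW
      · refine (finite_singleton g₀).subset ?_
        rintro g ⟨z, ⟨hz1, hz2⟩, hg⟩
        have h3 : z.2 = g₀ • z.1 := hinj hz1 hz2 (by rw [hg, hp.map_smul, hp.map_smul])
        rw [h3] at hg
        exact smul_cancel hp hg.symm
  refine key.subset ?_
  rintro g ⟨y, ⟨x, hx, rfl⟩, hy⟩
  exact ⟨(x, g • x), ⟨⟨hx, hy⟩, (hp.map_smul g).symm⟩, rfl⟩

end Vale.Agent.P173.Topo
end
end

section

section

/-! # P173, topology bridge: chains of words and the final algebraic step -/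

open Set Topology unitInterval

namespace Vale.Agent.P173.Topo

universe u v w

section M8

section chain
variable {G : Type} [Group G] {X : Type u} (φ : X → G)

theorem pathChain_nil' (h : G) : pathChain φ [] h = 0 := rfl

theorem pathChain_true (x : X) (l : List (X × Bool)) (h : G) :
    pathChain φ ((x, true) :: l) h = Finsupp.single (x, h) 1 + pathChain φ l (h * φ x) := rfl

theorem pathChain_false (x : X) (l : List (X × Bool)) (h : G) :
    pathChain φ ((x, false) :: l) h =
      - Finsupp.single (x, h * (φ x)⁻¹) 1 + pathChain φ l (h * (φ x)⁻¹) := rfl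

theorem pathChain_append (l₁ l₂ : List (X × Bool)) (g : G) :
    pathChain φ (l₁ ++ l₂) g =
      pathChain φ l₁ g + pathChain φ l₂ (g * FreeGroup.lift φ (FreeGroup.mk l₁)) := by
  induction l₁ generalizing g with
  | nil =>
    rw [List.nil_append, pathChain_nil', ← FreeGroup.one_eq_mk, map_one, mul_one, zero_add]
  | cons a l ih =>
    obtain ⟨x, t⟩ := a
    cases t with
    | true =>
      have e : FreeGroup.mk ((x, true) :: l) = FreeGroup.of x * FreeGroup.mk l := rfl
      rw [List.cons_append, pathChain_true, pathChain_true, ih, e, map_mul,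
        FreeGroup.lift_apply_of, mul_assoc, add_assoc]
    | false =>
      have e : FreeGroup.mk ((x, false) :: l) = (FreeGroup.of x)⁻¹ * FreeGroup.mk l := rfl
      rw [List.cons_append, pathChain_false, pathChain_false, ih, e, map_mul, map_inv,
        FreeGroup.lift_apply_of, mul_assoc, add_assoc]

theorem pathChain_step {l₁ l₂ : List (X × Bool)} (h : FreeGroup.Red.Step l₁ l₂) (g : G) :
    pathChain φ l₁ g = pathChain φ l₂ g := by
  obtain @⟨L₁, L₂, x, b⟩ := h
  rw [pathChain_append, pathChain_append]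
  congr 1
  cases b
  · rw [pathChain_false, Bool.not_false, pathChain_true, inv_mul_cancel_right, neg_add_cancel_left]
  · rw [pathChain_true, Bool.not_true, pathChain_false, mul_inv_cancel_right, add_neg_cancel_left]

theorem pathChain_red {l₁ l₂ : List (X × Bool)} (h : FreeGroup.Red l₁ l₂) (g : G) :
    pathChain φ l₁ g = pathChain φ l₂ g := by
  induction h with
  | refl => rfl
  | tail _ h ih => exact ih.trans (pathChain_step φ h g)

theorem chain_mk (l : List (X × Bool)) (g : G) : chain φ (FreeGroup.mk l) g = pathChain φ l g := by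
  classical
  rw [chain, FreeGroup.toWord_mk]
  exact (pathChain_red φ FreeGroup.reduce.red g).symm

theorem chain_one (g : G) : chain φ 1 g = 0 := by
  rw [FreeGroup.one_eq_mk, chain_mk]; rfl

theorem chain_of (x : X) (g : G) : chain φ (FreeGroup.of x) g = Finsupp.single (x, g) 1 := by
  have e : FreeGroup.of x = FreeGroup.mk [(x, true)] := rfl
  rw [e, chain_mk, pathChain_true, pathChain_nil', add_zero]

theorem chain_mul (x y : FreeGroup X) (g : G) :
    chain φ (x * y) g = chain φ x g + chain φ y (g * FreeGroup.lift φ x) := by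
  induction x using Quot.inductionOn with | _ l₁
  induction y using Quot.inductionOn with | _ l₂
  change chain φ (FreeGroup.mk l₁ * FreeGroup.mk l₂) g =
    chain φ (FreeGroup.mk l₁) g + chain φ (FreeGroup.mk l₂) (g * FreeGroup.lift φ (FreeGroup.mk l₁))
  rw [FreeGroup.mul_mk, chain_mk, chain_mk, chain_mk, pathChain_append]

theorem chain_inv (x : FreeGroup X) (g : G) :
    chain φ x⁻¹ g = - chain φ x (g * (FreeGroup.lift φ x)⁻¹) := by
  have h := chain_mul φ x⁻¹ x g
  rw [inv_mul_cancel, chain_one, map_inv] at h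
  exact eq_neg_of_add_eq_zero_left h.symm

end chain

section
variable {Z : Type u} [TopologicalSpace Z] (c : Cx Z) {G : Type} [Group G] (φ : c.Ed → G)

/-- the boundary of 1-chains -/
noncomputable def bd₁ : (c.Ed × G →₀ ℤ) →ₗ[ℤ] (c.V × G →₀ ℤ) :=
  Finsupp.linearCombination ℤ fun q =>
    Finsupp.single (c.tgt q.1, q.2 * φ q.1) 1 - Finsupp.single (c.src q.1, q.2) 1

theorem bd₁_single (e : c.Ed) (g : G) : bd₁ c φ (Finsupp.single (e, g) 1) =
    Finsupp.single (c.tgt e, g * φ e) 1 - Finsupp.single (c.src e, g) 1 := by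
  rw [bd₁, Finsupp.linearCombination_single, one_smul]

theorem bd₁_chain {v v' : c.V} {x : FreeGroup c.Ed} (h : c.IsPath v v' x) (g : G) :
    bd₁ c φ (chain φ x g) =
      Finsupp.single (v', g * FreeGroup.lift φ x) 1 - Finsupp.single (v, g) 1 := by
  induction h generalizing g with
  | nil v => rw [chain_one, map_zero, map_one, mul_one, sub_self]
  | cons e v x _ ih =>
    rw [chain_mul, map_add, chain_of, bd₁_single, ih, map_mul, FreeGroup.lift_apply_of, mul_assoc]
    abel
  | cons' e v x _ ih =>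
    rw [chain_mul, map_add, chain_inv, chain_of, map_neg, bd₁_single, ih, map_mul, map_inv,
      FreeGroup.lift_apply_of, inv_mul_cancel_right, mul_assoc]
    abel

/-- `ev` as a linear map -/
noncomputable def evL {X : Type u} (b : X → ℤ) : (X →₀ ℤ) →ₗ[ℤ] ℤ :=
  Finsupp.linearCombination ℤ b

theorem evL_apply {X : Type u} (b : X → ℤ) (z : X →₀ ℤ) : evL b z = ev b z := by
  rw [evL, Finsupp.linearCombination_apply, ev]
  rfl

end

theorem exists_pres {Z : Type u} [TopologicalSpace Z] (c : Cx Z) {G : Type} [Group G]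
    (φ : c.Ed → G) (w : c.Fa → FreeGroup c.Ed)
    (v₀ : c.V) (pw : c.V → FreeGroup c.Ed) (hp0 : pw v₀ = 1) (hpw : ∀ v, c.IsPath v₀ v (pw v))
    (hw : ∀ f, ∃ v, c.IsPath v v (w f))
    (hφp : ∀ v, FreeGroup.lift φ (pw v) = 1) (hφw : ∀ f, FreeGroup.lift φ (w f) = 1)
    (surj : Function.Surjective (FreeGroup.lift φ))
    (ker : (FreeGroup.lift φ).ker ≤ Subgroup.normalClosure (range w ∪ range pw))
    (ind : ∀ (q₀ : c.Fa × G) (S : Finset (c.Fa × G)), ∃ b : c.Ed × G → ℤ, ∀ q ∈ S,
      ev b (chain φ (w q.1) q.2) = haveI := Classical.dec (q = q₀); if q = q₀ then 1 else 0) :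
    ∃ P : Pres.{u} G, P.Aspherical := by
  classical
  -- the words of the presentation
  set word : c.Fa ⊕ {v // v ≠ v₀} → FreeGroup c.Ed := Sum.elim w fun v => pw v.1 with hword
  have hmk : ∀ r, FreeGroup.mk (word r).toWord = word r := fun r => FreeGroup.mk_toWord
  let P : Pres.{u} G :=
    { X := c.Ed
      R := c.Fa ⊕ {v // v ≠ v₀}
      φ := φ
      rel := fun r => (word r).toWord
      surj := surj
      ker := by
        simp only [hmk]
        apply le_antisymm
        · refine ker.trans (Subgroup.normalClosure_le_normal ?_)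
          rintro _ (⟨f, rfl⟩ | ⟨v, rfl⟩)
          · exact Subgroup.subset_normalClosure ⟨Sum.inl f, rfl⟩
          · by_cases hv : v = v₀
            · rw [hv, hp0]; exact one_mem _
            · exact Subgroup.subset_normalClosure ⟨Sum.inr ⟨v, hv⟩, rfl⟩
        · refine Subgroup.normalClosure_le_normal ?_
          rintro _ ⟨r | r, rfl⟩
          · exact hφw r
          · exact hφp r.1 }
  refine ⟨P, ?_⟩
  have hchain : ∀ q : P.R × G, pathChain P.φ (P.rel q.1) q.2 = chain φ (word q.1) q.2 := by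
    intro q
    rw [← chain_mk]
    exact congrArg (fun x => chain φ x q.2) (hmk q.1)
  rw [Pres.Aspherical, ← LinearMap.ker_eq_bot, LinearMap.ker_eq_bot']
  intro z hz
  have hz' : Finsupp.linearCombination ℤ (fun q : P.R × G => chain φ (word q.1) q.2) z = 0 := by
    rw [← hz, Pres.boundary]
    exact congrArg (fun v => Finsupp.linearCombination ℤ v z) (funext fun q => (hchain q).symm)
  -- step 1: no path cells
  have h1 : ∀ (v : {v // v ≠ v₀}) (g : G), z (Sum.inr v, g) = 0 := by
    intro v g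
    have hb : Finsupp.linearCombination ℤ (fun q : P.R × G => bd₁ c φ (chain φ (word q.1) q.2)) z
        = 0 := by
      have := congrArg (bd₁ c φ) hz'
      rw [map_zero, Finsupp.apply_linearCombination] at this
      exact this
    have hb2 := DFunLike.congr_fun hb ((v : c.V), g)
    rw [Finsupp.linearCombination_apply, Finsupp.sum_apply, Finsupp.zero_apply,
      Finsupp.sum] at hb2
    have key : ∀ q : P.R × G, (z q • bd₁ c φ (chain φ (word q.1) q.2)) ((v : c.V), g) =
        if q = (Sum.inr v, g) then z q else 0 := by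
      rintro ⟨r | r, k⟩
      · obtain ⟨u, hu⟩ := hw r
        have : word (Sum.inl r) = w r := rfl
        rw [if_neg (by simp), Finsupp.smul_apply]
        dsimp only
        rw [this, bd₁_chain c φ hu, hφw, mul_one, sub_self, Finsupp.zero_apply, smul_zero]
      · have : word (Sum.inr r) = pw r.1 := rfl
        rw [Finsupp.smul_apply]
        dsimp only
        rw [this, bd₁_chain c φ (hpw r.1), hφp, mul_one, Finsupp.sub_apply, Finsupp.single_apply,
          Finsupp.single_apply]
        have h2 : ¬ ((v₀, k) = ((v : c.V), g)) := by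
          intro h
          exact v.2 (Prod.mk.inj h).1.symm
        rw [if_neg h2, sub_zero]
        by_cases h3 : (r, k) = (v, g)
        · obtain ⟨rfl, rfl⟩ := Prod.mk.inj h3
          simp
        · have h4 : ¬ ((r : c.V), k) = ((v : c.V), g) := by
            intro h
            obtain ⟨h5, h6⟩ := Prod.mk.inj h
            exact h3 (by rw [Subtype.ext h5, h6])
          have h5 : ¬ ((Sum.inr r : c.Fa ⊕ {v // v ≠ v₀}), k) = (Sum.inr v, g) := by
            intro h
            obtain ⟨h5, h6⟩ := Prod.mk.inj h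
            exact h3 (by rw [Sum.inr_injective h5, h6])
          rw [if_neg h4]
          rw [smul_zero]
          exact (if_neg h5).symm
    rw [Finset.sum_congr rfl fun q _ => key q, Finset.sum_ite_eq'] at hb2
    by_cases hmem : ((Sum.inr v, g) : P.R × G) ∈ z.support
    · rwa [if_pos hmem] at hb2
    · exact Finsupp.notMem_support_iff.1 hmem
  -- step 2: no faces
  have h2 : ∀ (f : c.Fa) (g : G), z (Sum.inl f, g) = 0 := by
    intro f g
    by_contra hne
    let S : Finset (c.Fa × G) := z.support.preimage (fun q : c.Fa × G => (Sum.inl q.1, q.2))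
      (fun a _ b _ h => by
        obtain ⟨h5, h6⟩ := Prod.mk.inj h
        exact Prod.ext (Sum.inl_injective h5) h6)
    obtain ⟨b, hb⟩ := ind (f, g) S
    have he := congrArg (evL b) hz'
    rw [map_zero, Finsupp.apply_linearCombination, Finsupp.linearCombination_apply,
      Finsupp.sum] at he
    have key : ∀ q ∈ z.support, z q • (⇑(evL b) ∘ fun q : P.R × G => chain φ (word q.1) q.2) q =
        if q = (Sum.inl f, g) then z q else 0 := by
      rintro ⟨r | r, k⟩ hq
      · have hmem : (r, k) ∈ S := by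
          exact Finset.mem_preimage.2 hq
        have hbb := hb (r, k) hmem
        have e1 : (⇑(evL b) ∘ fun q : P.R × G => chain φ (word q.1) q.2) (Sum.inl r, k) =
            ev b (chain φ (w r) k) := evL_apply _ _
        rw [e1]
        dsimp only at hbb
        rw [hbb]
        by_cases h3 : (r, k) = (f, g)
        · obtain ⟨rfl, rfl⟩ := Prod.mk.inj h3
          simp
        · have h5 : ¬ ((Sum.inl r : c.Fa ⊕ {v // v ≠ v₀}), k) = (Sum.inl f, g) := by
            intro h
            obtain ⟨h5, h6⟩ := Prod.mk.inj h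
            exact h3 (by rw [Sum.inl_injective h5, h6])
          rw [if_neg h3, smul_zero]
          exact (if_neg h5).symm
      · exact absurd (h1 r k) (Finsupp.mem_support_iff.1 hq)
    rw [Finset.sum_congr rfl key, Finset.sum_ite_eq', if_pos (Finsupp.mem_support_iff.2 hne)] at he
    exact hne he
  ext ⟨r | r, k⟩
  · exact h2 r k
  · exact h1 r k

end M8

end Vale.Agent.P173.Topo
end
end

section

section

/-! # P173, topology bridge: winding numbers -/

open Set Topology unitInterval

namespace Vale.Agent.P173.Topo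

/-- a nowhere zero function on a polar disc has winding number zero on the boundary -/
theorem winding_zero (k : I × I → ℂ) (hk : Continuous k) (hk0 : ∀ q, k q ≠ 0)
    (h0 : ∀ t t', k (0, t) = k (0, t')) (hw : ∀ r, k (r, 0) = k (r, 1))
    (l : I → ℂ) (hl : Continuous l) (hl' : ∀ t, Complex.exp (l t) = k (1, t)) : l 0 = l 1 := by
  have hq := Complex.isCoveringMap_exp
  obtain ⟨g, hg, hgk, hg0, -, hgw⟩ := exists_polar_lift hq
    (fun q => (⟨k q, hk0 q⟩ : {z : ℂ // z ≠ 0})) (hk.subtype_mk _)
    (fun t t' => Subtype.ext (h0 t t')) (fun r => Subtype.ext (hw r)) (l 0)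
    (Subtype.ext (hl' 0))
  have h1 : (fun t : I => g (1, t)) = l :=
    lift_unique hq (hg.comp (continuous_const.prodMk continuous_id)) hl
      (fun t => by rw [hgk]; exact Subtype.ext (hl' t).symm) 0 hg0
  have h2 : g (1, 1) = l 1 := congrFun h1 1
  rw [← h2, ← hgw, hg0]

end Vale.Agent.P173.Topo
end
end

section

section

/-! # P173, topology bridge: the Hopf bundle and the pinch map of a 2-cell -/

open Set Topology unitInterval

namespace Vale.Agent.P173.Topo

universe u v w

namespace Hopf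

/-- the vector space `ℂ²` -/
abbrev C2 := ℂ × ℂ

/-- squared norm -/
noncomputable def nn (w : C2) : ℂ := (starRingEnd ℂ) w.1 * w.1 + (starRingEnd ℂ) w.2 * w.2

theorem nn_ne_zero {w : C2} (hw : w ≠ 0) : nn w ≠ 0 := by
  have h : nn w = ((Complex.normSq w.1 + Complex.normSq w.2 : ℝ) : ℂ) := by
    simp only [nn, Complex.ofReal_add, Complex.normSq_eq_conj_mul_self]
  rw [h]
  have h1 := Complex.normSq_nonneg w.1
  have h2 := Complex.normSq_nonneg w.2
  intro h3
  have h4 : Complex.normSq w.1 + Complex.normSq w.2 = 0 := by exact_mod_cast h3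
  have h5 : Complex.normSq w.1 = 0 := by linarith only [h1, h2, h4]
  have h6 : Complex.normSq w.2 = 0 := by linarith only [h2, h1, h4]
  exact hw (Prod.ext (Complex.normSq_eq_zero.1 h5) (Complex.normSq_eq_zero.1 h6))

/-- the coefficient functional -/
noncomputable def cf (w : C2) : C2 →L[ℂ] ℂ :=
  (nn w)⁻¹ • ((starRingEnd ℂ) w.1 • ContinuousLinearMap.fst ℂ ℂ ℂ +
    (starRingEnd ℂ) w.2 • ContinuousLinearMap.snd ℂ ℂ ℂ)

theorem cf_apply (w v : C2) : cf w v =
    (nn w)⁻¹ * ((starRingEnd ℂ) w.1 * v.1 + (starRingEnd ℂ) w.2 * v.2) := by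
  simp [cf, mul_add]

theorem cf_self {w : C2} (hw : w ≠ 0) : cf w w = 1 := by
  rw [cf_apply]
  exact inv_mul_cancel₀ (nn_ne_zero hw)

/-- the orthogonal projection onto the line of `w` -/
noncomputable def pr (w : C2) : C2 →L[ℂ] C2 := (cf w).smulRight w

theorem pr_apply (w v : C2) : pr w v = cf w v • w := rfl

theorem pr_self {w : C2} (hw : w ≠ 0) : pr w w = w := by
  rw [pr_apply, cf_self hw, one_smul]

theorem pr_fst {a : ℂ} (ha : a ≠ 0) : pr (a, 0) = pr (1, 0) := by
  have ha' : (starRingEnd ℂ) a ≠ 0 := (map_ne_zero _).2 ha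
  ext
  all_goals simp [pr_apply, cf_apply, nn]
  field_simp

theorem continuous_pr {A : Type*} [TopologicalSpace A] {u : A → C2} (hu : Continuous u)
    (h : ∀ a, u a ≠ 0) : Continuous fun a => pr (u a) := by
  have h1 : Continuous fun a => cf (u a) := by
    have h2 : Continuous fun a => nn (u a) := by
      unfold nn
      have := Complex.continuous_conj
      (clear * - hu; fun_prop)
    have h3 : Continuous fun a => (nn (u a))⁻¹ := h2.inv₀ fun a => nn_ne_zero (h a)
    unfold cf
    have := Complex.continuous_conj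
    (clear * - h3 hu; fun_prop)
  have h4 : Continuous fun q : (C2 →L[ℂ] ℂ) × C2 => q.1.smulRight q.2 := by
    exact (ContinuousLinearMap.smulRightL ℂ C2 C2).continuous₂
  exact h4.comp (h1.prodMk hu)


/-- the point of the line bundle over the polar disc -/
noncomputable def uu (q : I × I) : C2 :=
  (((q.1 : ℝ) : ℂ) * Complex.exp (2 * Real.pi * ((q.2 : ℝ) : ℂ) * Complex.I),
    1 - ((q.1 : ℝ) : ℂ))

theorem continuous_uu : Continuous uu := by
  unfold uu
  (clear * -; fun_prop)

theorem uu_ne_zero (q : I × I) : uu q ≠ 0 := by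
  intro h
  have h1 := congrArg Prod.fst h
  have h2 := congrArg Prod.snd h
  simp only [uu, Prod.fst_zero, Prod.snd_zero] at h1 h2
  rw [sub_eq_zero] at h2
  rw [← h2, one_mul] at h1
  exact Complex.exp_ne_zero _ h1

theorem uu_zero (t t' : I) : uu (0, t) = uu (0, t') := by
  simp only [uu, Icc.coe_zero, Complex.ofReal_zero, zero_mul, sub_zero]

theorem uu_wrap (r : I) : uu (r, 0) = uu (r, 1) := by
  simp only [uu, Icc.coe_zero, Complex.ofReal_zero, mul_zero, zero_mul, Complex.exp_zero, mul_one, Icc.coe_one, Complex.ofReal_one, Complex.exp_two_pi_mul_I]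

theorem uu_one (t : I) :
    uu (1, t) = (Complex.exp (2 * Real.pi * ((t : ℝ) : ℂ) * Complex.I), 0) := by
  simp only [uu, Icc.coe_one, Complex.ofReal_one, one_mul, sub_self]

section sec

variable {E : Type v} [TopologicalSpace E] [T2Space E]
    (D : I × I → E) (hD : Continuous D)
    (hinj : ∀ r t r' t', D (r, t) = D (r', t') → r ≠ 1 →
      r = r' ∧ (r = 0 ∨ t = t' ∨ (t = 0 ∧ t' = 1) ∨ (t = 1 ∧ t' = 0)))
    (hopen : IsOpen (D '' {q | q.1 ≠ 1}))

omit [TopologicalSpace E] [T2Space E] in
include hinj in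
theorem one_notMem (t : I) : D (1, t) ∉ D '' {q | q.1 ≠ 1} := by
  rintro ⟨⟨r, t'⟩, hr, h⟩
  exact hr (hinj r t' 1 t h hr).1

open Classical in
/-- the family of projections over `E` -/
noncomputable def QQE (x : E) : C2 →L[ℂ] C2 :=
  if h : x ∈ D '' {q | q.1 ≠ 1} then pr (uu h.choose) else pr (1, 0)

omit [TopologicalSpace E] [T2Space E] in
include hinj in
theorem QQE_D (q : I × I) : QQE D (D q) = pr (uu q) := by
  classical
  obtain ⟨r, t⟩ := q
  by_cases hr : r = 1
  · subst hr
    rw [QQE, dif_neg (one_notMem D hinj t), uu_one, pr_fst (Complex.exp_ne_zero _)]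
  · have h : D (r, t) ∈ D '' {q | q.1 ≠ 1} := ⟨(r, t), hr, rfl⟩
    rw [QQE, dif_pos h]
    have h2 := h.choose_spec
    generalize h.choose = q' at h2
    obtain ⟨r', t'⟩ := q'
    obtain ⟨hr', h3⟩ := h2
    obtain ⟨rfl, h4⟩ := hinj r' t' r t h3 hr'
    rcases h4 with rfl | rfl | ⟨rfl, rfl⟩ | ⟨rfl, rfl⟩
    · rw [uu_zero]
    · rfl
    · rw [uu_wrap]
    · rw [uu_wrap]

omit [TopologicalSpace E] [T2Space E] in
theorem QQE_of_notMem {x : E} (h : x ∉ D '' {q | q.1 ≠ 1}) : QQE D x = pr (1, 0) := by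
  classical
  rw [QQE, dif_neg h]

include hD hinj hopen in
theorem continuous_QQE : Continuous (QQE D) := by
  rw [continuous_iff_isClosed]
  intro C hC
  have h1 : IsClosed (D '' ((fun q => pr (uu q)) ⁻¹' C)) := by
    have : IsClosed ((fun q : I × I => pr (uu q)) ⁻¹' C) :=
      hC.preimage (continuous_pr continuous_uu uu_ne_zero)
    exact (this.isCompact.image hD).isClosed
  by_cases hp : pr (1, 0) ∈ C
  · have : QQE D ⁻¹' C = D '' ((fun q => pr (uu q)) ⁻¹' C) ∪ (D '' {q | q.1 ≠ 1})ᶜ := by
      ext x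
      constructor
      · intro hx
        by_cases h : x ∈ D '' {q | q.1 ≠ 1}
        · obtain ⟨q, -, rfl⟩ := h
          rw [mem_preimage, QQE_D D hinj] at hx
          exact Or.inl ⟨q, hx, rfl⟩
        · exact Or.inr h
      · rintro (⟨q, hq, rfl⟩ | h)
        · rw [mem_preimage, QQE_D D hinj]
          exact hq
        · rw [mem_preimage, QQE_of_notMem D h]
          exact hp
    rw [this]
    exact h1.union hopen.isClosed_compl
  · have : QQE D ⁻¹' C = D '' ((fun q => pr (uu q)) ⁻¹' C) := by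
      ext x
      constructor
      · intro hx
        by_cases h : x ∈ D '' {q | q.1 ≠ 1}
        · obtain ⟨q, -, rfl⟩ := h
          rw [mem_preimage, QQE_D D hinj] at hx
          exact ⟨q, hx, rfl⟩
        · rw [mem_preimage, QQE_of_notMem D h] at hx
          exact absurd hx hp
      · rintro ⟨q, hq, rfl⟩
        rw [mem_preimage, QQE_D D hinj]
        exact hq
    rw [this]
    exact h1

end sec

/-- Transport of sections along a homotopy of projections over a compact set. -/
theorem exists_transport {E : Type v} [TopologicalSpace E] (P : I × E → (C2 →L[ℂ] C2))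
    (hP : Continuous P) (K : Set E) (hK : IsCompact K)
    (hidem : ∀ q v, P q (P q v) = P q v)
    (v₀ : E → C2) (hv₀ : ContinuousOn v₀ K) (hv₀' : ∀ x ∈ K, v₀ x ≠ 0)
    (hPv : ∀ x ∈ K, P (0, x) (v₀ x) = v₀ x) :
    ∃ v : E → C2, ContinuousOn v K ∧ (∀ x ∈ K, v x ≠ 0) ∧ ∀ x ∈ K, P (1, x) (v x) = v x := by
  let A : Set I := {τ | ∃ v : E → C2, ContinuousOn v K ∧ (∀ x ∈ K, v x ≠ 0) ∧
    ∀ x ∈ K, P (τ, x) (v x) = v x}
  have key : ∀ τ : I, ∃ N ∈ 𝓝 τ, ∀ a ∈ N, ∀ b ∈ N, a ∈ A → b ∈ A := by
    intro τ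
    have h1 : IsOpen {q : I × E | ‖P q - P (τ, q.2)‖ < 1 / 2} := by
      refine isOpen_lt ?_ continuous_const
      have h2 : Continuous fun q : I × E => P (τ, q.2) := hP.comp (by fun_prop)
      exact (hP.sub h2).norm
    obtain ⟨U, W, hU, -, hτ, hKW, hUW⟩ := generalized_tube_lemma (isCompact_singleton (x := τ)) hK h1
      (by
        rintro ⟨τ', x⟩ ⟨rfl, -⟩
        simp only [one_div, mem_ofPred_eq, sub_self, norm_zero, inv_pos, Nat.ofNat_pos])
    refine ⟨U, hU.mem_nhds (hτ rfl), ?_⟩
    rintro a ha b hb ⟨v, hv, hv0, hvP⟩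
    have hnorm : ∀ x ∈ K, ‖P (b, x) - P (a, x)‖ < 1 := by
      intro x hx
      have h3 : ‖P (a, x) - P (τ, x)‖ < 1 / 2 := hUW (mk_mem_prod ha (hKW hx))
      have h4 : ‖P (b, x) - P (τ, x)‖ < 1 / 2 := hUW (mk_mem_prod hb (hKW hx))
      calc ‖P (b, x) - P (a, x)‖ = ‖(P (b, x) - P (τ, x)) - (P (a, x) - P (τ, x))‖ := by
            congr 1; abel
        _ ≤ ‖P (b, x) - P (τ, x)‖ + ‖P (a, x) - P (τ, x)‖ := norm_sub_le _ _
        _ < 1 := by linarith only [h3, h4]
    refine ⟨fun x => P (b, x) (v x), ?_, ?_, fun x _ => hidem _ _⟩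
    · have h2 : Continuous fun x : E => P (b, x) := hP.comp (by fun_prop)
      exact h2.continuousOn.clm_apply hv
    · intro x hx h
      have h' : P (b, x) (v x) = 0 := h
      have h5 : v x = - ((P (b, x) - P (a, x)) (v x)) := by
        rw [sub_apply, h', hvP x hx]
        simp
      have h6 : ‖v x‖ ≤ ‖P (b, x) - P (a, x)‖ * ‖v x‖ := by
        calc ‖v x‖ = ‖(P (b, x) - P (a, x)) (v x)‖ := by
              conv_lhs => rw [h5]
              rw [norm_neg]
          _ ≤ _ := ContinuousLinearMap.le_opNorm _ _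
      have h7 : 0 < ‖v x‖ := norm_pos_iff.2 (hv0 x hx)
      nlinarith only [h6, h7, hnorm x hx]
  have hA0 : (0 : I) ∈ A := ⟨v₀, hv₀, hv₀', hPv⟩
  have hclopen : IsClopen A := by
    constructor
    · rw [← isOpen_compl_iff, isOpen_iff_mem_nhds]
      intro τ hτ
      obtain ⟨N, hN, h⟩ := key τ
      refine Filter.mem_of_superset hN fun a ha haA => hτ (h a ha τ (mem_of_mem_nhds hN) haA)
    · rw [isOpen_iff_mem_nhds]
      intro τ hτ
      obtain ⟨N, hN, h⟩ := key τ
      exact Filter.mem_of_superset hN fun a ha => h τ (mem_of_mem_nhds hN) a ha hτ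
  have huniv : A = univ := hclopen.eq_univ ⟨0, hA0⟩
  have h1A : (1 : I) ∈ A := huniv ▸ mem_univ _
  exact h1A

end Hopf

open Hopf in
/-- The section on the complement of an open 2-cell `D` with winding number one around `D`. -/
theorem exists_section {E : Type v} [TopologicalSpace E] [T2Space E] [ContractibleSpace E]
    (D : I × I → E) (hD : Continuous D)
    (h0 : ∀ t t', D (0, t) = D (0, t')) (hw : ∀ r, D (r, 0) = D (r, 1))
    (hinj : ∀ r t r' t', D (r, t) = D (r', t') → r ≠ 1 →
      r = r' ∧ (r = 0 ∨ t = t' ∨ (t = 0 ∧ t' = 1) ∨ (t = 1 ∧ t' = 0)))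
    (hopen : IsOpen (D '' {q | q.1 ≠ 1})) (K : Set E) (hK : IsCompact K) (hDK : range D ⊆ K) :
    ∃ (s : E → ℂ) (k : I × I → ℂ), ContinuousOn s (K \ D '' {q | q.1 ≠ 1}) ∧
      (∀ x ∈ K \ D '' {q | q.1 ≠ 1}, s x ≠ 0) ∧
      Continuous k ∧ (∀ q, k q ≠ 0) ∧ (∀ t t', k (0, t) = k (0, t')) ∧
      (∀ r, k (r, 0) = k (r, 1)) ∧
      ∀ t : I, s (D (1, t)) = k (1, t) * Complex.exp (2 * Real.pi * (t : ℝ) * Complex.I) := by
  obtain ⟨y, ⟨H⟩⟩ := id_nullhomotopic E
  have hQ := continuous_QQE D hD hinj hopen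
  have hone : ((1 : ℂ), (0 : ℂ)) ≠ 0 := by simp [Prod.ext_iff]
  -- every projection is of the form `pr w`
  have hform : ∀ x, ∃ w : C2, w ≠ 0 ∧ QQE D x = pr w := by
    intro x
    by_cases h : x ∈ D '' {q | q.1 ≠ 1}
    · obtain ⟨q, -, rfl⟩ := h
      exact ⟨uu q, uu_ne_zero q, QQE_D D hinj q⟩
    · exact ⟨(1, 0), hone, QQE_of_notMem D h⟩
  obtain ⟨w₀, hw₀, hw₀'⟩ := hform y
  obtain ⟨v, hv, hv0, hvP⟩ := exists_transport (fun q : I × E => QQE D (H (σ q.1, q.2)))
    (hQ.comp (H.continuous.comp (by fun_prop))) K hK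
    (fun q a => by
      obtain ⟨b, hb, hb'⟩ := hform (H (σ q.1, q.2))
      simp only [hb']
      rw [pr_apply b a, map_smul, pr_self hb])
    (fun _ => w₀) continuousOn_const (fun _ _ => hw₀)
    (fun x _ => by
      simp only [symm_zero]
      rw [H.apply_one]
      simp only [ContinuousMap.const_apply]
      rw [hw₀', pr_self hw₀])
  have hvQ : ∀ x ∈ K, QQE D x (v x) = v x := by
    intro x hx
    have := hvP x hx
    simp only [symm_one] at this
    rwa [H.apply_zero] at this
  have hDv : Continuous fun q => v (D q) := hv.comp_continuous hD fun q => hDK ⟨q, rfl⟩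
  have hk : ∀ q, cf (uu q) (v (D q)) • uu q = v (D q) := by
    intro q
    have := hvQ (D q) (hDK ⟨q, rfl⟩)
    rwa [QQE_D D hinj, pr_apply] at this
  refine ⟨fun x => (v x).1, fun q => cf (uu q) (v (D q)), ?_, ?_, ?_, ?_, ?_, ?_, ?_⟩
  · exact continuous_fst.comp_continuousOn (hv.mono sdiff_subset)
  · rintro x ⟨hx, hxO⟩ h
    have h1 := hvQ x hx
    rw [QQE_of_notMem D hxO, pr_apply] at h1
    apply hv0 x hx
    refine Prod.ext h ?_
    rw [← h1]
    simp
  · simp only [cf_apply]
    have h1 : Continuous fun q => (nn (uu q))⁻¹ := by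
      refine Continuous.inv₀ ?_ fun q => nn_ne_zero (uu_ne_zero q)
      unfold nn
      have := Complex.continuous_conj
      have := continuous_uu
      (clear * -; fun_prop)
    have h2 := Complex.continuous_conj
    have h3 := continuous_uu
    exact h1.mul (((h2.comp (continuous_fst.comp h3)).mul (continuous_fst.comp hDv)).add
      ((h2.comp (continuous_snd.comp h3)).mul (continuous_snd.comp hDv)))
  · intro q h
    have h1 := hk q
    simp only at h
    rw [h, zero_smul] at h1
    exact hv0 _ (hDK ⟨q, rfl⟩) h1.symm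
  · intro t t'
    simp only
    rw [uu_zero t t', h0 t t']
  · intro r
    simp only
    rw [uu_wrap, hw]
  · intro t
    have h1 := congrArg Prod.fst (hk (1, t))
    rw [uu_one] at h1
    simp only [Prod.smul_fst, smul_eq_mul] at h1
    simp only
    rw [uu_one]
    exact h1.symm

end Vale.Agent.P173.Topo
end
end

section

section

/-! # P173, topology bridge: the boundaries of the 2-cells are independent -/

open Set Topology unitInterval

namespace Vale.Agent.P173.Topo

universe u v w

/-! ### lifting through the exponential function -/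

theorem exists_log_path (γ : I → ℂ) (hγ : Continuous γ) (hne : ∀ t, γ t ≠ 0) (z₀ : ℂ)
    (h : Complex.exp z₀ = γ 0) :
    ∃ l : I → ℂ, Continuous l ∧ l 0 = z₀ ∧ ∀ t, Complex.exp (l t) = γ t := by
  obtain ⟨l, hl, hl', hl0⟩ := exists_path_lift Complex.isCoveringMap_exp
    (fun t => (⟨γ t, hne t⟩ : {z : ℂ // z ≠ 0})) (hγ.subtype_mk _) z₀ (Subtype.ext h)
  exact ⟨l, hl, hl0, fun t => congrArg Subtype.val (hl' t)⟩

/-! ### evaluation -/

section ev
variable {X : Type u} (b : X → ℤ)

theorem ev_zero : ev b 0 = 0 := by simp [ev]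

theorem ev_single (x : X) (n : ℤ) : ev b (Finsupp.single x n) = n * b x := by
  simp [ev, Finsupp.sum_single_index]

theorem ev_add (y z : X →₀ ℤ) : ev b (y + z) = ev b y + ev b z := by
  classical
  simp only [ev]
  exact Finsupp.sum_add_index' (by simp) (by intros; ring)

end ev

section act

variable {E : Type v} [TopologicalSpace E] {G : Type} [Group G] [MulAction G E]
variable {X : Type u} (φ : X → G) (b : X × G → ℤ)

/-- The action of the free group on `E × (G → ℂ)` twisted by an integral cochain. -/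
@[implicit_reducible]
noncomputable def actM : MulAction (FreeGroup X) (E × (G → ℂ)) where
  smul a m := (FreeGroup.lift φ a • m.1, fun g => m.2 (g * FreeGroup.lift φ a) +
    (ev b (chain φ a g) : ℂ) * (2 * Real.pi * Complex.I))
  one_smul m := by
    refine Prod.ext ?_ ?_
    · change FreeGroup.lift φ 1 • m.1 = m.1
      rw [map_one, one_smul]
    · funext g
      change m.2 (g * FreeGroup.lift φ 1) +
        (ev b (chain φ 1 g) : ℂ) * (2 * Real.pi * Complex.I) = m.2 g
      rw [map_one, mul_one, chain_one, ev_zero]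
      simp
  mul_smul x y m := by
    refine Prod.ext ?_ ?_
    · change FreeGroup.lift φ (x * y) • m.1 = FreeGroup.lift φ x • FreeGroup.lift φ y • m.1
      rw [map_mul, mul_smul]
    · funext g
      change m.2 (g * FreeGroup.lift φ (x * y)) +
        (ev b (chain φ (x * y) g) : ℂ) * (2 * Real.pi * Complex.I) =
        (m.2 (g * FreeGroup.lift φ x * FreeGroup.lift φ y) +
          (ev b (chain φ y (g * FreeGroup.lift φ x)) : ℂ) * (2 * Real.pi * Complex.I)) +
        (ev b (chain φ x g) : ℂ) * (2 * Real.pi * Complex.I)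
      rw [chain_mul, ev_add, map_mul, ← mul_assoc]
      push_cast
      ring

end act

section M7
variable {Z : Type u} [TopologicalSpace Z] (c : Cx Z)
variable {E : Type v} [TopologicalSpace E] {p : E → Z} {G : Type} [Group G] [MulAction G E]

/-- The lift of an open 2-cell is open. -/
theorem isOpen_lift_face [T2Space Z] (hp : IsQuotientCoveringMap p G) (f : c.Fa) (ft : I × I → E)
    (hft : Continuous ft) (hpft : ∀ q, p (ft q) = c.face f q)
    (h0 : ∀ t t', ft (0, t) = ft (0, t')) (hw : ∀ r, ft (r, 0) = ft (r, 1)) :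
    IsOpen (ft '' {q | q.1 ≠ 1}) := by
  rw [isOpen_iff_mem_nhds]
  rintro x ⟨q, hq, rfl⟩
  obtain ⟨W, hW, hqW, hinj⟩ := exists_injOn_nhd hp (ft q)
  have hcl : IsClosed (c.face f '' (ft ⁻¹' W)ᶜ) := by
    have : IsCompact ((ft ⁻¹' W)ᶜ) := (hW.preimage hft).isClosed_compl.isCompact
    exact (this.image (c.face_cont f)).isClosed
  have hO : IsOpen (W ∩ p ⁻¹' ((c.face f '' (ft ⁻¹' W)ᶜ)ᶜ ∩ c.face f '' {q | q.1 ≠ 1})) :=
    hW.inter ((hcl.isOpen_compl.inter (c.isOpen_face f)).preimage hp.continuous)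
  have eqv : ∀ q' q'' : I × I, c.face f q' = c.face f q'' → q'.1 ≠ 1 → ft q' = ft q'' := by
    rintro ⟨r, t⟩ ⟨r', t'⟩ he hr
    obtain ⟨-, rfl, h⟩ := c.face_inj f r t f r' t' he hr
    rcases h with rfl | rfl | ⟨rfl, rfl⟩ | ⟨rfl, rfl⟩
    · exact h0 _ _
    · rfl
    · exact hw _
    · exact (hw _).symm
  refine Filter.mem_of_superset (hO.mem_nhds ⟨hqW, ?_, ?_⟩) ?_
  · rintro ⟨q', hq', he⟩
    apply hq'
    rw [hpft] at he
    rw [mem_preimage, ← eqv q q' he.symm hq]
    exact hqW
  · exact ⟨q, hq, (hpft q).symm⟩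
  · rintro y ⟨hyW, hy1, q', hq', he⟩
    refine ⟨q', hq', ?_⟩
    have hq'W : ft q' ∈ W := by
      by_contra hcon
      exact hy1 ⟨q', hcon, he⟩
    exact hinj hq'W hyW ((hpft q').trans he)

omit [TopologicalSpace E] in
/-- Two lifted points over the same point of the open 2-cell. -/
theorem lift_face_eq {f f' : c.Fa} {ft : c.Fa → I × I → E}
    (h0 : ∀ f t t', ft f (0, t) = ft f (0, t')) (hw : ∀ f r, ft f (r, 0) = ft f (r, 1))
    {q q' : I × I} (he : c.face f q = c.face f' q') (hq : q.1 ≠ 1) : f = f' ∧ ft f q = ft f' q' := by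
  obtain ⟨r, t⟩ := q
  obtain ⟨r', t'⟩ := q'
  obtain ⟨rfl, rfl, h⟩ := c.face_inj f r t f' r' t' he hq
  refine ⟨rfl, ?_⟩
  rcases h with rfl | rfl | ⟨rfl, rfl⟩ | ⟨rfl, rfl⟩
  · exact h0 _ _ _
  · rfl
  · exact hw _ _
  · exact (hw _ _).symm

theorem exists_logs [ContinuousConstSMul G E] (L : Lifts c p G) (K O : Set E) (s : E → ℂ)
    (hs : ContinuousOn s (K \ O)) (hs0 : ∀ x ∈ K \ O, s x ≠ 0)
    (hO : ∀ (g : G) (q : c.Pos), g • L.at q ∉ O)
    (BE : Set (c.Ed × G))
    (hB : ∀ e g s, s ≠ 0 → s ≠ 1 → g • L.et e s ∈ K → (e, g) ∈ BE)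
    (hB' : ∀ e g, (e, g) ∈ BE → ∀ s, g • L.et e s ∈ K) :
    ∃ (L0 : c.V → G → ℂ) (l : c.Ed → G → I → ℂ) (b : c.Ed → G → ℤ),
      (∀ e g, Continuous (l e g)) ∧ (∀ e g, l e g 0 = L0 (c.src e) g) ∧
      (∀ e g, l e g 1 = L0 (c.tgt e) (g * L.φ e) + (b e g : ℂ) * (2 * Real.pi * Complex.I)) ∧
      (∀ v g, g • L.vt v ∈ K → Complex.exp (L0 v g) = s (g • L.vt v)) ∧
      (∀ e g t, g • L.et e t ∈ K → Complex.exp (l e g t) = s (g • L.et e t)) := by
  classical
  let L0 : c.V → G → ℂ := fun v g => if g • L.vt v ∈ K then Complex.log (s (g • L.vt v)) else 0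
  have hL0 : ∀ v g, g • L.vt v ∈ K → Complex.exp (L0 v g) = s (g • L.vt v) := by
    intro v g h
    simp only [L0, if_pos h]
    exact Complex.exp_log (hs0 _ ⟨h, hO g (.ver v)⟩)
  have hsrc : ∀ e g, g • L.et e 0 ∈ K → Complex.exp (L0 (c.src e) g) = s (g • L.et e 0) := by
    intro e g h
    rw [L.zero] at h ⊢
    exact hL0 _ _ h
  have htgt : ∀ e g, g • L.et e 1 ∈ K →
      Complex.exp (L0 (c.tgt e) (g * L.φ e)) = s (g • L.et e 1) := by
    intro e g h
    rw [L.one, ← mul_smul] at h ⊢
    exact hL0 _ _ h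
  have key : ∀ e g, ∃ (l : I → ℂ) (b : ℤ), Continuous l ∧ l 0 = L0 (c.src e) g ∧
      l 1 = L0 (c.tgt e) (g * L.φ e) + (b : ℂ) * (2 * Real.pi * Complex.I) ∧
      ∀ t, g • L.et e t ∈ K → Complex.exp (l t) = s (g • L.et e t) := by
    intro e g
    by_cases h : (e, g) ∈ BE
    · have hK := hB' e g h
      have hX : ∀ t, g • L.et e t ∈ K \ O := fun t => ⟨hK t, hO g (.arc e t)⟩
      obtain ⟨l, hl, hl0, hlt⟩ := exists_log_path (fun t => s (g • L.et e t))
        (hs.comp_continuous ((continuous_const_smul g).comp (L.cont e)) hX)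
        (fun t => hs0 _ (hX t)) (L0 (c.src e) g) (hsrc e g (hK 0))
      have h1 : Complex.exp (l 1) = Complex.exp (L0 (c.tgt e) (g * L.φ e)) := by
        rw [hlt, htgt e g (hK 1)]
      obtain ⟨n, hn⟩ := Complex.exp_eq_exp_iff_exists_int.1 h1
      exact ⟨l, n, hl, hl0, hn, fun t _ => hlt t⟩
    · refine ⟨fun t => (1 - ((t : ℝ) : ℂ)) * L0 (c.src e) g +
        ((t : ℝ) : ℂ) * L0 (c.tgt e) (g * L.φ e), 0, by (clear * -; fun_prop), by simp only [Icc.coe_zero, Complex.ofReal_zero, sub_zero, one_mul, zero_mul, add_zero], by simp only [Icc.coe_one, Complex.ofReal_one, sub_self, zero_mul, one_mul, zero_add, Int.cast_zero, add_zero], ?_⟩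
      intro t ht
      by_cases h0 : t = 0
      · subst h0
        simpa only [Icc.coe_zero, Complex.ofReal_zero, sub_zero, one_mul, zero_mul, add_zero] using hsrc e g ht
      by_cases h1 : t = 1
      · subst h1
        simpa only [Icc.coe_one, Complex.ofReal_one, sub_self, zero_mul, one_mul, zero_add] using htgt e g ht
      exact absurd (hB e g t h0 h1 ht) h
  choose l b h1 h2 h3 h4 using key
  exact ⟨L0, l, b, h1, h2, h3, hL0, h4⟩

theorem exists_compact [T2Space Z] (hp : IsQuotientCoveringMap p G) (L : Lifts c p G)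
    (ft : c.Fa → I × I → E) (hft : ∀ f, Continuous (ft f))
    (hpft : ∀ f q, p (ft f q) = c.face f q) (S : Finset (c.Fa × G)) :
    ∃ (K : Set E) (BE : Set (c.Ed × G)), IsCompact K ∧
      (∀ q ∈ S, ∀ x, q.2 • ft q.1 x ∈ K) ∧
      (∀ e g s, s ≠ 0 → s ≠ 1 → g • L.et e s ∈ K → (e, g) ∈ BE) ∧
      (∀ e g, (e, g) ∈ BE → ∀ s, g • L.et e s ∈ K) := by
  classical
  have := hp.toContinuousConstSMul
  let K₀ : Set E := ⋃ q ∈ S, range fun x => q.2 • ft q.1 x
  have hK₀ : IsCompact K₀ := S.isCompact_biUnion fun q _ =>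
    isCompact_range ((continuous_const_smul q.2).comp (hft q.1))
  let BE : Set (c.Ed × G) := {eg | ∃ s, s ≠ 0 ∧ s ≠ 1 ∧ eg.2 • L.et eg.1 s ∈ K₀}
  choose SF hSF using c.face_bdry
  have hfin : BE.Finite := by
    have h1 : (⋃ q ∈ S, ⋃ e ∈ SF q.1,
        ({e} : Set c.Ed) ×ˢ {g : G | ((g • ·) '' (range (L.et e)) ∩ K₀).Nonempty}).Finite := by
      refine S.finite_toSet.biUnion fun q _ => (SF q.1).finite_toSet.biUnion fun e _ => ?_
      exact (finite_singleton e).prod
        (finite_smul_inter hp _ _ (isCompact_range (L.cont e)) hK₀)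
    refine h1.subset ?_
    rintro ⟨e, g⟩ ⟨s, hs0, hs1, hs⟩
    have hs' := hs
    simp only [K₀, mem_iUnion, mem_range] at hs
    obtain ⟨q, hq, ⟨r, t⟩, hx⟩ := hs
    have hx' := congrArg p hx
    rw [hp.map_smul, hp.map_smul, hpft, L.p_et] at hx'
    have hr : r = 1 := c.face_edge _ _ _ _ _ hx'
    subst hr
    have heS : e ∈ SF q.1 := by
      rcases hSF q.1 t with ⟨v, hv⟩ | h
      · rw [hx'] at hv
        rcases c.edge_vert e s v hv.symm with h | h
        · exact absurd h hs0
        · exact absurd h hs1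
      · simp only [mem_iUnion, mem_range] at h
        obtain ⟨e', he', s', hs'⟩ := h
        rw [hx'] at hs'
        obtain ⟨rfl, -⟩ := c.edge_inj e s e' s' hs'.symm hs0 hs1
        exact he'
    simp only [mem_iUnion]
    exact ⟨q, hq, e, heS, rfl, ⟨_, ⟨_, ⟨s, rfl⟩, rfl⟩, hs'⟩⟩
  refine ⟨K₀ ∪ ⋃ eg ∈ BE, range fun s => eg.2 • L.et eg.1 s, BE, ?_, ?_, ?_, ?_⟩
  · exact hK₀.union (hfin.isCompact_biUnion fun eg _ =>
      isCompact_range ((continuous_const_smul eg.2).comp (L.cont eg.1)))
  · intro q hq x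
    left
    simp only [K₀, mem_iUnion, mem_range]
    exact ⟨q, hq, x, rfl⟩
  · rintro e g s hs0 hs1 (h | h)
    · exact ⟨s, hs0, hs1, h⟩
    · simp only [mem_iUnion, mem_range] at h
      obtain ⟨⟨e', g'⟩, h', s', hs'⟩ := h
      have h1 := congrArg p hs'
      rw [hp.map_smul, hp.map_smul, L.p_et, L.p_et] at h1
      obtain ⟨rfl, rfl⟩ := c.edge_inj e s e' s' h1.symm hs0 hs1
      rw [← smul_cancel hp hs']
      exact h'
  · intro e g h s
    right
    simp only [mem_iUnion, mem_range]
    exact ⟨(e, g), h, s, rfl⟩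

theorem independence [T2Space Z] [ContractibleSpace E]
    (hp : IsQuotientCoveringMap p G) (L : Lifts c p G)
    (q₀ : c.Fa × G) (S : Finset (c.Fa × G)) :
    ∃ b : c.Ed × G → ℤ, ∀ q ∈ S, ev b (chain L.φ (c.word q.1) q.2) =
      haveI := Classical.dec (q = q₀)
      if q = q₀ then 1 else 0 := by
  classical
  have := hp.toContinuousConstSMul
  have : T2Space E := t2Space_of_covering hp.isCoveringMap
  choose hw1 ft hft hpft hft0 hftw hbase hpos using fun f => L.exists_face' c hp f
  obtain ⟨K, BE, hK, hSK, hB, hB'⟩ := exists_compact c hp L ft hft hpft (insert q₀ S)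
  -- the distinguished disc
  let D : I × I → E := fun x => q₀.2 • ft q₀.1 x
  have hD : Continuous D := (continuous_const_smul q₀.2).comp (hft q₀.1)
  have hpD : ∀ x, p (D x) = c.face q₀.1 x := fun x => by
    simp only [D]
    rw [hp.map_smul, hpft]
  obtain ⟨s, k, hs, hs0, hk, hk0, hkc, hkw, hsk⟩ := exists_section D hD
    (fun t t' => congrArg (q₀.2 • ·) (hft0 q₀.1 t t'))
    (fun r => congrArg (q₀.2 • ·) (hftw q₀.1 r))
    (fun r t r' t' h hr => (c.face_inj q₀.1 r t q₀.1 r' t' (by rw [← hpD, ← hpD, h]) hr).2)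
    (isOpen_lift_face c hp q₀.1 D hD hpD
      (fun t t' => congrArg (q₀.2 • ·) (hft0 q₀.1 t t'))
      (fun r => congrArg (q₀.2 • ·) (hftw q₀.1 r))) K hK
    (by
      rintro _ ⟨x, rfl⟩
      exact hSK q₀ (Finset.mem_insert_self _ _) x)
  have hO : ∀ (g : G) (q : c.Pos), g • L.at q ∉ D '' {q | q.1 ≠ 1} := by
    rintro g q ⟨⟨r, t⟩, hr, hx⟩
    have h1 := congrArg p hx
    rw [hpD, hp.map_smul, L.p_at] at h1
    cases q with
    | ver v => exact hr (c.face_vert _ _ _ _ h1)
    | arc e s => exact hr (c.face_edge _ _ _ _ _ h1)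
  obtain ⟨L0, l, b, hl, hl0, hl1, hL0, hlt⟩ := exists_logs c L K _ s hs hs0 hO BE hB hB'
  refine ⟨fun eg => b eg.1 eg.2, ?_⟩
  let _ : MulAction (FreeGroup c.Ed) (E × (G → ℂ)) := actM L.φ (fun eg => b eg.1 eg.2)
  have hact1 : ∀ (a : FreeGroup c.Ed) (m : E × (G → ℂ)), (a • m).1 = FreeGroup.lift L.φ a • m.1 :=
    fun _ _ => rfl
  have hact2 : ∀ (a : FreeGroup c.Ed) (m : E × (G → ℂ)) (g : G), (a • m).2 g =
      m.2 (g * FreeGroup.lift L.φ a) +
      (ev (fun eg => b eg.1 eg.2) (chain L.φ a g) : ℂ) * (2 * Real.pi * Complex.I) :=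
    fun _ _ _ => rfl
  have : ContinuousConstSMul (FreeGroup c.Ed) (E × (G → ℂ)) := by
    refine ⟨fun a => ?_⟩
    refine Continuous.prodMk ((continuous_const_smul (FreeGroup.lift L.φ a)).comp continuous_fst) ?_
    refine continuous_pi fun g => ?_
    exact (((continuous_apply _).comp continuous_snd).add continuous_const)
  let Sy : Sys c (FreeGroup.of : c.Ed → _) (E × (G → ℂ)) :=
    { mv := fun v => (L.vt v, fun g => L0 v g)
      me := fun e t => (L.et e t, fun g => l e g t)
      cont := fun e => (L.cont e).prodMk (continuous_pi fun g => hl e g)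
      zero := fun e => by
        refine Prod.ext (L.zero e) ?_
        funext g
        exact hl0 e g
      one := fun e => by
        refine Prod.ext ?_ ?_
        · rw [hact1, FreeGroup.lift_apply_of]
          exact L.one e
        · funext g
          rw [hact2, FreeGroup.lift_apply_of, chain_of, ev_single]
          simp only [hl1, one_mul] }
  have hSy1 : ∀ q : c.Pos, (Sy.at q).1 = L.at q := by
    intro q
    cases q <;> rfl
  have hSy2 : ∀ (q : c.Pos) (g : G), g • L.at q ∈ K →
      Complex.exp ((Sy.at q).2 g) = s (g • L.at q) := by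
    intro q g h
    cases q with
    | ver v => exact hL0 v g h
    | arc e t => exact hlt e g t h
  rintro ⟨f, g⟩ hfg
  have hfK : ∀ x, g • ft f x ∈ K := hSK (f, g) (Finset.mem_insert_of_mem hfg)
  obtain ⟨β, hβ, hβ0, hβ1, hβt⟩ := c.holonomy f Sy
  have hβft : (fun t => (β t).1) = fun t => ft f (1, t) := by
    refine lift_unique hp.isCoveringMap (continuous_fst.comp hβ)
      ((hft f).comp (by fun_prop)) ?_ 0 ?_
    · intro t
      obtain ⟨q, a, h1, -, h3⟩ := hβt t
      rw [h3, hact1, hp.map_smul, hSy1, L.p_at, h1, hpft]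
    · rw [hβ0, hSy1, hbase]
  have hβft' : ∀ t, (β t).1 = ft f (1, t) := fun t => congrFun hβft t
  -- the logarithm along the boundary of the lifted face
  have hexp : ∀ t, Complex.exp ((β t).2 g) = s (g • ft f (1, t)) := by
    intro t
    obtain ⟨q, a, h1, -, h3⟩ := hβt t
    have h4 : ft f (1, t) = FreeGroup.lift L.φ a • L.at q := by
      rw [← hβft', h3, hact1, hSy1]
    have h5 := hfK (1, t)
    rw [h4, ← mul_smul] at h5 ⊢
    rw [h3, hact2, Complex.exp_add, hSy2 q _ h5]
    rw [Complex.exp_int_mul_two_pi_mul_I, mul_one]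
  have hend : (β 1).2 g = (β 0).2 g +
      (ev (fun eg => b eg.1 eg.2) (chain L.φ (c.word f) g) : ℂ) * (2 * Real.pi * Complex.I) := by
    rw [hβ1, hact2, hw1, mul_one]
  have hμ : Continuous fun t => (β t).2 g := (continuous_apply g).comp (continuous_snd.comp hβ)
  have h2pi : (2 * Real.pi * Complex.I : ℂ) ≠ 0 := Complex.two_pi_I_ne_zero
  by_cases heq : (f, g) = q₀
  · subst heq
    rw [if_pos rfl]
    have hwz := winding_zero k hk hk0 hkc hkw
      (fun t => (β t).2 g - 2 * Real.pi * ((t : ℝ) : ℂ) * Complex.I) (by (clear * - hβ; fun_prop)) (by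
        intro t
        rw [Complex.exp_sub, hexp]
        have h6 := hsk t
        simp only [D] at h6
        rw [h6, mul_div_assoc, div_self (Complex.exp_ne_zero _), mul_one])
    simp only [Icc.coe_zero, Icc.coe_one, Complex.ofReal_zero, mul_zero, zero_mul, sub_zero,
      Complex.ofReal_one, mul_one] at hwz
    rw [hend] at hwz
    have h7 : (ev (fun eg => b eg.1 eg.2) (chain L.φ (c.word f) g) : ℂ) *
        (2 * Real.pi * Complex.I) = 1 * (2 * Real.pi * Complex.I) := by
      linear_combination -hwz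
    have h8 := mul_right_cancel₀ h2pi h7
    exact_mod_cast h8
  · rw [if_neg heq]
    have hX : ∀ x, g • ft f x ∈ K \ D '' {q | q.1 ≠ 1} := by
      intro x
      refine ⟨hfK x, ?_⟩
      rintro ⟨q', hq', hx⟩
      have h1 := congrArg p hx
      rw [hpD, hp.map_smul, hpft] at h1
      obtain ⟨h2, h3⟩ := lift_face_eq c (ft := ft) hft0 hftw h1 hq'
      simp only [D] at hx
      rw [h3] at hx
      exact heq (Prod.ext h2.symm (smul_cancel hp hx).symm)
    have hwz := winding_zero (fun x => s (g • ft f x))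
      (hs.comp_continuous ((continuous_const_smul g).comp (hft f)) hX)
      (fun x => hs0 _ (hX x))
      (fun t t' => by rw [hft0 f t t']) (fun r => by rw [hftw f r])
      (fun t => (β t).2 g) hμ hexp
    rw [hend] at hwz
    have h7 : (ev (fun eg => b eg.1 eg.2) (chain L.φ (c.word f) g) : ℂ) *
        (2 * Real.pi * Complex.I) = 0 * (2 * Real.pi * Complex.I) := by
      linear_combination -hwz
    have h8 := mul_right_cancel₀ h2pi h7
    exact_mod_cast h8

end M7

end Vale.Agent.P173.Topo
end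
end

section

section

/-! # P173, topology bridge: assembly -/

open Set Topology unitInterval

namespace Vale.Agent.P173.Topo

universe u v

theorem Cx.nonempty_V {Z : Type u} [TopologicalSpace Z] [Nonempty Z] (c : Cx Z) :
    Nonempty c.V := by
  have key : ∀ x ∈ c.Z1, Nonempty c.V := by
    rintro x (⟨v, _⟩ | h)
    · exact ⟨v⟩
    · obtain ⟨e, _⟩ := mem_iUnion.1 h
      exact ⟨c.src e⟩
  obtain ⟨x⟩ := ‹Nonempty Z›
  rcases c.cover x with h | ⟨f, r, t, _, _⟩
  · exact key x h
  · exact key _ (c.face_one_mem f 0)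

/-- A path connected CW complex of dimension at most two with a contractible covering space gives
an aspherical presentation of its fundamental group. -/
theorem main {Z : Type u} [TopologicalSpace Z] [T2Space Z] [CWComplex (univ : Set Z)]
    (hdim : ∀ n > 2, IsEmpty (RelCWComplex.cell (univ : Set Z) n)) [PathConnectedSpace Z]
    {E : Type v} [TopologicalSpace E] [ContractibleSpace E] {p : E → Z} (hp : IsCoveringMap p)
    (z : Z) {Γ : Type} [Group Γ] (e : FundamentalGroup Z z ≃* Γ) :
    ∃ P : Pres.{u} Γ, P.Aspherical := by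
  obtain ⟨c⟩ := exists_Cx hdim
  obtain ⟨_, hq⟩ := exists_action hp z e
  have : Nonempty Z := ⟨z⟩
  obtain ⟨v₀⟩ := c.nonempty_V
  obtain ⟨L, pw, h0, h1, h2⟩ := exists_lifts c hq v₀
  exact exists_pres c L.φ c.word v₀ pw h0 h1 (fun f => ⟨_, c.isPath_word f⟩) h2
    (fun f => (L.exists_face c hq f).1) (L.surj c hq v₀) (L.ker_le c hq v₀ pw h1 h2)
    (fun q₀ S => independence c hq L q₀ S)

end Vale.Agent.P173.Topo
end
end

section

/-! Main theorem, topological version. -/

namespace Vale.Agent.P173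

universe u v

open CategoryTheory

theorem not_GdLE_of_not_aspherical {Γ : Type} [Group Γ] (h : ∀ P : Pres.{u} Γ, ¬ P.Aspherical) :
    ¬ GdLE.{u, v} Γ 2 := by
  rintro ⟨X, _, _, _, hdim, hX⟩
  obtain ⟨E, _, p, hp, _⟩ := hX.universalCover
  have := hX.pathConnected
  obtain ⟨x⟩ : Nonempty X := inferInstance
  obtain ⟨e⟩ := hX.fundamentalGroup x
  obtain ⟨P, hP⟩ := Topo.main hdim hp x e
  exact h P hP

theorem exists_cd_two_not_gd_two : ∃ (Γ : Type) (_ : Group Γ),
    projectiveDimension (Rep.trivial ℤ Γ ℤ) = 2 ∧ ¬ GdLE.{u, v} Γ 2 :=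
  ⟨GG bigI, inferInstance, cd_eq_two, not_GdLE_of_not_aspherical not_aspherical⟩

end Vale.Agent.P173
end
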